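import Vale.Agent.P165.Prod.Defs
import Vale.Agent.P165.Measure

/-!
Harris and van den Berg–Kesten inequalities in finite volume, and the elementary properties of
the two-point function and of the susceptibility.
-/

namespace Vale.Agent.P165.Prod

open Finset SimpleGraph
open scoped Classical

set_option linter.unusedSectionVars false
set_option linter.unusedVariables false

section Product

variable {α β : Type*} [DecidableEq α] [DecidableEq β]

private lemma ind_nonneg (A : Finset α → Prop) (ω : Finset α) :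
    (0 : ℝ) ≤ if A ω then 1 else 0 := by split_ifs <;> norm_num

private lemma ind_le {A B : Finset α → Prop} {S T : Finset α} (h : A S → B T) :
    (if A S then (1 : ℝ) else 0) ≤ if B T then 1 else 0 := by
  by_cases hS : A S
  · rw [if_pos hS, if_pos (h hS)]
  · rw [if_neg hS]; exact ind_nonneg B T

lemma monotone_ind {A : Finset α → Prop} (hA : Monotone A) :
    Monotone fun ω : Finset α => if A ω then (1 : ℝ) else 0 :=
  fun _ _ h => ind_le (hA h)

private lemma monotone_insert {γ : Type*} [Preorder γ] {f : Finset α → γ} (hf : Monotone f)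
    (a : α) : Monotone fun ω => f (insert a ω) :=
  fun _ _ h => hf (Finset.insert_subset_insert a h)

/-- Harris's inequality. -/
theorem expect_harris {p : ℝ} (hp0 : 0 ≤ p) (hp1 : p ≤ 1) (E : Finset α) (f g : Finset α → ℝ)
    (hf : Monotone f) (hg : Monotone g) :
    expect p E f * expect p E g ≤ expect p E (fun ω => f ω * g ω) := by
  induction E using Finset.induction_on generalizing f g with
  | empty => simp [expect_empty]
  | insert a E ha ih =>
    have hq : 0 ≤ 1 - p := by linarith
    have h0 := ih f g hf hg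
    have h1 := ih _ _ (monotone_insert hf a) (monotone_insert hg a)
    have hfi : expect p E f ≤ expect p E (fun ω => f (insert a ω)) :=
      expect_mono hp0 hp1 fun ω _ => hf (Finset.subset_insert a ω)
    have hgi : expect p E g ≤ expect p E (fun ω => g (insert a ω)) :=
      expect_mono hp0 hp1 fun ω _ => hg (Finset.subset_insert a ω)
    rw [expect_insert ha, expect_insert ha, expect_insert ha]
    nlinarith [mul_le_mul_of_nonneg_left h0 hq, mul_le_mul_of_nonneg_left h1 hp0,
      mul_nonneg (mul_nonneg hp0 hq) (mul_nonneg (sub_nonneg.2 hfi) (sub_nonneg.2 hgi))]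

/-- The van den Berg–Kesten inequality for increasing events. -/
theorem expect_bk {p : ℝ} (hp0 : 0 ≤ p) (hp1 : p ≤ 1) (E : Finset α) (A B : Finset α → Prop)
    (hA : Monotone A) (hB : Monotone B) :
    expect p E (fun ω => if Disj A B ω then 1 else 0)
      ≤ expect p E (fun ω => if A ω then 1 else 0) * expect p E (fun ω => if B ω then 1 else 0) := by
  induction E using Finset.induction_on generalizing A B with
  | empty =>
    simp only [expect_empty]
    by_cases h : Disj A B ∅
    · obtain ⟨K, L, hK, hL, -, h1, h2⟩ := h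
      rw [Finset.subset_empty] at hK hL
      subst hK; subst hL
      rw [if_pos h1, if_pos h2]
      split_ifs <;> norm_num
    · rw [if_neg h]; exact mul_nonneg (ind_nonneg A _) (ind_nonneg B _)
  | insert a E ha ih =>
    set A1 : Finset α → Prop := fun ω => A (insert a ω) with hA1
    set B1 : Finset α → Prop := fun ω => B (insert a ω) with hB1
    have hA1i : Monotone A1 := monotone_insert hA a
    have hB1i : Monotone B1 := monotone_insert hB a
    have hA01 : ∀ {K}, A K → A1 K := fun {K} h => hA (Finset.subset_insert a K) h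
    have hB01 : ∀ {K}, B K → B1 K := fun {K} h => hB (Finset.subset_insert a K) h
    have h00 := ih A B hA hB
    have h10 := ih A1 B hA1i hB
    have h01 := ih A B1 hA hB1i
    have h11 := ih A1 B1 hA1i hB1i
    have hkey : ∀ ω, Disj A B (insert a ω) → Disj A1 B ω ∨ Disj A B1 ω := by
      rintro ω ⟨K, L, hK, hL, hd, hAK, hBL⟩
      have herase : ∀ {M : Finset α}, M ⊆ insert a ω → M.erase a ⊆ ω := fun {M} hM x hx => by
        rw [mem_erase] at hx
        exact (mem_insert.1 (hM hx.2)).resolve_left hx.1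
      have hK' := herase hK
      have hL' := herase hL
      have hd' : Disjoint (K.erase a) (L.erase a) :=
        hd.mono (erase_subset _ _) (erase_subset _ _)
      by_cases haK : a ∈ K
      · have haL : a ∉ L := fun h => Finset.disjoint_left.1 hd haK h
        rw [erase_eq_of_notMem haL] at hL' hd'
        exact Or.inl ⟨_, _, hK', hL', hd', hA (Finset.insert_erase_subset a K) hAK, hBL⟩
      · rw [erase_eq_of_notMem haK] at hK' hd'
        exact Or.inr ⟨_, _, hK', hL', hd', hAK, hB (Finset.insert_erase_subset a L) hBL⟩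
    have hb1 : expect p E (fun ω => if Disj A B (insert a ω) then 1 else 0)
        ≤ expect p E (fun ω => if A1 ω then 1 else 0) *
          expect p E (fun ω => if B1 ω then 1 else 0) := by
      refine le_trans (expect_mono hp0 hp1 fun ω _ => ind_le fun h => ?_) h11
      rcases hkey ω h with ⟨K, L, hK, hL, hd, h1, h2⟩ | ⟨K, L, hK, hL, hd, h1, h2⟩
      · exact ⟨K, L, hK, hL, hd, h1, hB01 h2⟩
      · exact ⟨K, L, hK, hL, hd, hA01 h1, h2⟩
    have hb2 : expect p E (fun ω => if Disj A B (insert a ω) then 1 else 0)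
          + expect p E (fun ω => if Disj A B ω then 1 else 0)
        ≤ expect p E (fun ω => if Disj A1 B ω then 1 else 0)
          + expect p E (fun ω => if Disj A B1 ω then 1 else 0) := by
      rw [← expect_add, ← expect_add]
      refine expect_mono hp0 hp1 fun ω _ => ?_
      by_cases h : Disj A B ω
      · obtain ⟨K, L, hK, hL, hd, h1, h2⟩ := h
        rw [if_pos (show Disj A1 B ω from ⟨K, L, hK, hL, hd, hA01 h1, h2⟩),
          if_pos (show Disj A B1 ω from ⟨K, L, hK, hL, hd, h1, hB01 h2⟩)]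
        exact add_le_add (by split_ifs <;> norm_num) (by split_ifs <;> norm_num)
      · rw [if_neg h, add_zero]
        by_cases h' : Disj A B (insert a ω)
        · rw [if_pos h']
          rcases hkey ω h' with h1 | h1
          · rw [if_pos h1]; exact le_add_of_nonneg_right (ind_nonneg _ _)
          · rw [if_pos h1]; exact le_add_of_nonneg_left (ind_nonneg _ _)
        · rw [if_neg h']; exact add_nonneg (ind_nonneg _ _) (ind_nonneg _ _)
    rw [expect_insert ha, expect_insert ha, expect_insert ha]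
    have hq : 0 ≤ 1 - p := by linarith
    nlinarith [mul_le_mul_of_nonneg_left hb1 (mul_nonneg hp0 hp0),
      mul_le_mul_of_nonneg_left (hb2.trans (add_le_add h10 h01)) (mul_nonneg hp0 hq),
      mul_le_mul_of_nonneg_left h00 (mul_nonneg hq hq)]

/-- Monotone expectations increase with `p`. -/
theorem expect_mono_p {p q : ℝ} (hp0 : 0 ≤ p) (hpq : p ≤ q) (hq1 : q ≤ 1) (E : Finset α)
    (f : Finset α → ℝ) (hf : Monotone f) : expect p E f ≤ expect q E f := by
  induction E using Finset.induction_on generalizing f with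
  | empty => simp [expect_empty]
  | insert a E ha ih =>
    rw [expect_insert ha, expect_insert ha]
    have h0 := ih f hf
    have h1 := ih _ (monotone_insert hf a)
    have h2 : expect p E f ≤ expect p E (fun ω => f (insert a ω)) :=
      expect_mono hp0 (hpq.trans hq1) fun ω _ => hf (Finset.subset_insert a ω)
    nlinarith [mul_le_mul_of_nonneg_left h0 (show (0 : ℝ) ≤ 1 - q by linarith),
      mul_le_mul_of_nonneg_left h1 (hp0.trans hpq),
      mul_nonneg (sub_nonneg.2 hpq) (sub_nonneg.2 h2)]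

/-- A function of the elements in `E` only has the same expectation in a larger set. -/
theorem expect_subset {p : ℝ} {E F : Finset α} (h : E ⊆ F) (f : Finset α → ℝ) :
    expect p F (fun ω => f (ω ∩ E)) = expect p E f := by
  conv_lhs => rw [← Finset.union_sdiff_of_subset h, expect_union Finset.disjoint_sdiff]
  refine expect_congr fun a ha => ?_
  rw [expect_congr (g := fun _ => f a) fun b hb => ?_, expect_const]
  congr 1
  ext x
  simp only [Finset.mem_inter, Finset.mem_union]
  exact ⟨fun hx => hx.1.resolve_right fun hxb => (mem_sdiff.1 (hb hxb)).2 hx.2,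
    fun hx => ⟨Or.inl hx, ha hx⟩⟩

/-- Enlarging the set of available elements increases monotone expectations. -/
theorem expect_subset_mono {p : ℝ} (hp0 : 0 ≤ p) (hp1 : p ≤ 1) {E F : Finset α} (h : E ⊆ F)
    (f : Finset α → ℝ) (hf : Monotone f) : expect p E f ≤ expect p F f := by
  rw [← expect_subset (p := p) h f]
  exact expect_mono hp0 hp1 fun ω _ => hf Finset.inter_subset_left

/-- Transport by an injective map. -/
theorem expect_image {g : α → β} (hg : Function.Injective g) (p : ℝ) (E : Finset α)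
    (f : Finset β → ℝ) : expect p (E.image g) f = expect p E (fun ω => f (ω.image g)) := by
  unfold expect
  rw [Finset.powerset_image, Finset.sum_image (Finset.image_injective hg).injOn]
  refine Finset.sum_congr rfl fun A _ => ?_
  rw [Finset.card_image_of_injective _ hg, Finset.card_image_of_injective _ hg]

theorem continuous_expect (E : Finset α) (f : Finset α → ℝ) :
    Continuous fun p => expect p E f := by
  unfold expect; fun_prop

end Product

section Volume

variable {V : Type*} (G : SimpleGraph V) [G.LocallyFinite] {p q : ℝ}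

lemma monotone_reach (x y : V) : Monotone fun ω : Finset (Sym2 V) => (og ω).Reachable x y :=
  fun _ _ h h' => Reachable.mono (og_mono h) h'

lemma edgesIn_mono {S S' : Finset V} (h : S ⊆ S') : edgesIn G S ⊆ edgesIn G S' := by
  intro e
  induction e using Sym2.ind with
  | h x y =>
    rw [mem_edgesIn, mem_edgesIn]
    exact fun ⟨ha, hx, hy⟩ => ⟨ha, h hx, h hy⟩

theorem tauV_nonneg (hp0 : 0 ≤ p) (hp1 : p ≤ 1) (S : Finset V) (x y : V) : 0 ≤ tauV G p S x y :=
  expect_nonneg hp0 hp1 fun ω _ => by split_ifs <;> norm_num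

theorem tauV_le_one (hp0 : 0 ≤ p) (hp1 : p ≤ 1) (S : Finset V) (x y : V) : tauV G p S x y ≤ 1 :=
  (expect_mono hp0 hp1 fun ω _ => by split_ifs <;> norm_num).trans_eq (expect_const p _ 1)

theorem tauV_self (S : Finset V) (x : V) : tauV G p S x x = 1 := by
  rw [tauV, expect_congr (g := fun _ => (1 : ℝ)) fun ω _ => if_pos (Reachable.refl (G := og ω) x),
    expect_const]

theorem tauV_comm (S : Finset V) (x y : V) : tauV G p S x y = tauV G p S y x :=
  expect_congr fun ω _ => by
    by_cases h : (og ω).Reachable x y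
    · rw [if_pos h, if_pos h.symm]
    · rw [if_neg h, if_neg fun h' => h h'.symm]

theorem tauV_mono_set (hp0 : 0 ≤ p) (hp1 : p ≤ 1) {S S' : Finset V} (h : S ⊆ S') (x y : V) :
    tauV G p S x y ≤ tauV G p S' x y :=
  expect_subset_mono hp0 hp1 (edgesIn_mono G h) _ (monotone_ind (monotone_reach x y))

theorem tauV_mono_p (hp0 : 0 ≤ p) (hpq : p ≤ q) (hq1 : q ≤ 1) (S : Finset V) (x y : V) :
    tauV G p S x y ≤ tauV G q S x y :=
  expect_mono_p hp0 hpq hq1 _ _ (monotone_ind (monotone_reach x y))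

theorem tauV_mul_le (hp0 : 0 ≤ p) (hp1 : p ≤ 1) (S : Finset V) (x y z : V) :
    tauV G p S x y * tauV G p S y z ≤ tauV G p S x z := by
  refine (expect_harris hp0 hp1 _ _ _ (monotone_ind (monotone_reach x y))
    (monotone_ind (monotone_reach y z))).trans (expect_mono hp0 hp1 fun ω _ => ?_)
  by_cases h1 : (og ω).Reachable x y
  · rw [if_pos h1, one_mul]
    by_cases h2 : (og ω).Reachable y z
    · rw [if_pos h2, if_pos (h1.trans h2)]
    · rw [if_neg h2]; split_ifs <;> norm_num
  · rw [if_neg h1, zero_mul]; split_ifs <;> norm_num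

theorem continuous_tauV (S : Finset V) (x y : V) : Continuous fun q => tauV G q S x y :=
  continuous_expect _ _

lemma monotone_card_cluster (S : Finset V) (x : V) :
    Monotone fun ω : Finset (Sym2 V) => ((cluster ω S x).card : ℝ) ^ 2 := fun a b h => by
  simp only
  gcongr
  exact fun y hy => by
    simp only [cluster, mem_filter] at hy ⊢
    exact ⟨hy.1, hy.2.mono (og_mono h)⟩

theorem sqV_mono_p (hp0 : 0 ≤ p) (hpq : p ≤ q) (hq1 : q ≤ 1) (S : Finset V) (x : V) :
    sqV G p S x ≤ sqV G q S x :=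
  expect_mono_p hp0 hpq hq1 _ _ (monotone_card_cluster S x)

theorem ChiLe.mono (hp0 : 0 ≤ p) (hpq : p ≤ q) (hq1 : q ≤ 1) {K : ℝ} (h : ChiLe G q K) :
    ChiLe G p K := fun S x hx =>
  (sum_le_sum fun y _ => tauV_mono_p G hp0 hpq hq1 S x y).trans (h S x hx)

/-- Outside `S` a vertex is connected only to itself inside `S`. -/
theorem tauV_eq_zero {S : Finset V} {x y : V} (hx : x ∉ S) (hxy : y ≠ x) :
    tauV G p S x y = 0 := by
  rw [tauV, expect_congr (g := fun _ => (0 : ℝ)) fun ω hω => ?_, expect_const]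
  refine if_neg ?_
  rintro ⟨r⟩
  cases r with
  | nil => exact hxy rfl
  | cons h r => exact hx ((mem_edgesIn G).1 (hω (og_adj.1 h).1)).2.1

lemma reach_image {W : Type*} {g : V → W} (hg : Function.Injective g) (x y : V)
    (ω : Finset (Sym2 V)) :
    (og (ω.image (Sym2.map g))).Reachable (g x) (g y) ↔ (og ω).Reachable x y := by
  constructor
  · intro h
    have key : ∀ a b : W, (og (ω.image (Sym2.map g))).Walk a b →
        ∀ u, g u = a → ∃ v, g v = b ∧ (og ω).Reachable u v := by
      intro a b π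
      induction π with
      | nil => exact fun u hu => ⟨u, hu, Reachable.refl _⟩
      | @cons a c b hac q ih =>
        rintro u rfl
        rw [og_adj, Finset.mem_image] at hac
        obtain ⟨⟨e, he, heq⟩, hne⟩ := hac
        induction e using Sym2.ind with
        | h s t =>
          rw [Sym2.map_mk, Sym2.eq_iff] at heq
          rcases heq with ⟨h1, h2⟩ | ⟨h1, h2⟩
          · obtain rfl := hg h1
            obtain ⟨v, hv, hr⟩ := ih t h2
            exact ⟨v, hv, Reachable.trans
              (og_adj.2 ⟨he, fun hst => hne (by rw [← h2, hst])⟩).reachable hr⟩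
          · obtain rfl := hg h2
            obtain ⟨v, hv, hr⟩ := ih s h1
            exact ⟨v, hv, Reachable.trans
              (og_adj.2 ⟨Sym2.eq_swap ▸ he, fun hst => hne (by rw [← h1, hst])⟩).reachable hr⟩
    obtain ⟨π⟩ := h
    obtain ⟨v, hv, hr⟩ := key _ _ π x rfl
    obtain rfl := hg hv
    exact hr
  · rintro ⟨π⟩
    induction π with
    | nil => exact Reachable.refl _
    | @cons a b c hab q ih =>
      rw [og_adj] at hab
      exact Reachable.trans (og_adj.2 ⟨Finset.mem_image.2 ⟨s(a, b), hab.1, by simp⟩,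
        fun h => hab.2 (hg h)⟩).reachable ih

end Volume

section Cayley

variable {Γ : Type} [Group Γ] (S : Finset Γ) [(mulCayley (S : Set Γ)).LocallyFinite] {p q : ℝ}

lemma edgesIn_translate (g : Γ) (W : Finset Γ) :
    edgesIn (mulCayley (S : Set Γ)) (W.image (g * ·))
      = (edgesIn (mulCayley (S : Set Γ)) W).image (Sym2.map (g * ·)) := by
  ext e
  induction e using Sym2.ind with
  | h x y =>
    simp only [mem_edgesIn, Finset.mem_image]
    constructor
    · rintro ⟨ha, hx, hy⟩
      obtain ⟨a, haW, rfl⟩ := hx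
      obtain ⟨b, hbW, rfl⟩ := hy
      exact ⟨s(a, b), (mem_edgesIn _).2 ⟨mulCayley_adj_mul_iff_right.1 ha, haW, hbW⟩,
        by simp⟩
    · rintro ⟨e', he', heq⟩
      induction e' using Sym2.ind with
      | h a b =>
        rw [mem_edgesIn] at he'
        obtain ⟨hadj, haW, hbW⟩ := he'
        rw [Sym2.map_mk, Sym2.eq_iff] at heq
        rcases heq with ⟨rfl, rfl⟩ | ⟨rfl, rfl⟩
        · exact ⟨mulCayley_adj_mul_iff_right.2 hadj, ⟨a, haW, rfl⟩, ⟨b, hbW, rfl⟩⟩
        · exact ⟨mulCayley_adj_mul_iff_right.2 hadj.symm, ⟨b, hbW, rfl⟩, ⟨a, haW, rfl⟩⟩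

theorem tauV_translate (g : Γ) (W : Finset Γ) (x y : Γ) :
    tauV (mulCayley (S : Set Γ)) p (W.image (g * ·)) (g * x) (g * y)
      = tauV (mulCayley (S : Set Γ)) p W x y := by
  unfold tauV
  rw [edgesIn_translate, expect_image (Sym2.map.injective (mul_right_injective g))]
  exact expect_congr fun ω _ => if_congr (reach_image (mul_right_injective g) x y ω) rfl rfl

theorem chiV_translate (g : Γ) (W : Finset Γ) (x : Γ) :
    chiV (mulCayley (S : Set Γ)) p (W.image (g * ·)) (g * x)
      = chiV (mulCayley (S : Set Γ)) p W x := by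
  unfold chiV
  rw [sum_image (mul_right_injective g).injOn]
  exact sum_congr rfl fun y _ => tauV_translate S g W x y

theorem sqV_translate (g : Γ) (W : Finset Γ) (x : Γ) :
    sqV (mulCayley (S : Set Γ)) p (W.image (g * ·)) (g * x)
      = sqV (mulCayley (S : Set Γ)) p W x := by
  unfold sqV
  rw [edgesIn_translate, expect_image (Sym2.map.injective (mul_right_injective g))]
  refine expect_congr fun ω _ => ?_
  have : cluster (ω.image (Sym2.map (g * ·))) (W.image (g * ·)) (g * x)
      = (cluster ω W x).image (g * ·) := by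
    unfold cluster
    rw [filter_image]
    exact congrArg (Finset.image (g * ·))
      (filter_congr fun y _ => reach_image (mul_right_injective g) x y ω)
  rw [this, card_image_of_injective _ (mul_right_injective g)]

lemma bddAbove_tauV (hp0 : 0 ≤ p) (hp1 : p ≤ 1) (g : Γ) :
    BddAbove (Set.range fun W : Finset Γ => tauV (mulCayley (S : Set Γ)) p W 1 g) :=
  ⟨1, by rintro r ⟨W, rfl⟩; exact tauV_le_one _ hp0 hp1 _ _ _⟩

lemma le_tau1 (hp0 : 0 ≤ p) (hp1 : p ≤ 1) (W : Finset Γ) (g : Γ) :
    tauV (mulCayley (S : Set Γ)) p W 1 g ≤ tau1 S p g :=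
  le_ciSup (bddAbove_tauV S hp0 hp1 g) W

theorem tau1_nonneg (hp0 : 0 ≤ p) (hp1 : p ≤ 1) (g : Γ) : 0 ≤ tau1 S p g :=
  (tauV_nonneg _ hp0 hp1 ∅ 1 g).trans (le_tau1 S hp0 hp1 ∅ g)

theorem tau1_le_one (hp0 : 0 ≤ p) (hp1 : p ≤ 1) (g : Γ) : tau1 S p g ≤ 1 :=
  ciSup_le fun W => tauV_le_one _ hp0 hp1 W 1 g

theorem tau1_mono (hp0 : 0 ≤ p) (hpq : p ≤ q) (hq1 : q ≤ 1) (g : Γ) :
    tau1 S p g ≤ tau1 S q g :=
  ciSup_le fun W => (tauV_mono_p _ hp0 hpq hq1 W 1 g).trans (le_tau1 S (hp0.trans hpq) hq1 W g)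

theorem tauV_le_tau1 (hp0 : 0 ≤ p) (hp1 : p ≤ 1) (W : Finset Γ) (x y : Γ) :
    tauV (mulCayley (S : Set Γ)) p W x y ≤ tau1 S p (x⁻¹ * y) := by
  rw [← tauV_translate S x⁻¹ W x y, inv_mul_cancel]
  exact le_tau1 S hp0 hp1 _ _

theorem tau1_inv (g : Γ) : tau1 S p g⁻¹ = tau1 S p g := by
  have key : ∀ (g : Γ) (W : Finset Γ), tauV (mulCayley (S : Set Γ)) p W 1 g⁻¹
      = tauV (mulCayley (S : Set Γ)) p (W.image (g * ·)) 1 g := fun g W => by
    rw [← tauV_translate S g W 1 g⁻¹, mul_one, mul_inv_cancel, tauV_comm]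
  unfold tau1 iSup
  congr 1
  ext r
  constructor
  · rintro ⟨W, rfl⟩
    exact ⟨W.image (g * ·), (key g W).symm⟩
  · rintro ⟨W, rfl⟩
    refine ⟨W.image (g⁻¹ * ·), ?_⟩
    simp only
    rw [key, Finset.image_image]
    simp [Function.comp_def]

theorem tau1_mul_le (hp0 : 0 ≤ p) (hp1 : p ≤ 1) (g h : Γ) :
    tau1 S p g * tau1 S p h ≤ tau1 S p (g * h) := by
  refine Real.iSup_mul_of_nonneg (tau1_nonneg S hp0 hp1 h) _ |>.trans_le (ciSup_le fun W => ?_)
  refine Real.mul_iSup_of_nonneg (tauV_nonneg _ hp0 hp1 W 1 g) _ |>.trans_le (ciSup_le fun W' => ?_)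
  rw [← tauV_translate S g W' 1 h, mul_one]
  exact (mul_le_mul (tauV_mono_set _ hp0 hp1 Finset.subset_union_left 1 g)
    (tauV_mono_set _ hp0 hp1 Finset.subset_union_right g (g * h))
    (tauV_nonneg _ hp0 hp1 _ _ _) (tauV_nonneg _ hp0 hp1 _ _ _)).trans
    ((tauV_mul_le _ hp0 hp1 (W ∪ W'.image (g * ·)) 1 g (g * h)).trans (le_tau1 S hp0 hp1 _ _))

theorem tau1_pos (hS : ∀ s ∈ S, s⁻¹ ∈ S) (h1 : (1 : Γ) ∉ S)
    (hgen : Subgroup.closure (S : Set Γ) = ⊤) (hp0 : 0 < p) (hp1 : p ≤ 1) (g : Γ) :
    0 < tau1 S p g := by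
  have hg : g ∈ Subgroup.closure (S : Set Γ) := hgen ▸ Subgroup.mem_top g
  induction hg using Subgroup.closure_induction with
  | mem s hs =>
    have hne : (1 : Γ) ≠ s := fun h => h1 (by rw [h]; exact hs)
    have hadj : (mulCayley (S : Set Γ)).Adj 1 s :=
      (mulCayley_adj' _ _ _).2 ⟨hne, s, hs, Or.inl (one_mul s)⟩
    refine lt_of_lt_of_le hp0 (le_trans ?_ (le_tau1 S hp0.le hp1 ({1, s} : Finset Γ) s))
    have he : s((1 : Γ), s) ∈ edgesIn (mulCayley (S : Set Γ)) ({1, s} : Finset Γ) :=
      (mem_edgesIn _).2 ⟨hadj, by simp, by simp⟩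
    have := expect_contains (p := p) (Finset.singleton_subset_iff.2 he :
      ({s((1 : Γ), s)} : Finset (Sym2 Γ)) ⊆ _) (fun _ => (1 : ℝ))
    rw [expect_const, mul_one, card_singleton, pow_one] at this
    refine this.ge.trans (expect_mono hp0.le hp1 fun ω _ => ?_)
    by_cases hm : ({s((1 : Γ), s)} : Finset (Sym2 Γ)) ⊆ ω
    · rw [if_pos hm, if_pos (og_adj.2 ⟨Finset.singleton_subset_iff.1 hm, hne⟩).reachable]
    · rw [if_neg hm]; split_ifs <;> norm_num
  | one =>
    exact lt_of_lt_of_le (by rw [tauV_self]; exact one_pos) (le_tau1 S hp0.le hp1 ∅ 1)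
  | mul a b _ _ ha hb =>
    exact lt_of_lt_of_le (mul_pos ha hb) (tau1_mul_le S hp0.le hp1 a b)
  | inv a _ ha => rwa [tau1_inv]

lemma chiV_le_of_chiLe {K : ℝ} (h : ChiLe (mulCayley (S : Set Γ)) p K) (W : Finset Γ) :
    chiV (mulCayley (S : Set Γ)) p W 1 ≤ K := by
  by_cases hW : (1 : Γ) ∈ W
  · exact h W 1 hW
  · rw [chiV, sum_eq_zero fun y hy => tauV_eq_zero _ hW fun he => hW (he ▸ hy)]
    have := h {1} 1 (mem_singleton_self _)
    rw [chiV, sum_singleton, tauV_self] at this
    linarith

theorem chi_le {K : ℝ} (h : ChiLe (mulCayley (S : Set Γ)) p K) : chi S p ≤ K :=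
  ciSup_le (chiV_le_of_chiLe S h)

lemma chiV_le_chi {K : ℝ} (h : ChiLe (mulCayley (S : Set Γ)) p K) (W : Finset Γ) :
    chiV (mulCayley (S : Set Γ)) p W 1 ≤ chi S p :=
  le_ciSup ⟨K, by rintro r ⟨W, rfl⟩; exact chiV_le_of_chiLe S h W⟩ W

theorem chiLe_chi (hp0 : 0 ≤ p) (hp1 : p ≤ 1) {K : ℝ} (h : ChiLe (mulCayley (S : Set Γ)) p K) :
    ChiLe (mulCayley (S : Set Γ)) p (chi S p) := fun W x _ => by
  rw [← chiV_translate S x⁻¹ W x, inv_mul_cancel]
  exact chiV_le_chi S h _

theorem one_le_chi (hp0 : 0 ≤ p) (hp1 : p ≤ 1) {K : ℝ} (h : ChiLe (mulCayley (S : Set Γ)) p K) :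
    1 ≤ chi S p := by
  have := chiV_le_chi S h {1}
  rwa [chiV, sum_singleton, tauV_self] at this

theorem exists_chiV_gt (hp0 : 0 ≤ p) (hp1 : p ≤ 1) {r : ℝ} (hr : r < chi S p) :
    ∃ W : Finset Γ, (1 : Γ) ∈ W ∧ r < chiV (mulCayley (S : Set Γ)) p W 1 := by
  obtain ⟨W, hW⟩ := exists_lt_of_lt_ciSup hr
  refine ⟨insert 1 W, mem_insert_self _ _, hW.trans_le ?_⟩
  exact (sum_le_sum fun y _ => tauV_mono_set _ hp0 hp1 (subset_insert _ _) 1 y).trans
    (sum_le_sum_of_subset_of_nonneg (subset_insert _ _) fun y _ _ => tauV_nonneg _ hp0 hp1 _ _ _)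

theorem sum_tau1_le (hp0 : 0 ≤ p) (hp1 : p ≤ 1) {K : ℝ} (h : ChiLe (mulCayley (S : Set Γ)) p K)
    (F : Finset Γ) : ∑ g ∈ F, tau1 S p g ≤ chi S p := by
  refine le_of_forall_pos_le_add fun ε hε => ?_
  set δ := ε / (F.card + 1) with hδ
  have hδ0 : 0 < δ := by positivity
  have hex : ∀ g, ∃ W : Finset Γ, tau1 S p g - δ < tauV (mulCayley (S : Set Γ)) p W 1 g :=
    fun g => exists_lt_of_lt_ciSup (show tau1 S p g - δ < tau1 S p g by linarith)
  choose Wg hWg using hex
  set U := F ∪ F.biUnion Wg with hU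
  calc ∑ g ∈ F, tau1 S p g ≤ ∑ g ∈ F, (tauV (mulCayley (S : Set Γ)) p U 1 g + δ) :=
        sum_le_sum fun g hg => by
          have := tauV_mono_set (mulCayley (S : Set Γ)) hp0 hp1
            (show Wg g ⊆ U from (subset_biUnion_of_mem Wg hg).trans subset_union_right) 1 g
          linarith [hWg g]
    _ = ∑ g ∈ F, tauV (mulCayley (S : Set Γ)) p U 1 g + F.card * δ := by
        rw [sum_add_distrib, sum_const, nsmul_eq_mul]
    _ ≤ chi S p + ε := by
        refine add_le_add ((sum_le_sum_of_subset_of_nonneg subset_union_left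
          fun y _ _ => tauV_nonneg _ hp0 hp1 U 1 y).trans (chiV_le_chi S h U)) ?_
        rw [hδ, ← mul_div_assoc, div_le_iff₀ (by positivity)]
        nlinarith

theorem exists_sum_tau1_gt (hp0 : 0 ≤ p) (hp1 : p ≤ 1) {r : ℝ} (hr : r < chi S p) :
    ∃ F : Finset Γ, r < ∑ g ∈ F, tau1 S p g := by
  obtain ⟨W, hW⟩ := exists_lt_of_lt_ciSup hr
  exact ⟨W, hW.trans_le (sum_le_sum fun g _ => le_tau1 S hp0 hp1 W g)⟩

end Cayley

end Vale.Agent.P165.Prod
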