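import Vale.Agent.P165.Finite

/-!
Percolation in finite volume on a graph, its suprema on a Cayley graph, and the combinatorial
data from which nonuniqueness is derived for products of free groups.
-/

namespace Vale.Agent.P165.Prod

open Finset SimpleGraph
open scoped Classical

/-- Disjoint occurrence of two events. -/
def Disj {α : Type*} (A B : Finset α → Prop) (ω : Finset α) : Prop :=
  ∃ a b : Finset α, a ⊆ ω ∧ b ⊆ ω ∧ Disjoint a b ∧ A a ∧ B b

variable {V : Type*} (G : SimpleGraph V) [G.LocallyFinite]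

/-- Probability that `x` and `y` are connected inside `S`. -/
noncomputable def tauV (p : ℝ) (S : Finset V) (x y : V) : ℝ :=
  expect p (edgesIn G S) (fun ω => if (og ω).Reachable x y then 1 else 0)

/-- Expected size of the cluster of `x` inside `S`. -/
noncomputable def chiV (p : ℝ) (S : Finset V) (x : V) : ℝ := ∑ y ∈ S, tauV G p S x y

/-- Expected squared size of the cluster of `x` inside `S`. -/
noncomputable def sqV (p : ℝ) (S : Finset V) (x : V) : ℝ :=
  expect p (edgesIn G S) (fun ω => ((cluster ω S x).card : ℝ) ^ 2)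

/-- The susceptibility is at most `K`. -/
def ChiLe (p K : ℝ) : Prop := ∀ (S : Finset V), ∀ x ∈ S, chiV G p S x ≤ K

/-- The two-point matrix has norm at most `K` on `ℓ²`. -/
def OpLe (p K : ℝ) : Prop :=
  ∀ (S : Finset V) (f h : V → ℝ), (∀ x, 0 ≤ f x) → (∀ x, 0 ≤ h x) →
    ∑ x ∈ S, ∑ y ∈ S, f x * tauV G p S x y * h y
      ≤ K * Real.sqrt (∑ x ∈ S, f x ^ 2) * Real.sqrt (∑ y ∈ S, h y ^ 2)

/-- The susceptibility threshold. -/
noncomputable def pchi : ℝ := sSup {p : ℝ | p ∈ Set.Icc (0 : ℝ) 1 ∧ ∃ K, ChiLe G p K}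

section Cayley

variable {Γ : Type*} [Group Γ] (S : Finset Γ) [(mulCayley (S : Set Γ)).LocallyFinite]

/-- The two-point function of the Cayley graph, as a function on the group. -/
noncomputable def tau1 (p : ℝ) (g : Γ) : ℝ :=
  ⨆ W : Finset Γ, tauV (mulCayley (S : Set Γ)) p W 1 g

/-- The susceptibility of the Cayley graph. -/
noncomputable def chi (p : ℝ) : ℝ :=
  ⨆ W : Finset Γ, chiV (mulCayley (S : Set Γ)) p W 1

end Cayley

/-- The combinatorial data used in the proof: three half-spaces with a bounded number of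
centres for each triple, and a scale decomposition of pairs `(g, w)` according to which
ends of `g` survive in `g * w`. -/
structure Geo (Γ : Type) [Group Γ] where
  T : Finset Γ
  H : Fin 3 → Set Γ
  K : ℕ
  cover_left : ∀ j g, ∃ v ∈ T, v * g ∈ H j
  median : ∀ (x : Fin 3 → Γ) (A : Finset Γ), (∀ a ∈ A, ∀ j, a⁻¹ * x j ∈ H j) → A.card ≤ K
  L : Type
  Key : Type
  n : ℕ
  labs : ℕ → Finset L
  piece : ℕ → ℕ → L → Γ → Γ → Prop
  kf : ℕ → ℕ → L → Γ → Key
  ky : ℕ → ℕ → L → Γ → Key
  key_eq : ∀ lo hi l g w, piece lo hi l g w → ky lo hi l (g * w) = kf lo hi l g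
  cover : ∀ R : ℕ → ℕ, StrictMono R → ∀ g w,
    ∃ j < n, ∃ l ∈ labs (R j), piece (R j) (R (j + 1)) l g w
  good : ℕ → ℕ → L → Γ → Γ → Set Γ
  cover_right : ∀ lo hi l g w u, ∃ v ∈ T, u * v ∈ good lo hi l g w
  inj : ∀ U : Finset Γ, ∃ h0 : ℕ, ∀ lo hi, h0 ≤ hi → lo < hi → ∀ l w g g' u u',
    u ∈ U → u' ∈ U → piece lo hi l g w → piece lo hi l g' w →
    kf lo hi l g = kf lo hi l g' → u ∈ good lo hi l g w → u' ∈ good lo hi l g' w →
    u * g = u' * g' → g = g'

end Vale.Agent.P165.Prod
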