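import Vale.Agent.P165.Prod.FreeWord

/-!
A subgroup of a free group containing a nontrivial normal subgroup has elements with prescribed
first and last letters, hence finite covering sets for cylinders and for forbidden last letters.
-/

namespace Vale.Agent.P165.NormalWords

open FreeGroup List Vale.Agent.P165.FreeWord

variable {α : Type*} [DecidableEq α]

/-- The last letter of a product when the right factor's first letter does not cancel. -/
theorem getLast?_mul {g h : FreeGroup α} (hh : h ≠ 1)
    (hn : ∀ a ∈ g.toWord.getLast?, ∀ b ∈ h.toWord.head?, b ≠ flp a) :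
    (g * h).toWord.getLast? = h.toWord.getLast? := by
  rw [toWord_mul, (isReduced_append isReduced_toWord isReduced_toWord hn).reduce_eq,
    List.getLast?_append_of_ne_nil _ (fun e => hh (toWord_eq_nil_iff.1 e))]

variable [Fintype α] [Nontrivial α]

/-- A suitable conjugate of a nontrivial element starts with `s` and ends with its inverse. -/
theorem exists_conj_ends {n : FreeGroup α} (hn : n ≠ 1) (s : α × Bool) :
    ∃ c, (c * n * c⁻¹).toWord.head? = some s ∧ (c * n * c⁻¹).toWord.getLast? = some (flp s) := by
  have hne : n.toWord ≠ [] := fun e => hn (toWord_eq_nil_iff.1 e)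
  obtain ⟨y, hy⟩ := exists_letter
    ({flp (n.toWord.head hne), n.toWord.getLast hne, flp s} : Finset (α × Bool))
    (Finset.card_le_three)
  simp only [Finset.mem_insert, Finset.mem_singleton, not_or] at hy
  obtain ⟨hy1, hy2, hy3⟩ := hy
  have hc : IsReduced [s, y] := by
    rw [isReduced_cons_cons]
    exact ⟨ne_flp_iff.1 hy3, IsReduced.singleton⟩
  have h1 : IsReduced ([s, y] ++ n.toWord) := by
    refine isReduced_append hc isReduced_toWord ?_
    intro a ha b hb
    simp only [List.getLast?_cons_cons, List.getLast?_singleton, Option.mem_some_iff] at ha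
    rw [List.head?_eq_some_head hne, Option.mem_some_iff] at hb
    subst ha hb
    exact fun e => hy1 (by rw [e, flp_flp])
  have h2 : IsReduced ([s, y] ++ n.toWord ++ invRev [s, y]) := by
    refine isReduced_append h1 (isReduced_invRev hc) ?_
    intro a ha b hb
    rw [List.getLast?_append_of_ne_nil _ hne, List.getLast?_eq_some_getLast hne,
      Option.mem_some_iff] at ha
    simp only [head?_invRev, List.getLast?_cons_cons, List.getLast?_singleton, Option.map_some,
      Option.mem_some_iff] at hb
    subst ha hb
    exact fun e => hy2 (flp_injective e)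
  refine ⟨mk [s, y], ?_⟩
  have hw : (mk [s, y] * n * (mk [s, y])⁻¹).toWord = [s, y] ++ n.toWord ++ invRev [s, y] := by
    rw [show mk [s, y] * n * (mk [s, y])⁻¹ = mk ([s, y] ++ n.toWord ++ invRev [s, y]) by
      simp only [mk_append, mk_invRev, mk_toWord], toWord_mk_of_isReduced h2]
  rw [hw]
  refine ⟨rfl, ?_⟩
  rw [List.getLast?_append_of_ne_nil _ (fun e => by simp [invRev] at e), getLast?_invRev]
  rfl

/-- A subgroup containing all conjugates of a nontrivial element has, for any two letters, an
element starting with the first and ending with the second. -/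
theorem exists_mem_ends {N : Subgroup (FreeGroup α)} {n : FreeGroup α} (hn : n ≠ 1)
    (hN : ∀ c, c * n * c⁻¹ ∈ N) (s t : α × Bool) :
    ∃ v ∈ N, v.toWord.head? = some s ∧ v.toWord.getLast? = some t := by
  obtain ⟨c, hc1, hc2⟩ := exists_conj_ends hn s
  by_cases h : t = flp s
  · exact ⟨_, hN c, hc1, h ▸ hc2⟩
  obtain ⟨d, hd1, hd2⟩ := exists_conj_ends hn (flp t)
  rw [flp_flp] at hd2
  have hne : ∀ {w : FreeGroup α} {a : α × Bool}, w.toWord.head? = some a → w ≠ 1 := by
    rintro w a hw rfl
    simp at hw
  have hj : ∀ a ∈ (c * n * c⁻¹).toWord.getLast?, ∀ b ∈ (d * n * d⁻¹).toWord.head?, b ≠ flp a := by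
    intro a ha b hb
    rw [hc2, Option.mem_some_iff] at ha
    rw [hd1, Option.mem_some_iff] at hb
    subst ha hb
    rw [flp_flp]
    exact fun e => h (by rw [← e, flp_flp])
  refine ⟨_, mul_mem (hN c) (hN d), ?_, ?_⟩
  · rw [head_mul (hne hc1) hj, hc1]
  · rw [getLast?_mul (hne hd1) hj, hd2]

/-- Finitely many elements of such a subgroup move every element into a given cylinder by left
multiplication, and away from two given last letters by right multiplication. -/
theorem exists_cover {N : Subgroup (FreeGroup α)} {n : FreeGroup α} (hn : n ≠ 1)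
    (hN : ∀ c, c * n * c⁻¹ ∈ N) :
    ∃ W : Finset (FreeGroup α), (∀ v ∈ W, v ∈ N) ∧
      (∀ s x, ∃ v ∈ W, (v * x).toWord.head? = some s) ∧
      ∀ (F : Finset (α × Bool)), F.card ≤ 2 → ∀ u, ∃ v ∈ W, Avoid (u * v) F := by
  choose v hvN hv1 hv2 using fun p : (α × Bool) × (α × Bool) => exists_mem_ends hn hN p.1 p.2
  have hne : ∀ p, v p ≠ 1 := fun p e => by simpa [e] using hv1 p
  refine ⟨Finset.univ.image v, ?_, ?_, ?_⟩
  · simp only [Finset.mem_image, Finset.mem_univ, true_and]
    rintro _ ⟨p, rfl⟩
    exact hvN p
  · intro s x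
    obtain ⟨t, ht⟩ := exists_letter (x.toWord.head?.map flp).toFinset
      ((card_toFinset_le _).trans (by norm_num))
    refine ⟨v (s, t), Finset.mem_image_of_mem _ (Finset.mem_univ _), ?_⟩
    rw [head_mul (hne _) ?_, hv1]
    intro a ha b hb e
    rw [hv2, Option.mem_some_iff] at ha
    subst ha
    rw [Option.mem_def] at hb
    exact ht (by simp [hb, e])
  · intro F hF u
    obtain ⟨t, ht⟩ := exists_letter F (hF.trans (by norm_num))
    obtain ⟨s, hs⟩ := exists_letter (u.toWord.getLast?.map flp).toFinset
      ((card_toFinset_le _).trans (by norm_num))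
    refine ⟨v (s, t), Finset.mem_image_of_mem _ (Finset.mem_univ _), ?_⟩
    intro a ha
    rw [getLast?_mul (hne _) ?_, hv2, Option.mem_some_iff] at ha
    · exact ha ▸ ht
    intro x hx b hb e
    rw [hv1, Option.mem_some_iff] at hb
    subst hb
    rw [Option.mem_def] at hx
    subst e
    exact hs (by simp [hx])

end Vale.Agent.P165.NormalWords
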