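import Vale.Agent.P165.Defs
import Vale.Agent.P165.Prod.NormalWords

/-!
Every Cayley graph of a nonempty finite product of nonabelian free groups, or of a subgroup
containing a nontrivial normal part of one factor, is nonamenable; such a product has a finite
symmetric generating set.
-/

namespace Vale.Agent.P165.Prod

open Finset SimpleGraph Vale.Agent.P165.FreeWord Vale.Agent.P165.NormalWords
open scoped Classical

variable {ι : Type} {k : ι → ℕ} {Γ : Type} [Group Γ]

/-- For some four elements, the right translates of a finite set leave it in at least twice its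
cardinality altogether. -/
private theorem two_mul_card_le [DecidableEq ι] (φ : Γ →* ∀ i, FreeGroup (Fin (k i))) {i : ι} (hi : 2 ≤ k i)
    (hn : ∃ n : FreeGroup (Fin (k i)), n ≠ 1 ∧ ∀ c, Pi.mulSingle i (c * n * c⁻¹) ∈ φ.range) :
    ∃ L : Finset Γ, ∀ A : Finset Γ, 2 * A.card ≤ ∑ t ∈ L, (A.image (· * t) \ A).card := by
  have : Nontrivial (Fin (k i)) := Fin.nontrivial_iff_two_le.2 hi
  obtain ⟨n, hn1, hn2⟩ := hn
  choose v hvN hv1 hv2 using fun l : Fin (k i) × Bool =>
    exists_mem_ends (N := φ.range.comap (MonoidHom.mulSingle (fun i => FreeGroup (Fin (k i))) i))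
      hn1 hn2 l l
  have hrng : ∀ l, ∃ g, φ g = Pi.mulSingle i (v l) := fun l => hvN l
  choose em hem' using hrng
  let a : Fin (k i) := ⟨0, by linarith⟩
  let b : Fin (k i) := ⟨1, by linarith⟩
  let Λ : Finset (Fin (k i) × Bool) := {a, b} ×ˢ Finset.univ
  refine ⟨Λ.image em, fun A => ?_⟩
  have hΛ : Λ.card = 4 := by
    rw [card_product, card_pair (by simp [a, b, Fin.ext_iff]), card_univ, Fintype.card_bool]
  have hflp : ∀ l ∈ Λ, flp l ∈ Λ := by
    intro l hl
    simp only [Λ, mem_product, mem_univ, and_true] at hl ⊢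
    exact hl
  have hem : Set.InjOn em Λ := by
    intro x _ y _ h
    have h1 : v x = v y := by simpa [hem'] using congrFun (congrArg φ h) i
    exact Option.some_injective _ ((hv1 x).symm.trans (h1 ▸ hv1 y))
  let W : Fin (k i) × Bool → Finset Γ :=
    fun l => A.filter (fun g => (φ g i).toWord.getLast? = some l)
  have key : ∀ l ∈ Λ, A.card ≤
      (W l).card + (W (flp l)).card + (A.image (· * em l) \ A).card := by
    intro l _
    have h1 : (A \ W (flp l)).card ≤ (W l ∪ (A.image (· * em l) \ A)).card := by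
      refine card_le_card_of_injOn (· * em l) ?_ (mul_left_injective _).injOn
      intro g hg
      simp only [coe_sdiff, Set.mem_sdiff, mem_coe, W, mem_filter, not_and] at hg
      by_cases h : g * em l ∈ A
      · refine mem_union_left _ (mem_filter.2 ⟨h, ?_⟩)
        show (φ (g * em l) i).toWord.getLast? = some l
        rw [map_mul, hem', Pi.mul_apply, Pi.mulSingle_eq_same,
          getLast?_mul (fun e => by simpa [e] using hv1 l) ?_, hv2]
        intro x hx y hy e
        rw [hv1, Option.mem_some_iff] at hy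
        rw [Option.mem_def] at hx
        exact hg.2 hg.1 (by rw [hx, hy, e, flp_flp])
      · exact mem_union_right _ (mem_sdiff.2 ⟨mem_image_of_mem _ hg.1, h⟩)
    have h2 : A.card ≤ (A \ W (flp l)).card + (W (flp l)).card := card_le_card_sdiff_add_card
    have h3 := card_union_le (W l) (A.image (· * em l) \ A)
    omega
  have hW : ∑ l ∈ Λ, (W l).card ≤ A.card := by
    rw [← card_biUnion]
    · exact card_le_card (biUnion_subset.2 fun l _ => filter_subset _ _)
    · intro x _ y _ hxy
      refine Finset.disjoint_left.2 fun g hg hg' => hxy ?_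
      exact Option.some_injective _ ((mem_filter.1 hg).2.symm.trans (mem_filter.1 hg').2)
  have hW' : ∑ l ∈ Λ, (W (flp l)).card = ∑ l ∈ Λ, (W l).card :=
    Finset.sum_nbij' flp flp hflp hflp (fun l _ => flp_flp l) (fun l _ => flp_flp l) fun _ _ => rfl
  have := Finset.sum_le_sum key
  rw [sum_const, hΛ, smul_eq_mul, sum_add_distrib, sum_add_distrib, hW'] at this
  rw [sum_image hem]
  omega

/-- A Cayley graph of a group mapping to a product of free groups so that the image contains all
conjugates of a nontrivial element of one nonabelian factor is nonamenable. -/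
theorem nonamenable_of_hom [DecidableEq ι] (φ : Γ →* ∀ i, FreeGroup (Fin (k i))) {i : ι} (hi : 2 ≤ k i)
    (hn : ∃ n : FreeGroup (Fin (k i)), n ≠ 1 ∧ ∀ c, Pi.mulSingle i (c * n * c⁻¹) ∈ φ.range)
    (S : Finset Γ) (hgen : Subgroup.closure (S : Set Γ) = ⊤) :
    Nonamenable (mulCayley (S : Set Γ)) := by
  set G := mulCayley (S : Set Γ) with hG
  let bd : Finset Γ → ℕ :=
    fun A => {v | v ∉ A ∧ ∃ a ∈ A, G.Adj a v}.ncard
  have hfin : ∀ A : Finset Γ,
      {v | v ∉ A ∧ ∃ a ∈ A, G.Adj a v}.Finite := by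
    intro A
    refine ((A ×ˢ S).image (fun x => x.1 * x.2) ∪
      (A ×ˢ S).image (fun x => x.1 * x.2⁻¹)).finite_toSet.subset ?_
    rintro v ⟨-, a, ha, h⟩
    rw [hG, mulCayley_adj'] at h
    obtain ⟨-, s, hs, h' | h'⟩ := h
    · exact mem_union_left _ (mem_image.2 ⟨(a, s), mem_product.2 ⟨ha, hs⟩, h'⟩)
    · exact mem_union_right _
        (mem_image.2 ⟨(a, s), mem_product.2 ⟨ha, hs⟩, by rw [h', mul_inv_cancel_right]⟩)
  have hreach : ∀ g, ∃ N : ℕ, ∀ A, (A.image (· * g) \ A).card ≤ N * bd A := by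
    intro g
    have hg : g ∈ Subgroup.closure (S : Set Γ) := hgen ▸ Subgroup.mem_top g
    induction hg using Subgroup.closure_induction with
    | mem s hs =>
      refine ⟨1, fun A => ?_⟩
      rw [one_mul, ← Set.ncard_coe_finset]
      refine Set.ncard_le_ncard ?_ (hfin A)
      intro v hv
      obtain ⟨hv1, hv2⟩ := mem_sdiff.1 (mem_coe.1 hv)
      obtain ⟨a, ha, rfl⟩ := mem_image.1 hv1
      refine ⟨hv2, a, ha, ?_⟩
      rw [hG, mulCayley_adj']
      exact ⟨fun e => hv2 (e ▸ ha), s, hs, Or.inl rfl⟩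
    | one => exact ⟨0, fun A => by simp⟩
    | mul x y _ _ hx hy =>
      obtain ⟨M, hM⟩ := hx
      obtain ⟨N, hN⟩ := hy
      refine ⟨M + N, fun A => ?_⟩
      rw [add_mul]
      refine le_trans ?_ (Nat.add_le_add (hM A) (hN A))
      have hsub : A.image (· * (x * y)) \ A ⊆
          (A.image (· * x) \ A).image (· * y) ∪ (A.image (· * y) \ A) := by
        intro v hv
        obtain ⟨hv1, hv2⟩ := mem_sdiff.1 hv
        obtain ⟨a, ha, rfl⟩ := mem_image.1 hv1
        rw [← mul_assoc] at hv2 ⊢
        by_cases h : a * x ∈ A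
        · exact mem_union_right _ (mem_sdiff.2 ⟨mem_image_of_mem _ h, hv2⟩)
        · exact mem_union_left _
            (mem_image_of_mem _ (mem_sdiff.2 ⟨mem_image_of_mem _ ha, h⟩))
      exact ((card_le_card hsub).trans (card_union_le _ _)).trans
        (Nat.add_le_add_right card_image_le _)
    | inv x _ hx =>
      obtain ⟨N, hN⟩ := hx
      refine ⟨N, fun A => le_trans ?_ (hN A)⟩
      have h1 : (A.image (· * x⁻¹) \ A).image (· * x) ⊆ A \ A.image (· * x) := by
        intro v hv
        obtain ⟨w, hw, rfl⟩ := mem_image.1 hv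
        obtain ⟨hw1, hw2⟩ := mem_sdiff.1 hw
        obtain ⟨a, ha, rfl⟩ := mem_image.1 hw1
        refine mem_sdiff.2 ⟨by simpa using ha, fun h => hw2 ?_⟩
        obtain ⟨b, hb, e⟩ := mem_image.1 h
        exact mul_left_injective x e ▸ hb
      have h2 := card_le_card h1
      rw [card_image_of_injective _ (mul_left_injective x)] at h2
      refine h2.trans (le_of_eq ?_)
      exact card_sdiff_comm (card_image_of_injective A (mul_left_injective x)).symm
  choose N hN using hreach
  obtain ⟨L, hL⟩ := two_mul_card_le φ hi hn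
  refine ⟨2 / ((∑ t ∈ L, N t : ℕ) + 1), by positivity, fun A _ => ?_⟩
  have h : 2 * A.card ≤ (∑ t ∈ L, N t) * bd A :=
    (hL A).trans ((sum_le_sum fun t _ => hN t A).trans (sum_mul ..).symm.le)
  have h' : (2 * A.card : ℝ) ≤ (∑ t ∈ L, N t : ℕ) * (bd A : ℝ) := by exact_mod_cast h
  rw [div_mul_eq_mul_div, div_le_iff₀ (by positivity)]
  nlinarith [Nat.cast_nonneg (α := ℝ) (bd A)]

/-- Every Cayley graph of a nonempty finite product of nonabelian free groups is nonamenable. -/
theorem prod_nonamenable (hk : ∀ i, 2 ≤ k i) [Nonempty ι]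
    (S : Finset (∀ i, FreeGroup (Fin (k i))))
    (hgen : Subgroup.closure (S : Set (∀ i, FreeGroup (Fin (k i)))) = ⊤) :
    Nonamenable (mulCayley (S : Set (∀ i, FreeGroup (Fin (k i))))) := by
  obtain ⟨i⟩ := ‹Nonempty ι›
  exact nonamenable_of_hom (MonoidHom.id _) (hk i)
    ⟨FreeGroup.of ⟨0, by linarith [hk i]⟩, FreeGroup.of_ne_one _, fun c => ⟨_, rfl⟩⟩ S hgen

/-- A finite product of free groups of finite rank has a finite symmetric generating set. -/
theorem prod_exists_generators (ι : Type) [Fintype ι] (k : ι → ℕ) :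
    ∃ S : Finset (∀ i, FreeGroup (Fin (k i))), (∀ s ∈ S, s⁻¹ ∈ S) ∧ 1 ∉ S ∧
      Subgroup.closure (S : Set (∀ i, FreeGroup (Fin (k i)))) = ⊤ := by
  let B : Finset (∀ i, FreeGroup (Fin (k i))) :=
    Finset.univ.biUnion fun i => (Finset.univ : Finset (Fin (k i))).image
      fun x => Pi.mulSingle i (FreeGroup.of x)
  refine ⟨(B ∪ B.image (·⁻¹)).erase 1, ?_, notMem_erase _ _, ?_⟩
  · intro s hs
    simp only [mem_erase, mem_union, mem_image, inv_eq_iff_eq_inv, exists_eq_right] at hs ⊢
    refine ⟨fun e => hs.1 (inv_eq_one.1 e), ?_⟩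
    simpa [or_comm] using hs.2
  · refine (Subgroup.eq_top_iff' _).2 fun g => Submonoid.pi_mem_of_mulSingle_mem g fun i => ?_
    have : g i ∈ Subgroup.closure (Set.range (FreeGroup.of : Fin (k i) → _)) := by
      simp [FreeGroup.closure_range_of]
    refine Subgroup.closure_induction (p := fun x _ =>
      Pi.mulSingle i x ∈ Subgroup.closure
        (((B ∪ B.image (·⁻¹)).erase 1 : Finset _) : Set (∀ i, FreeGroup (Fin (k i))))) ?_ ?_ ?_ ?_
      this
    · rintro _ ⟨x, rfl⟩
      by_cases h : (Pi.mulSingle i (FreeGroup.of x) : ∀ j, FreeGroup (Fin (k j))) = 1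
      · rw [h]; exact one_mem _
      · refine Subgroup.subset_closure (mem_coe.2 (mem_erase.2 ⟨h, mem_union_left _ ?_⟩))
        exact mem_biUnion.2 ⟨i, mem_univ i, mem_image_of_mem _ (mem_univ x)⟩
    · rw [Pi.mulSingle_one]; exact one_mem _
    · intro x y _ _ hx hy
      rw [Pi.mulSingle_mul]; exact mul_mem hx hy
    · intro x _ hx
      rw [Pi.mulSingle_inv]; exact inv_mem hx

end Vale.Agent.P165.Prod
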