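import Mathlib

/-!
Word geometry in free groups used for spreading of percolation clusters on products of free
groups: cylinders and medians, cancellation in products, and forbidden last letters.
-/

namespace Vale.Agent.P165.FreeWord

open FreeGroup List

variable {α : Type*} [DecidableEq α]

/-- The inverse letter. -/
def flp (a : α × Bool) : α × Bool := (a.1, !a.2)

@[simp] theorem flp_flp (a : α × Bool) : flp (flp a) = a := by simp [flp]

theorem flp_injective : Function.Injective (flp : α × Bool → α × Bool) :=
  Function.Involutive.injective flp_flp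

theorem invRev_singleton (a : α × Bool) : invRev [a] = [flp a] := by simp [invRev, flp]

omit [DecidableEq α] in
theorem invRev_eq_nil {L : List (α × Bool)} : invRev L = [] ↔ L = [] := by simp [invRev]

omit [DecidableEq α] in
theorem head?_invRev (L : List (α × Bool)) : (invRev L).head? = L.getLast?.map flp := by
  induction L using List.reverseRecOn with
  | nil => simp [invRev]
  | append_singleton L a => simp [invRev, flp]

omit [DecidableEq α] in
theorem getLast?_invRev (L : List (α × Bool)) : (invRev L).getLast? = L.head?.map flp := by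
  cases L with
  | nil => simp [invRev]
  | cons a L => simp [invRev, flp]

theorem isReduced_invRev {L : List (α × Bool)} (h : IsReduced L) : IsReduced (invRev L) :=
  IsReduced.of_reduce_eq (by rw [reduce_invRev, h.reduce_eq])

omit [DecidableEq α] in
theorem ne_flp_iff {a b : α × Bool} : b ≠ flp a ↔ (a.1 = b.1 → a.2 = b.2) := by
  obtain ⟨a, x⟩ := a
  obtain ⟨b, y⟩ := b
  simp only [flp, ne_eq, Prod.mk.injEq]
  constructor
  · intro h e
    subst e
    cases x <;> cases y <;> simp_all
  · rintro h ⟨rfl, rfl⟩
    simp at h

omit [DecidableEq α] in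
/-- A concatenation of reduced words is reduced unless the junction cancels. -/
theorem isReduced_append {A B : List (α × Bool)} (hA : IsReduced A) (hB : IsReduced B)
    (h : ∀ a ∈ A.getLast?, ∀ b ∈ B.head?, b ≠ flp a) : IsReduced (A ++ B) :=
  List.isChain_append.2 ⟨hA, hB, fun a ha b hb => ne_flp_iff.1 (h a ha b hb)⟩

omit [DecidableEq α] in
theorem no_cancel {A B : List (α × Bool)} (h : IsReduced (A ++ B)) :
    ∀ a ∈ A.getLast?, ∀ b ∈ B.head?, b ≠ flp a :=
  fun a ha b hb => ne_flp_iff.2 ((List.isChain_append.1 h).2.2 a ha b hb)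

theorem toWord_mk_of_isReduced {L : List (α × Bool)} (h : IsReduced L) : (mk L).toWord = L := by
  rw [toWord_mk, h.reduce_eq]

theorem mk_append (A B : List (α × Bool)) : mk (A ++ B) = mk A * mk B := rfl

theorem mk_invRev (A : List (α × Bool)) : mk (invRev A) = (mk A)⁻¹ := rfl

/-- Cancellation in a product of two reduced words. -/
theorem exists_decomp_list : ∀ G W : List (α × Bool), IsReduced G → IsReduced W →
    ∃ p q r, G = p ++ q ∧ W = invRev q ++ r ∧ IsReduced (p ++ r) := by
  intro G
  induction G using List.reverseRecOn with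
  | nil => exact fun W _ hW => ⟨[], [], W, rfl, by simp [invRev], by simpa using hW⟩
  | append_singleton G a ih =>
    intro W hG hW
    by_cases h : W.head? = some (flp a)
    · obtain ⟨W', rfl⟩ : ∃ W', W = flp a :: W' := by
        cases W with
        | nil => simp at h
        | cons b W' => exact ⟨W', by simp_all⟩
      obtain ⟨p, q, r, rfl, rfl, hr⟩ :=
        ih W' (List.IsChain.left_of_append hG) (List.IsChain.tail hW)
      exact ⟨p, q ++ [a], r, by simp, by simp [invRev, flp], hr⟩
    · refine ⟨G ++ [a], [], W, by simp, by simp [invRev], isReduced_append hG hW ?_⟩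
      intro x hx b hb e
      rw [List.getLast?_concat, Option.mem_some_iff] at hx
      subst hx
      exact h (e ▸ hb)

/-- Cancellation in a product in the free group. -/
theorem exists_decomp (g w : FreeGroup α) :
    ∃ p q r, g.toWord = p ++ q ∧ w.toWord = invRev q ++ r ∧ (g * w).toWord = p ++ r := by
  obtain ⟨p, q, r, hg, hw, hr⟩ :=
    exists_decomp_list g.toWord w.toWord isReduced_toWord isReduced_toWord
  refine ⟨p, q, r, hg, hw, ?_⟩
  have : g * w = mk (p ++ r) := by
    rw [← mk_toWord (x := g), ← mk_toWord (x := w), hg, hw]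
    simp only [mk_append, mk_invRev]
    group
  rw [this, toWord_mk_of_isReduced hr]

/-- Number of letters cancelled in the product `g * w`. -/
def cancel (g w : FreeGroup α) : ℕ := (norm g + norm w - norm (g * w)) / 2

/-- The part of `g` surviving in the product `g * w`. -/
def keep (g w : FreeGroup α) : List (α × Bool) := g.toWord.take (norm g - cancel g w)

theorem decomp (g w : FreeGroup α) :
    cancel g w ≤ norm g ∧ cancel g w ≤ norm w ∧
      g.toWord = keep g w ++ invRev (w.toWord.take (cancel g w)) ∧
      (g * w).toWord = keep g w ++ w.toWord.drop (cancel g w) := by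
  obtain ⟨p, q, r, hg, hw, hp⟩ := exists_decomp g w
  have hc : cancel g w = q.length := by
    simp only [cancel, FreeGroup.norm, hg, hw, hp, List.length_append, invRev_length]
    omega
  have hk : keep g w = p := by
    simp [keep, hc, FreeGroup.norm, hg]
  have ht : w.toWord.take (cancel g w) = invRev q := by
    rw [hw, hc]
    exact List.take_left' invRev_length
  have hd : w.toWord.drop (cancel g w) = r := by
    rw [hw, hc]
    exact List.drop_left' invRev_length
  refine ⟨?_, ?_, ?_, ?_⟩
  · simp [FreeGroup.norm, hg, hc]
  · simp [FreeGroup.norm, hw, hc, invRev_length]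
  · rw [hk, ht, invRev_invRev, hg]
  · rw [hk, hd, hp]

theorem length_keep (g w : FreeGroup α) : (keep g w).length = norm g - cancel g w := by
  simp [keep, FreeGroup.norm]

/-- The first letter of a product when the left factor's last letter does not cancel. -/
theorem head_mul {g h : FreeGroup α} (hg : g ≠ 1)
    (hn : ∀ a ∈ g.toWord.getLast?, ∀ b ∈ h.toWord.head?, b ≠ flp a) :
    (g * h).toWord.head? = g.toWord.head? := by
  have hr : (g * h).toWord = g.toWord ++ h.toWord := by
    rw [toWord_mul, (isReduced_append isReduced_toWord isReduced_toWord hn).reduce_eq]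
  rw [hr, List.head?_append_of_ne_nil _ (fun e => hg (toWord_eq_nil_iff.1 e))]

/-- The centre of a triple of points lying in three cylinders is unique. -/
theorem median_unique {a b : FreeGroup α} {s : Fin 3 → α × Bool} (hs : Function.Injective s)
    {x : Fin 3 → FreeGroup α} (ha : ∀ j, (a⁻¹ * x j).toWord.head? = some (s j))
    (hb : ∀ j, (b⁻¹ * x j).toWord.head? = some (s j)) : a = b := by
  by_contra hab
  set e := b⁻¹ * a with he
  have he1 : e ≠ 1 := fun h => hab (inv_mul_eq_one.1 h).symm
  obtain ⟨z, hz⟩ : ∃ z, e.toWord.getLast? = some z := by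
    cases hL : e.toWord.getLast? with
    | none => exact absurd (toWord_eq_nil_iff.1 (List.getLast?_eq_none_iff.1 hL)) he1
    | some z => exact ⟨z, rfl⟩
  have key : ∀ j, s j ≠ flp z → e.toWord.head? = some (s j) := by
    intro j hj
    rw [← hb j, show b⁻¹ * x j = e * (a⁻¹ * x j) by rw [he]; group]
    refine (head_mul he1 ?_).symm
    intro y hy c hc
    rw [hz, Option.mem_some_iff] at hy
    rw [ha j, Option.mem_some_iff] at hc
    subst hy hc
    exact hj
  have h2 : ∃ i j, i ≠ j ∧ s i ≠ flp z ∧ s j ≠ flp z := by
    by_cases h0 : s 0 = flp z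
    · exact ⟨1, 2, by decide, fun h => by simpa using hs (h.trans h0.symm),
        fun h => by simpa using hs (h.trans h0.symm)⟩
    · by_cases h1 : s 1 = flp z
      · exact ⟨0, 2, by decide, h0, fun h => by simpa using hs (h.trans h1.symm)⟩
      · exact ⟨0, 1, by decide, h0, h1⟩
  obtain ⟨i, j, hij, hi, hj⟩ := h2
  exact hij (hs (Option.some_injective _ ((key i hi).symm.trans (key j hj))))

section Letters

variable [Fintype α] [Nontrivial α]

/-- At least four letters: a letter avoiding three given ones. -/
theorem exists_letter (F : Finset (α × Bool)) (hF : F.card ≤ 3) : ∃ y, y ∉ F := by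
  by_contra h
  push Not at h
  have := Finset.card_le_card (fun y _ => h y : (Finset.univ : Finset (α × Bool)) ⊆ F)
  rw [Finset.card_univ, Fintype.card_prod, Fintype.card_bool] at this
  have := Fintype.one_lt_card (α := α)
  omega

/-- Finitely many left translates of a cylinder cover the group. -/
theorem cylinder_cover (s : α × Bool) :
    ∃ U : Finset (FreeGroup α), ∀ x, ∃ u ∈ U, (u * x).toWord.head? = some s := by
  obtain ⟨y, hy⟩ := exists_letter ({s, flp s} : Finset (α × Bool))
    ((Finset.card_le_two).trans (by norm_num))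
  simp only [Finset.mem_insert, Finset.mem_singleton, not_or] at hy
  refine ⟨{mk [s], mk [s, y]}, fun x => ?_⟩
  by_cases h : x.toWord.head? = some (flp s)
  · refine ⟨mk [s, y], by simp, ?_⟩
    have hred : IsReduced [s, y] := by
      rw [isReduced_cons_cons]
      exact ⟨ne_flp_iff.1 hy.2, IsReduced.singleton⟩
    rw [head_mul (fun e => by simpa [toWord_mk_of_isReduced hred] using congrArg toWord e) ?_,
      toWord_mk_of_isReduced hred]
    · rfl
    · intro a ha b hb
      rw [toWord_mk_of_isReduced hred] at ha
      rw [h, Option.mem_some_iff] at hb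
      simp only [List.getLast?_cons_cons, List.getLast?_singleton, Option.mem_some_iff] at ha
      subst ha hb
      exact fun e => hy.1 (flp_injective e.symm)
  · refine ⟨mk [s], by simp, ?_⟩
    have hred : IsReduced [s] := IsReduced.singleton
    rw [head_mul (fun e => by simpa [toWord_mk_of_isReduced hred] using congrArg toWord e) ?_,
      toWord_mk_of_isReduced hred]
    · rfl
    · intro a ha b hb
      rw [toWord_mk_of_isReduced hred] at ha
      simp only [List.getLast?_singleton, Option.mem_some_iff] at ha
      subst ha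
      rintro rfl
      exact h hb

end Letters

/-- The last letter of `u` avoids `F`. -/
def Avoid (u : FreeGroup α) (F : Finset (α × Bool)) : Prop := ∀ x ∈ u.toWord.getLast?, x ∉ F

instance (u : FreeGroup α) (F : Finset (α × Bool)) : Decidable (Avoid u F) :=
  decidable_of_iff (∀ x ∈ u.toWord.getLast?.toFinset, x ∉ F) (by simp [Avoid])

/-- Right multiplication by at most one letter makes the last letter avoid two given letters. -/
theorem avoid_cover [Fintype α] [Nontrivial α] (u : FreeGroup α) (F : Finset (α × Bool))
    (hF : F.card ≤ 2) :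
    ∃ z : FreeGroup α, norm z ≤ 1 ∧ Avoid (u * z) F ∧ norm (u * z) ≤ norm u + 1 := by
  by_cases h : Avoid u F
  · exact ⟨1, by simp, by simpa using h, by simp⟩
  simp only [Avoid, not_forall, not_not, exists_prop] at h
  obtain ⟨a, ha, -⟩ := h
  obtain ⟨y, hy⟩ := exists_letter (insert (flp a) F)
    ((Finset.card_insert_le _ _).trans (by omega))
  simp only [Finset.mem_insert, not_or] at hy
  have hyw : (mk [y]).toWord = [y] := toWord_mk_of_isReduced IsReduced.singleton
  refine ⟨mk [y], by simp [FreeGroup.norm, hyw], ?_, ?_⟩
  · have hr : (u * mk [y]).toWord = u.toWord ++ [y] := by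
      rw [toWord_mul, hyw]
      refine IsReduced.reduce_eq (isReduced_append isReduced_toWord IsReduced.singleton ?_)
      intro b hb c hc
      rw [ha, Option.mem_some_iff] at hb
      simp only [List.head?_cons, Option.mem_some_iff] at hc
      subst hb hc
      exact hy.1
    intro x hx
    rw [hr, List.getLast?_concat, Option.mem_some_iff] at hx
    exact hx ▸ hy.2
  · refine (FreeGroup.norm_mul_le _ _).trans ?_
    simp [FreeGroup.norm, hyw]

/-- The separation principle: a quotient `u⁻¹ * u'` of two avoiding elements cannot begin with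
an inverse of a letter forbidden to `u` and end with a letter forbidden to `u'`. -/
theorem eq_of_avoid {u u' : FreeGroup α} {F F' : Finset (α × Bool)} (hu : Avoid u F)
    (hu' : Avoid u' F')
    (h : u⁻¹ * u' ≠ 1 → (∃ x ∈ (u⁻¹ * u').toWord.head?, flp x ∈ F) ∧
      ∃ y ∈ (u⁻¹ * u').toWord.getLast?, y ∈ F') : u = u' := by
  by_contra hne
  obtain ⟨⟨x, hx, hxF⟩, y, hy, hyF⟩ := h (fun e => hne (inv_mul_eq_one.1 e))
  obtain ⟨p, q, r, hp, hq, hpr⟩ := exists_decomp u⁻¹ u'
  rw [hpr] at hx hy
  rcases eq_or_ne r [] with rfl | hr
  · rw [List.append_nil] at hx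
    have hx' : (u⁻¹).toWord.head? = some x := by
      rw [hp, List.head?_append_of_ne_nil _ (fun e => by simp [e] at hx)]
      exact hx
    rw [toWord_inv, head?_invRev, Option.map_eq_some_iff] at hx'
    obtain ⟨a, ha, rfl⟩ := hx'
    rw [flp_flp] at hxF
    exact hu a ha hxF
  · refine hu' y ?_ hyF
    rw [hq, List.getLast?_append_of_ne_nil _ hr]
    rwa [List.getLast?_append_of_ne_nil _ hr] at hy

/-- `P` has period `d`. -/
def HasPeriod (d : ℕ) (P : List (α × Bool)) : Prop :=
  ∀ j, j + d < P.length → P[j + d]? = P[j]?

open Classical in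
/-- The letter ending the shortest short period of `P`. -/
noncomputable def periodLetter (M : ℕ) (P : List (α × Bool)) : Option (α × Bool) :=
  if h : ∃ d, 1 ≤ d ∧ d ≤ M ∧ HasPeriod d P then P[Nat.find h - 1]? else none

/-- Letters forbidden to translators of a long prefix class. -/
noncomputable def forbO (M : ℕ) (P : List (α × Bool)) : Finset (α × Bool) :=
  (P.head?.map flp).toFinset ∪ (periodLetter M P).toFinset

theorem card_toFinset_le {β : Type*} (o : Option β) : o.toFinset.card ≤ 1 := by
  cases o <;> simp

theorem card_forbO (M : ℕ) (P : List (α × Bool)) : (forbO M P).card ≤ 2 :=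
  (Finset.card_union_le _ _).trans (add_le_add (card_toFinset_le _) (card_toFinset_le _))

omit [DecidableEq α] in
theorem getElem?_of_prefix {P L : List (α × Bool)} (h : P <+: L) {i : ℕ} (hi : i < P.length) :
    P[i]? = L[i]? := by
  obtain ⟨t, rfl⟩ := h
  rw [List.getElem?_append_left hi]

omit [DecidableEq α] in
theorem getLast?_eq_periodLetter {Q T P : List (α × Bool)} {M : ℕ} (hQ : Q ≠ [])
    (hQM : Q.length ≤ M) (hM : 2 * M ≤ P.length) (h1 : P <+: Q ++ T) (h2 : P <+: T) :
    Q.getLast? = periodLetter M P := by
  classical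
  have hq : 0 < Q.length := List.length_pos_iff.2 hQ
  have hper : HasPeriod Q.length P := by
    intro j hj
    rw [getElem?_of_prefix h1 hj, getElem?_of_prefix h2 (show j < P.length by omega),
      List.getElem?_append_right (by omega), Nat.add_sub_cancel]
  have h : ∃ d, 1 ≤ d ∧ d ≤ M ∧ HasPeriod d P := ⟨_, hq, hQM, hper⟩
  obtain ⟨hd1, hdM, hd⟩ := Nat.find_spec h
  rw [periodLetter, dif_pos h]
  set d := Nat.find h
  have e1 := hd (Q.length - 1) (by omega)
  have e2 := hper (d - 1) (by omega)
  rw [show Q.length - 1 + d = d - 1 + Q.length by omega, e2] at e1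
  rw [e1, getElem?_of_prefix h1 (show Q.length - 1 < P.length by omega),
    List.getElem?_append_left (by omega), List.getLast?_eq_getElem?]

/-- Injectivity for a long prefix class. -/
theorem inj_O {g g' u u' : FreeGroup α} {P : List (α × Bool)} {M : ℕ}
    (hg : P <+: g.toWord) (hg' : P <+: g'.toWord) (hM : norm u + norm u' ≤ M)
    (hMP : 2 * M ≤ P.length) (hu : Avoid u (forbO M P)) (hu' : Avoid u' (forbO M P))
    (heq : u * g = u' * g') : u = u' := by
  refine eq_of_avoid hu hu' fun hq => ?_
  have hgq : g = u⁻¹ * u' * g' := by rw [mul_assoc, ← heq]; group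
  have hlen : norm (u⁻¹ * u') ≤ M := (FreeGroup.norm_mul_le _ _).trans (by rwa [norm_inv_eq])
  generalize u⁻¹ * u' = q at hgq hq hlen
  obtain ⟨p, c, r, hp, hc, hpr⟩ := exists_decomp q g'
  rw [← hgq] at hpr
  have hP0 : ∀ L : List (α × Bool), P <+: L → P ≠ [] → L.head? = P.head? := by
    rintro L ⟨t, rfl⟩ hne
    rw [List.head?_append_of_ne_nil _ hne]
  have hMpos : 0 < M := by
    have : norm q ≠ 0 := fun e => hq (norm_eq_zero.1 e)
    omega
  have hPne : P ≠ [] := fun e => by simp [e] at hMP; omega
  have hne : ∀ {x : α × Bool} {L : List (α × Bool)}, L.head? = some x → P.head? = L.head? →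
      flp x ∈ forbO M P := by
    intro x L hx hL
    simp [forbO, hL, hx]
  constructor
  · rcases eq_or_ne p [] with rfl | hpn
    · simp only [List.nil_append] at hp hpr
      have hcn : c ≠ [] := fun e => hq (toWord_eq_nil_iff.1 (hp.trans e))
      have hl := getLast?_eq_periodLetter (Q := invRev c) (T := r) (M := M)
        (fun e => hcn (invRev_eq_nil.1 e))
        (by rw [invRev_length, ← hp]; exact hlen) hMP (hc ▸ hg') (hpr ▸ hg)
      rw [getLast?_invRev, ← hp] at hl
      cases hh : q.toWord.head? with
      | none => exact absurd (toWord_eq_nil_iff.1 (List.head?_eq_none_iff.1 hh)) hq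
      | some x =>
        rw [hh, Option.map_some] at hl
        exact ⟨x, rfl, by simp [forbO, ← hl]⟩
    · obtain ⟨x, hx⟩ : ∃ x, p.head? = some x := ⟨_, (List.head?_eq_some_head hpn)⟩
      refine ⟨x, by rw [hp, List.head?_append_of_ne_nil _ hpn]; exact hx, hne hx ?_⟩
      rw [← hP0 _ (hpr ▸ hg) hPne, List.head?_append_of_ne_nil _ hpn]
  · rcases eq_or_ne c [] with rfl | hcn
    · simp only [List.append_nil, invRev_empty, List.nil_append] at hp hc
      have hpn : p ≠ [] := fun e => hq (toWord_eq_nil_iff.1 (hp.trans e))
      have hl := getLast?_eq_periodLetter (Q := p) (T := r) (M := M) hpn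
        (by rw [← hp]; exact hlen) hMP (hpr ▸ hg) (hc ▸ hg')
      cases hh : p.getLast? with
      | none => exact absurd (List.getLast?_eq_none_iff.1 hh) hpn
      | some x =>
        rw [hh] at hl
        exact ⟨x, by rw [hp]; exact hh, by simp [forbO, ← hl]⟩
    · obtain ⟨y, hy⟩ : ∃ y, c.getLast? = some y := ⟨_, (List.getLast?_eq_getLast hcn)⟩
      refine ⟨y, by rw [hp, List.getLast?_append_of_ne_nil _ hcn]; exact hy, ?_⟩
      have h0 := hP0 _ (hc ▸ hg') hPne
      rw [List.head?_append_of_ne_nil _ (fun e => hcn (invRev_eq_nil.1 e)), head?_invRev, hy] at h0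
      have := hne (x := flp y) (L := P) (by rw [← h0]; rfl) rfl
      rwa [flp_flp] at this

/-- Letters forbidden to translators of an element cancelling into `W` at depth `c`, keeping `s`. -/
def forbI (s W : List (α × Bool)) (c : ℕ) : Finset (α × Bool) :=
  if s = [] then (W.take c).getLast?.toFinset ∪ ((W.drop c).head?.map flp).toFinset
  else (s.head?.map flp).toFinset

theorem card_forbI (s W : List (α × Bool)) (c : ℕ) : (forbI s W c).card ≤ 2 := by
  unfold forbI
  split
  · exact (Finset.card_union_le _ _).trans
      (add_le_add (card_toFinset_le _) (card_toFinset_le _))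
  · exact (card_toFinset_le _).trans one_le_two

private theorem inj_I_aux {u u' : FreeGroup α} {s W : List (α × Bool)} {c c' : ℕ} (hlt : c < c')
    (hc' : c' ≤ W.length)
    (hred : IsReduced (s ++ W.drop c)) (hred' : IsReduced (s ++ invRev (W.take c')))
    (hu : Avoid u (forbI s W c)) (hu' : Avoid u' (forbI s W c'))
    (hq : u⁻¹ * u' = mk s * (mk (W.take c))⁻¹ * (mk s * (mk (W.take c'))⁻¹)⁻¹) : u = u' := by
  set seg := (W.drop c).take (c' - c) with hseg
  have hsplit : W.take c' = W.take c ++ seg := by
    rw [hseg, ← List.take_add, Nat.add_sub_cancel' hlt.le]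
  have hsegne : seg ≠ [] := by
    rw [Ne, ← List.length_eq_zero_iff, hseg, List.length_take, List.length_drop]
    omega
  have h1 : IsReduced (s ++ seg) := by
    rw [← List.take_append_drop (c' - c) (W.drop c), ← List.append_assoc] at hred
    exact List.IsChain.left_of_append hred
  have h2 : IsReduced (s ++ invRev seg) := by
    rw [hsplit, invRev_append, ← List.append_assoc] at hred'
    exact List.IsChain.left_of_append hred'
  have h3 : IsReduced (s ++ seg ++ invRev s) := by
    refine h1.append_overlap ?_ hsegne
    simpa [invRev_append] using isReduced_invRev h2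
  have hw : (u⁻¹ * u').toWord = s ++ seg ++ invRev s := by
    rw [hq, show mk s * (mk (W.take c))⁻¹ * (mk s * (mk (W.take c'))⁻¹)⁻¹
        = mk (s ++ seg ++ invRev s) by
      simp only [hsplit, mk_append, mk_invRev]; group,
      toWord_mk_of_isReduced h3]
  refine eq_of_avoid hu hu' fun _ => ?_
  rw [hw]
  rcases eq_or_ne s [] with rfl | hs
  · simp only [List.nil_append, invRev_empty, List.append_nil, forbI, if_true]
    refine ⟨⟨seg.head hsegne, List.head?_eq_some_head hsegne, ?_⟩,
      ⟨seg.getLast hsegne, List.getLast?_eq_getLast hsegne, ?_⟩⟩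
    · have : (W.drop c).head? = some (seg.head hsegne) := by
        rw [← List.head?_eq_some_head hsegne, hseg, List.head?_take, if_neg (by omega)]
      simp [this]
    · have : (W.take c').getLast? = some (seg.getLast hsegne) := by
        rw [hsplit, List.getLast?_append_of_ne_nil _ hsegne, List.getLast?_eq_getLast hsegne]
      simp [this]
  · simp only [forbI, if_neg hs]
    refine ⟨⟨s.head hs, ?_, by simp [List.head?_eq_some_head hs]⟩,
      ⟨flp (s.head hs), ?_, by simp [List.head?_eq_some_head hs]⟩⟩
    · rw [List.append_assoc, List.head?_append_of_ne_nil _ hs]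
      exact List.head?_eq_some_head hs
    · rw [List.getLast?_append_of_ne_nil _ (fun e => hs (invRev_eq_nil.1 e)), getLast?_invRev,
        List.head?_eq_some_head hs]
      rfl

/-- Injectivity for a class with short surviving part `s`. -/
theorem inj_I {g g' w u u' : FreeGroup α} {s : List (α × Bool)} (hg : keep g w = s)
    (hg' : keep g' w = s) (hu : Avoid u (forbI s w.toWord (cancel g w)))
    (hu' : Avoid u' (forbI s w.toWord (cancel g' w))) (heq : u * g = u' * g') : u = u' := by
  obtain ⟨-, hc, hgw, hr⟩ := decomp g w
  obtain ⟨-, hc', hgw', hr'⟩ := decomp g' w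
  rw [hg] at hgw hr
  rw [hg'] at hgw' hr'
  have hmk : g = mk s * (mk (w.toWord.take (cancel g w)))⁻¹ := by
    calc g = mk g.toWord := mk_toWord.symm
      _ = _ := by rw [hgw, mk_append, mk_invRev]
  have hmk' : g' = mk s * (mk (w.toWord.take (cancel g' w)))⁻¹ := by
    calc g' = mk g'.toWord := mk_toWord.symm
      _ = _ := by rw [hgw', mk_append, mk_invRev]
  rcases lt_trichotomy (cancel g w) (cancel g' w) with h | h | h
  · refine inj_I_aux h hc' (hr ▸ isReduced_toWord) (hgw' ▸ isReduced_toWord) hu hu' ?_
    rw [← hmk, ← hmk', eq_mul_inv_iff_mul_eq, mul_assoc, ← heq]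
    group
  · have : g = g' := by rw [hmk, hmk', h]
    subst this
    exact mul_right_cancel heq
  · refine (inj_I_aux h hc (hr' ▸ isReduced_toWord) (hgw ▸ isReduced_toWord) hu' hu ?_).symm
    rw [← hmk, ← hmk', eq_mul_inv_iff_mul_eq, mul_assoc, heq]
    group

/-- In the exact class the translators coincide. -/
theorem inj_J {g u u' : FreeGroup α} (heq : u * g = u' * g) : u = u' := mul_right_cancel heq

theorem prefix_keep {g w : FreeGroup α} {h : ℕ} (hb : h ≤ (keep g w).length) :
    (g * w).toWord.take h = g.toWord.take h := by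
  obtain ⟨-, -, hg, hp⟩ := decomp g w
  rw [hp, hg, List.take_append_of_le_length hb, List.take_append_of_le_length hb]

end Vale.Agent.P165.FreeWord
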