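import Mathlib
import Vale.Agent.P165.Prod.FreeWord

/-!
Labels of pairs in a product of free groups: for a pair `(g, w)` and a gap of scales, each
coordinate is short, keeps a short part, or is long; translators avoiding two last letters
separate the members of each class.
-/

namespace Vale.Agent.P165.ProdLabels

open FreeGroup Vale.Agent.P165.FreeWord

/-- Among `2 N + 1` consecutive gaps one contains none of `2 N` given numbers. -/
theorem exists_gap {ι : Type*} [Fintype ι] (R : ℕ → ℕ) (hR : Monotone R) (a b : ι → ℕ) :
    ∃ j, j ≤ 2 * Fintype.card ι ∧ ∀ i,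
      (a i ≤ R j ∨ R (j + 1) < a i) ∧ (b i ≤ R j ∨ R (j + 1) < b i) := by
  classical
  by_contra h
  push Not at h
  have h' : ∀ j : Fin (2 * Fintype.card ι + 1), ∃ s : ι × Bool,
      R j < (if s.2 then a s.1 else b s.1) ∧ (if s.2 then a s.1 else b s.1) ≤ R (j + 1) := by
    intro j
    obtain ⟨i, hi⟩ := h j (Nat.le_of_lt_succ j.2)
    by_cases h1 : R j < a i ∧ a i ≤ R ((j : ℕ) + 1)
    · exact ⟨(i, true), by simpa using h1⟩
    · refine ⟨(i, false), ?_⟩
      simpa using hi (by
        rcases not_and_or.1 h1 with h2 | h2
        · exact Or.inl (not_lt.1 h2)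
        · exact Or.inr (not_le.1 h2))
  choose f hf using h'
  obtain ⟨j, k, hjk, hfk⟩ := Fintype.exists_ne_map_eq_of_card_lt f (by
    rw [Fintype.card_prod, Fintype.card_bool, Fintype.card_fin]
    omega)
  have hj := hf j
  have hk := hf k
  rw [hfk] at hj
  rcases lt_trichotomy (j : ℕ) k with h1 | h1 | h1
  · have := hR (show (j : ℕ) + 1 ≤ k from h1)
    omega
  · exact hjk (Fin.ext h1)
  · have := hR (show (k : ℕ) + 1 ≤ j from h1)
    omega

variable {α : Type*} [DecidableEq α]

/-- The label of one coordinate. -/
inductive Lab (α : Type*) where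
  /-- A short left factor, recorded exactly. -/
  | short (g : FreeGroup α)
  /-- A long left factor with short surviving part, which is recorded. -/
  | kept (s : List (α × Bool))
  /-- A long surviving part. -/
  | long

/-- The label of the pair `(g, w)` in one coordinate, for the lower scale `lo`. -/
def lab (lo : ℕ) (g w : FreeGroup α) : Lab α :=
  if norm g ≤ lo then .short g
  else if (keep g w).length ≤ lo then .kept (keep g w) else .long

/-- The key in one coordinate: the prefix of length `hi` in the long case. -/
def key (hi : ℕ) (l : Lab α) (g : FreeGroup α) : List (α × Bool) :=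
  match l with
  | .long => g.toWord.take hi
  | _ => []

/-- The forbidden last letters in one coordinate. -/
noncomputable def forb (M : ℕ) (l : Lab α) (g w : FreeGroup α) (P : List (α × Bool)) :
    Finset (α × Bool) :=
  match l with
  | .short _ => ∅
  | .kept s => forbI s w.toWord (cancel g w)
  | .long => forbO M P

theorem card_forb (M : ℕ) (l : Lab α) (g w : FreeGroup α) (P : List (α × Bool)) :
    (forb M l g w P).card ≤ 2 := by
  cases l with
  | short g => simp [forb]
  | kept s => exact card_forbI _ _ _
  | long => exact card_forbO _ _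

/-- The coordinate avoids the gap `(lo, hi]`. -/
def NoGap (lo hi : ℕ) (g w : FreeGroup α) : Prop :=
  (norm g ≤ lo ∨ hi < norm g) ∧ ((keep g w).length ≤ lo ∨ hi < (keep g w).length)

theorem hi_lt_keep {lo hi : ℕ} {g w : FreeGroup α} (h : NoGap lo hi g w)
    (hl : lab lo g w = .long) : hi < (keep g w).length := by
  unfold lab at hl
  split at hl
  · simp at hl
  · split at hl
    · simp at hl
    · rename_i h2
      exact h.2.resolve_left h2

/-- The key is a function of the product in a long coordinate. -/
theorem key_mul {lo hi : ℕ} {g w : FreeGroup α} (h : NoGap lo hi g w) :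
    key hi (lab lo g w) g = key hi (lab lo g w) (g * w) := by
  cases hl : lab lo g w with
  | short a => rfl
  | kept s => rfl
  | long => exact (prefix_keep (hi_lt_keep h hl).le).symm

/-- Separation in one coordinate. -/
theorem inj_coord {lo hi M : ℕ} {g g' w u u' : FreeGroup α} {l : Lab α} {P : List (α × Bool)}
    (hgap : NoGap lo hi g w) (hl : lab lo g w = l)
    (hl' : lab lo g' w = l) (hP : key hi l g = P) (hP' : key hi l g' = P)
    (hM : norm u + norm u' ≤ M) (hhi : 2 * M ≤ hi)
    (hu : Avoid u (forb M l g w P)) (hu' : Avoid u' (forb M l g' w P))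
    (heq : u * g = u' * g') : u = u' := by
  cases l with
  | short a =>
    unfold lab at hl hl'
    split at hl
    · split at hl'
      · simp only [Lab.short.injEq] at hl hl'
        subst hl hl'
        exact inj_J heq
      · split at hl' <;> simp at hl'
    · split at hl <;> simp at hl
  | kept s =>
    unfold lab at hl hl'
    split at hl
    · simp at hl
    · split at hl'
      · simp at hl'
      · split at hl
        · split at hl'
          · simp only [Lab.kept.injEq] at hl hl'
            exact inj_I hl hl' hu hu' heq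
          · simp at hl'
        · simp at hl
  | long =>
    have hk := hi_lt_keep hgap hl
    have hlen : P.length = hi := by
      rw [← hP]
      simp only [key, List.length_take]
      have := length_keep g w
      simp only [FreeGroup.norm] at this
      omega
    exact inj_O (hP ▸ List.take_prefix hi _) (hP' ▸ List.take_prefix hi _) hM (by omega) hu hu' heq

section Product

variable {ι : Type*} {β : ι → Type*} [∀ i, DecidableEq (β i)]

/-- Distinct translators avoiding the forbidden letters separate one class. -/
theorem inj_class {lo hi M : ℕ} (l : ∀ i, Lab (β i)) (P : ∀ i, List (β i × Bool))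
    {g g' w u u' : ∀ i, FreeGroup (β i)}
    (hgap : ∀ i, NoGap lo hi (g i) (w i))
    (hl : ∀ i, lab lo (g i) (w i) = l i) (hl' : ∀ i, lab lo (g' i) (w i) = l i)
    (hP : ∀ i, key hi (l i) (g i) = P i) (hP' : ∀ i, key hi (l i) (g' i) = P i)
    (hM : ∀ i, norm (u i) + norm (u' i) ≤ M) (hhi : 2 * M ≤ hi)
    (hu : ∀ i, Avoid (u i) (forb M (l i) (g i) (w i) (P i)))
    (hu' : ∀ i, Avoid (u' i) (forb M (l i) (g' i) (w i) (P i)))
    (heq : u * g = u' * g') : u = u' ∧ g = g' := by
  have hu2 : u = u' := funext fun i => inj_coord (hgap i) (hl i) (hl' i) (hP i) (hP' i)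
    (hM i) hhi (hu i) (hu' i) (congrFun heq i)
  subst hu2
  exact ⟨rfl, mul_left_cancel heq⟩

/-- Some gap among `2 N + 1` is avoided by all coordinates of a pair. -/
theorem exists_noGap [Fintype ι] (R : ℕ → ℕ) (hR : Monotone R) (g w : ∀ i, FreeGroup (β i)) :
    ∃ j, j ≤ 2 * Fintype.card ι ∧ ∀ i, NoGap (R j) (R (j + 1)) (g i) (w i) :=
  exists_gap R hR (fun i => norm (g i)) (fun i => (keep (g i) (w i)).length)

variable [∀ i, Fintype (β i)]

/-- The finite set of possible labels at scale `lo`. -/
def labSet (lo : ℕ) : Set (∀ i, Lab (β i)) :=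
  {l | ∀ i, l i = .long ∨ (∃ g, FreeGroup.norm g ≤ lo ∧ l i = .short g) ∨
    ∃ s, s.length ≤ lo ∧ l i = .kept s}

omit [∀ i, Fintype (β i)] in
theorem lab_mem_labSet (lo : ℕ) (g w : ∀ i, FreeGroup (β i)) :
    (fun i => lab lo (g i) (w i)) ∈ labSet lo := by
  intro i
  simp only [lab]
  split
  · rename_i h; exact Or.inr (Or.inl ⟨g i, h, rfl⟩)
  · split
    · rename_i h; exact Or.inr (Or.inr ⟨_, h, rfl⟩)
    · exact Or.inl rfl

/-- Balls of a free group on finitely many letters are finite. -/
theorem finite_ball (γ : Type*) [DecidableEq γ] [Fintype γ] (n : ℕ) :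
    {g : FreeGroup γ | FreeGroup.norm g ≤ n}.Finite :=
  ((List.finite_length_le (γ × Bool) n).preimage toWord_injective.injOn)

theorem finite_labSet [Finite ι] (lo : ℕ) : (labSet (β := β) lo).Finite := by
  have : ∀ i, ({Lab.long} ∪ Lab.short '' {g : FreeGroup (β i) | FreeGroup.norm g ≤ lo} ∪
      Lab.kept '' {s : List (β i × Bool) | s.length ≤ lo}).Finite := fun i =>
    ((Set.finite_singleton _).union ((finite_ball _ _).image _)).union
      ((List.finite_length_le _ _).image _)
  refine (Set.Finite.pi this).subset fun l hl i _ => ?_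
  rcases hl i with h | ⟨g, hg, h⟩ | ⟨s, hs, h⟩
  · exact Or.inl (Or.inl h)
  · exact Or.inl (Or.inr ⟨g, hg, h.symm⟩)
  · exact Or.inr ⟨s, hs, h.symm⟩

variable [∀ i, Nontrivial (β i)]

/-- Right multiplication by an element with coordinates of norm at most one avoids two given
letters in each coordinate. -/
theorem avoid_cover_pi (u : ∀ i, FreeGroup (β i)) (F : ∀ i, Finset (β i × Bool))
    (hF : ∀ i, (F i).card ≤ 2) :
    ∃ z : ∀ i, FreeGroup (β i), (∀ i, norm (z i) ≤ 1) ∧ (∀ i, Avoid ((u * z) i) (F i)) ∧
      ∀ i, norm ((u * z) i) ≤ norm (u i) + 1 := by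
  choose z h1 h2 h3 using fun i => avoid_cover (u i) (F i) (hF i)
  exact ⟨z, h1, h2, h3⟩

/-- A product cylinder. -/
def cyl (s : ∀ i, β i × Bool) : Set (∀ i, FreeGroup (β i)) :=
  {x | ∀ i, (x i).toWord.head? = some (s i)}

/-- Finitely many left translates of a product cylinder cover the group. -/
theorem cyl_cover [Finite ι] (s : ∀ i, β i × Bool) :
    ∃ U : Finset (∀ i, FreeGroup (β i)), ∀ x, ∃ u ∈ U, u * x ∈ cyl s := by
  choose U hU using fun i => cylinder_cover (s i)
  refine ⟨(Set.Finite.pi fun i => (U i).finite_toSet).toFinset, fun x => ?_⟩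
  choose u hu hux using fun i => hU i (x i)
  exact ⟨u, by simpa using hu, hux⟩

omit [∀ i, DecidableEq (β i)] in
/-- Three pairwise distinct letters in every coordinate. -/
theorem exists_three : ∃ s : Fin 3 → ∀ i, β i × Bool, ∀ i, Function.Injective fun j => s j i := by
  have : ∀ i, Nonempty (Fin 3 ↪ β i × Bool) := fun i => by
    refine Function.Embedding.nonempty_of_card_le ?_
    have := Fintype.one_lt_card (α := β i)
    simp only [Fintype.card_fin, Fintype.card_prod, Fintype.card_bool]
    omega
  exact ⟨fun j i => (this i).some j, fun i => (this i).some.injective⟩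

omit [∀ i, Fintype (β i)] [∀ i, Nontrivial (β i)] in
/-- The centre of a triple in three product cylinders is unique. -/
theorem median_unique_pi {s : Fin 3 → ∀ i, β i × Bool}
    (hs : ∀ i, Function.Injective fun j => s j i) {a b : ∀ i, FreeGroup (β i)}
    {x : Fin 3 → ∀ i, FreeGroup (β i)} (ha : ∀ j, a⁻¹ * x j ∈ cyl (s j))
    (hb : ∀ j, b⁻¹ * x j ∈ cyl (s j)) : a = b :=
  funext fun i => median_unique (hs i) (fun j => ha j i) (fun j => hb j i)

end Product

end Vale.Agent.P165.ProdLabels
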