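import Vale.Agent.P165.Prod.Defs
import Vale.Agent.P165.Prod.Labels
import Vale.Agent.P165.Prod.NormalWords

/-!
The scale decomposition and half-space data for subgroups of finite products of nonabelian free
groups which contain a product of nontrivial normal subgroups of the factors.
-/

namespace Vale.Agent.P165.Prod

open Vale.Agent.P165.FreeWord Vale.Agent.P165.ProdLabels Vale.Agent.P165.NormalWords

/-- A group embedded in a finite product of nonabelian free groups so that its image contains all
conjugates of some nontrivial element of each factor carries the combinatorial data `Geo`. -/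
theorem geo_of_hom (ι : Type) [Fintype ι] [DecidableEq ι] (k : ι → ℕ) (hk : ∀ i, 2 ≤ k i)
    {Γ : Type} [Group Γ] (φ : Γ →* ∀ i, FreeGroup (Fin (k i))) (hφ : Function.Injective φ)
    (hn : ∀ i, ∃ n : FreeGroup (Fin (k i)), n ≠ 1 ∧
      ∀ c, Pi.mulSingle i (c * n * c⁻¹) ∈ φ.range) :
    Nonempty (Geo Γ) := by
  classical
  have hnt : ∀ i, Nontrivial (Fin (k i)) := fun i => Fin.nontrivial_iff_two_le.2 (hk i)
  obtain ⟨s, hs⟩ := exists_three (β := fun i => Fin (k i))
  choose n hn1 hn2 using hn
  choose W hWN hWl hWr using fun i =>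
    exists_cover (N := φ.range.comap (MonoidHom.mulSingle (fun i => FreeGroup (Fin (k i))) i)) (hn1 i) (hn2 i)
  have hmem : ∀ w : ∀ i, FreeGroup (Fin (k i)), (∀ i, w i ∈ W i) → ∃ g, φ g = w := fun w hw =>
    show w ∈ φ.range from Submonoid.pi_mem_of_mulSingle_mem w fun i => hWN i _ (hw i)
  refine ⟨{
    T := (Fintype.piFinset W).preimage φ hφ.injOn
    H := fun j => φ ⁻¹' cyl (s j)
    K := 1
    cover_left := ?_
    median := ?_
    L := ∀ i, Lab (Fin (k i))
    Key := ∀ i, List (Fin (k i) × Bool)
    n := 2 * Fintype.card ι + 1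
    labs := fun lo => (finite_labSet lo).toFinset
    piece := fun lo hi l g w =>
      (∀ i, NoGap lo hi (φ g i) (φ w i)) ∧ ∀ i, lab lo (φ g i) (φ w i) = l i
    kf := fun _ hi l g i => key hi (l i) (φ g i)
    ky := fun _ hi l x i => key hi (l i) (φ x i)
    key_eq := ?_
    cover := ?_
    good := fun _ hi l g w =>
      {u | ∀ i, Avoid (φ u i) (forb (hi / 2) (l i) (φ g i) (φ w i) (key hi (l i) (φ g i)))}
    cover_right := ?_
    inj := ?_ }⟩
  · intro j g
    choose v hv hvg using fun i => hWl i (s j i) (φ g i)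
    obtain ⟨t, ht⟩ := hmem v hv
    refine ⟨t, by simpa [ht] using hv, fun i => ?_⟩
    rw [map_mul, ht]
    exact hvg i
  · refine fun x A hA => Finset.card_le_one.2 fun a ha b hb =>
      hφ (median_unique_pi (x := fun j => φ (x j)) hs ?_ ?_)
    · exact fun j => by simpa using hA a ha j
    · exact fun j => by simpa using hA b hb j
  · rintro lo hi l g w ⟨hgap, hl⟩
    funext i
    rw [← hl i, map_mul]
    exact (key_mul (hgap i)).symm
  · intro R hR g w
    obtain ⟨j, hj, hgap⟩ := exists_noGap R hR.monotone (φ g) (φ w)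
    exact ⟨j, Nat.lt_succ_of_le hj, fun i => lab (R j) (φ g i) (φ w i),
      (Set.Finite.mem_toFinset _).2 (lab_mem_labSet _ (φ g) (φ w)), hgap, fun _ => rfl⟩
  · intro lo hi l g w u
    choose v hv hav using fun i => hWr i
      (forb (hi / 2) (l i) (φ g i) (φ w i) (key hi (l i) (φ g i))) (card_forb _ _ _ _ _) (φ u i)
    obtain ⟨t, ht⟩ := hmem v hv
    refine ⟨t, by simpa [ht] using hv, fun i => ?_⟩
    rw [map_mul, ht]
    exact hav i
  · intro U
    refine ⟨4 * U.sup (fun u => ∑ i, FreeGroup.norm (φ u i)), ?_⟩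
    intro lo hi hhi _ l w g g' u u' hu hu' hp hp' hkey hgu hgu' heq
    refine hφ (inj_class l (fun i => key hi (l i) (φ g i)) (M := hi / 2) hp.1 hp.2 hp'.2
      (fun _ => rfl) (fun i => (congrFun hkey i).symm) ?_ (Nat.mul_div_le hi 2) hgu ?_
      (by rw [← map_mul, ← map_mul, heq])).2
    · intro i
      have h1 := (Finset.single_le_sum (fun i _ => Nat.zero_le (FreeGroup.norm (φ u i)))
        (Finset.mem_univ i)).trans
          (Finset.le_sup (f := fun u => ∑ i, FreeGroup.norm (φ u i)) hu)
      have h2 := (Finset.single_le_sum (fun i _ => Nat.zero_le (FreeGroup.norm (φ u' i)))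
        (Finset.mem_univ i)).trans
          (Finset.le_sup (f := fun u => ∑ i, FreeGroup.norm (φ u i)) hu')
      omega
    · intro i
      have h := hgu' i
      rwa [← congrFun hkey i] at h

/-- A subgroup of a finite product of nonabelian free groups containing all conjugates of some
nontrivial element of each factor carries the combinatorial data `Geo`. -/
theorem sub_geo (ι : Type) [Fintype ι] [DecidableEq ι] (k : ι → ℕ) (hk : ∀ i, 2 ≤ k i)
    (G : Subgroup (∀ i, FreeGroup (Fin (k i))))
    (hG : ∀ i, ∃ n : FreeGroup (Fin (k i)), n ≠ 1 ∧ ∀ c, Pi.mulSingle i (c * n * c⁻¹) ∈ G) :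
    Nonempty (Geo ↥G) :=
  geo_of_hom ι k hk G.subtype G.subtype_injective (by simpa [G.range_subtype] using hG)

/-- A finite product of nonabelian free groups carries the combinatorial data `Geo`. -/
theorem prod_geo (ι : Type) [Fintype ι] (k : ι → ℕ) (hk : ∀ i, 2 ≤ k i) :
    Nonempty (Geo (∀ i, FreeGroup (Fin (k i)))) := by
  classical
  exact geo_of_hom ι k hk (MonoidHom.id _) Function.injective_id fun i =>
    ⟨FreeGroup.of ⟨0, by linarith [hk i]⟩, FreeGroup.of_ne_one _, fun c => ⟨_, rfl⟩⟩

end Vale.Agent.P165.Prod
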