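import Vale.Agent.P165.Prod.Sprinkle
import Vale.Agent.P165.Trees.Schur

/-!
Below the susceptibility threshold the two-point matrix has `ℓ²` norm much smaller than the
susceptibility, given the combinatorial data `Geo`: a piece of the convolution kernel carries
little mass in each fibre because translating the fibre by a heavy finite set spreads it out.
-/

namespace Vale.Agent.P165.Prod

open Finset SimpleGraph
open scoped Classical

set_option linter.unusedSectionVars false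

theorem expect_at_zero {α : Type*} [DecidableEq α] (E : Finset α) (f : Finset α → ℝ) :
    expect 0 E f = f ∅ := by
  induction E using Finset.induction_on generalizing f with
  | empty => exact expect_empty 0 f
  | insert a E ha ih => rw [expect_insert ha, ih]; ring

theorem expect_at_one {α : Type*} [DecidableEq α] (E : Finset α) (f : Finset α → ℝ) :
    expect 1 E f = f E := by
  induction E using Finset.induction_on generalizing f with
  | empty => exact expect_empty 1 f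
  | insert a E ha ih => rw [expect_insert ha, ih, ih]; ring

section Volume

variable {V : Type*} {G : SimpleGraph V} [G.LocallyFinite]

theorem chiLe_zero : ChiLe G 0 1 := by
  intro S x _
  refine le_of_eq ?_
  rw [chiV, sum_eq_single_of_mem x ‹x ∈ S› fun y _ hy => ?_, tauV_self]
  rw [tauV, expect_at_zero, if_neg]
  intro h
  rw [og, coe_empty, fromEdgeSet_empty, reachable_bot] at h
  exact hy h.symm

theorem ChiLe.weaken {p K K' : ℝ} (h : ChiLe G p K) (hK : K ≤ K') : ChiLe G p K' :=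
  fun S x hx => (h S x hx).trans hK

end Volume

/-- Translating the fibre `A` by the finite set `U` spreads its mass over distinct points. -/
theorem Geo.mass_le {Γ : Type} [Group Γ] (Geom : Geo Γ) (τ : Γ → ℝ) (hτ : ∀ g, 0 ≤ τ g)
    (hmul : ∀ g h, τ g * τ h ≤ τ (g * h)) {κ C : ℝ} (hκ : ∀ v ∈ Geom.T, κ ≤ τ v)
    (hC : ∀ F : Finset Γ, ∑ g ∈ F, τ g ≤ C) (U : Finset Γ) {h0 lo hi : ℕ}
    (hh0 : ∀ lo hi, h0 ≤ hi → lo < hi → ∀ l w g g' u u',
      u ∈ (U ×ˢ Geom.T).image (fun r => r.1 * r.2) →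
      u' ∈ (U ×ˢ Geom.T).image (fun r => r.1 * r.2) →
      Geom.piece lo hi l g w → Geom.piece lo hi l g' w →
      Geom.kf lo hi l g = Geom.kf lo hi l g' →
      u ∈ Geom.good lo hi l g w → u' ∈ Geom.good lo hi l g' w → u * g = u' * g' → g = g')
    (h0hi : h0 ≤ hi) (hlo : lo < hi) (l : Geom.L) (w : Γ) (A : Finset Γ)
    (hA : ∀ g ∈ A, Geom.piece lo hi l g w)
    (hkey : ∀ g ∈ A, ∀ g' ∈ A, Geom.kf lo hi l g = Geom.kf lo hi l g') :
    κ * (∑ u ∈ U, τ u) * (∑ g ∈ A, τ g) ≤ Geom.T.card * C := by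
  have hv : ∀ g u : Γ, ∃ v ∈ Geom.T, u * v ∈ Geom.good lo hi l g w :=
    fun g u => Geom.cover_right lo hi l g w u
  choose v hvT hvg using hv
  let ψ : Γ × Γ → Γ × Γ := fun r => (r.2 * v r.1 r.2 * r.1, v r.1 r.2)
  have hψ : Set.InjOn ψ (A ×ˢ U : Finset (Γ × Γ)) := by
    intro r hr r' hr' he
    rw [Finset.mem_coe, mem_product] at hr hr'
    simp only [ψ, Prod.mk.injEq] at he
    have hg : r.1 = r'.1 := hh0 lo hi h0hi hlo l w _ _ _ _
      (mem_image.2 ⟨(r.2, v r.1 r.2), mem_product.2 ⟨hr.2, hvT _ _⟩, rfl⟩)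
      (mem_image.2 ⟨(r'.2, v r'.1 r'.2), mem_product.2 ⟨hr'.2, hvT _ _⟩, rfl⟩)
      (hA _ hr.1) (hA _ hr'.1) (hkey _ hr.1 _ hr'.1) (hvg _ _) (hvg _ _) he.1
    refine Prod.ext hg ?_
    have h := he.1
    rw [he.2, hg] at h
    exact mul_right_cancel (mul_right_cancel h)
  calc κ * (∑ u ∈ U, τ u) * (∑ g ∈ A, τ g)
      = ∑ r ∈ A ×ˢ U, τ r.2 * κ * τ r.1 := by
        rw [sum_product, mul_sum]
        refine sum_congr rfl fun g _ => ?_
        rw [mul_sum, sum_mul]
        exact sum_congr rfl fun u _ => by ring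
    _ ≤ ∑ r ∈ A ×ˢ U, τ (r.2 * v r.1 r.2 * r.1) := by
        refine sum_le_sum fun r _ => ?_
        refine le_trans ?_ (hmul _ _)
        refine mul_le_mul_of_nonneg_right (le_trans ?_ (hmul _ _)) (hτ _)
        exact mul_le_mul_of_nonneg_left (hκ _ (hvT _ _)) (hτ _)
    _ = ∑ z ∈ (A ×ˢ U).image ψ, τ z.1 := (sum_image (f := fun z : Γ × Γ => τ z.1) hψ).symm
    _ ≤ ∑ z ∈ ((A ×ˢ U).image ψ).image Prod.fst ×ˢ Geom.T, τ z.1 := by
        refine sum_le_sum_of_subset_of_nonneg (fun z hz => ?_) fun z _ _ => hτ _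
        refine mem_product.2 ⟨mem_image_of_mem _ hz, ?_⟩
        obtain ⟨r, -, rfl⟩ := mem_image.1 hz
        exact hvT _ _
    _ = Geom.T.card * ∑ a ∈ ((A ×ˢ U).image ψ).image Prod.fst, τ a := by
        rw [sum_product, mul_sum]
        exact sum_congr rfl fun a _ => by simp [sum_const, nsmul_eq_mul]
    _ ≤ Geom.T.card * C := mul_le_mul_of_nonneg_left (hC _) (Nat.cast_nonneg _)

section Cayley

variable {Γ : Type} [Group Γ] [Infinite Γ] (S : Finset Γ) [(mulCayley (S : Set Γ)).LocallyFinite]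
  (hS : ∀ s ∈ S, s⁻¹ ∈ S) (h1 : (1 : Γ) ∉ S) (hgen : Subgroup.closure (S : Set Γ) = ⊤)
include hS h1 hgen

theorem pchi_le_one : pchi (mulCayley (S : Set Γ)) ≤ 1 :=
  csSup_le ⟨0, ⟨le_rfl, zero_le_one⟩, 1, chiLe_zero⟩ fun _ hp => hp.1.2

theorem le_pchi {p K : ℝ} (hp0 : 0 ≤ p) (hp1 : p ≤ 1)
    (h : ChiLe (mulCayley (S : Set Γ)) p K) : p ≤ pchi (mulCayley (S : Set Γ)) :=
  le_csSup ⟨1, fun _ hp => hp.1.2⟩ ⟨⟨hp0, hp1⟩, K, h⟩

theorem pchi_pos : 0 < pchi (mulCayley (S : Set Γ)) := by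
  have hd : (0 : ℝ) ≤ S.card := Nat.cast_nonneg _
  have hq : (1 : ℝ) / (2 * (S.card + 1)) ≤ 1 := by
    rw [div_le_one (by positivity)]; linarith
  have hs : ((1 : ℝ) / (2 * (S.card + 1)) - 0) * S.card * 1 < 1 := by
    rw [sub_zero, mul_one, div_mul_eq_mul_div, div_lt_one (by positivity)]
    linarith
  exact lt_of_lt_of_le (by positivity) (le_pchi S hS h1 hgen (by positivity) hq
    (sprinkle_chi S hS h1 hgen le_rfl (by positivity) hq zero_le_one chiLe_zero hs))

theorem chiLe_of_lt {p : ℝ} (hp : 0 ≤ p) (h : p < pchi (mulCayley (S : Set Γ))) :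
    ∃ K, ChiLe (mulCayley (S : Set Γ)) p K := by
  obtain ⟨q, ⟨hq, K, hK⟩, hpq⟩ := exists_lt_of_lt_csSup
    (show {q : ℝ | q ∈ Set.Icc (0 : ℝ) 1 ∧ ∃ K, ChiLe (mulCayley (S : Set Γ)) q K}.Nonempty from
      ⟨0, ⟨le_rfl, zero_le_one⟩, 1, chiLe_zero⟩) h
  exact ⟨K, hK.mono _ hp hpq.le hq.2⟩

theorem tau1_one_eq (g : Γ) : tau1 S 1 g = 1 := by
  obtain ⟨W, hW⟩ := exists_lt_of_lt_ciSup
    (tau1_pos S hS h1 hgen one_pos le_rfl g)
  refine le_antisymm (tau1_le_one S zero_le_one le_rfl g) ?_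
  refine le_trans ?_ (le_tau1 S zero_le_one le_rfl W g)
  rw [tauV, expect_at_one] at hW ⊢
  split_ifs with h
  · exact le_rfl
  · rw [if_neg h] at hW; exact absurd hW (lt_irrefl 0)

theorem not_chiLe_one (K : ℝ) : ¬ ChiLe (mulCayley (S : Set Γ)) 1 K := by
  intro h
  obtain ⟨n, hn⟩ := exists_nat_gt (chi S 1)
  obtain ⟨F, hF⟩ := Infinite.exists_subset_card_eq Γ n
  have := sum_tau1_le S zero_le_one le_rfl h F
  simp only [tau1_one_eq S hS h1 hgen, sum_const, nsmul_eq_mul, mul_one, hF] at this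
  linarith

theorem chi_unbounded (M : ℝ) : ∃ p0, 0 < p0 ∧ p0 < pchi (mulCayley (S : Set Γ)) ∧
    ∀ p, p0 ≤ p → p < pchi (mulCayley (S : Set Γ)) → M ≤ chi S p := by
  have hpos := pchi_pos S hS h1 hgen
  have hle := pchi_le_one S hS h1 hgen
  set M' := max M 1
  have hM' : 1 ≤ M' := le_max_right _ _
  set δ : ℝ := 1 / (2 * (S.card + 1) * M')
  have hδ : 0 < δ := by positivity
  refine ⟨max (pchi (mulCayley (S : Set Γ)) - δ / 2) (pchi (mulCayley (S : Set Γ)) / 2),
    lt_max_of_lt_right (by linarith), max_lt (by linarith) (by linarith), fun p hp hlt => ?_⟩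
  by_contra hcon
  rw [not_le] at hcon
  obtain ⟨hp2, hp3⟩ := max_le_iff.1 hp
  have hp0 : 0 ≤ p := by linarith
  have hp1 : p ≤ 1 := by linarith
  obtain ⟨K, hK⟩ := chiLe_of_lt S hS h1 hgen hp0 hlt
  have hM : ChiLe (mulCayley (S : Set Γ)) p M' :=
    (chiLe_chi S hp0 hp1 hK).weaken (hcon.le.trans (le_max_left _ _))
  have hs : (min 1 (p + δ) - p) * S.card * M' < 1 := by
    have h2 : δ * S.card * M' < 1 := by
      simp only [δ]
      rw [div_mul_eq_mul_div, div_mul_eq_mul_div, div_lt_one (by positivity)]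
      nlinarith [Nat.cast_nonneg (α := ℝ) S.card]
    refine lt_of_le_of_lt ?_ h2
    have := min_le_right (1 : ℝ) (p + δ)
    have : 0 ≤ (S.card : ℝ) * M' := by positivity
    nlinarith
  have hnew := sprinkle_chi S hS h1 hgen hp0 (le_min hp1 (by linarith)) (min_le_left _ _)
    (zero_le_one.trans hM') hM hs
  have hq := le_pchi S hS h1 hgen (le_min zero_le_one (by linarith)) (min_le_left _ _) hnew
  rcases min_choice (1 : ℝ) (p + δ) with h | h
  · rw [h] at hnew
    exact not_chiLe_one S hS h1 hgen _ hnew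
  · rw [h] at hq
    linarith

/-- One piece of the kernel, bounded through the mass in its fibres. -/
theorem piece_sum_le (Geom : Geo Γ) {p κ m ε : ℝ} (hp0 : 0 ≤ p) (hp1 : p ≤ 1) {K : ℝ}
    (hK : ChiLe (mulCayley (S : Set Γ)) p K) (hκ0 : 0 < κ)
    (hκ : ∀ v ∈ Geom.T, κ ≤ tau1 S p v) (U : Finset Γ) {h0 lo hi : ℕ}
    (hh0 : ∀ lo hi, h0 ≤ hi → lo < hi → ∀ l w g g' u u',
      u ∈ (U ×ˢ Geom.T).image (fun r => r.1 * r.2) →
      u' ∈ (U ×ˢ Geom.T).image (fun r => r.1 * r.2) →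
      Geom.piece lo hi l g w → Geom.piece lo hi l g' w →
      Geom.kf lo hi l g = Geom.kf lo hi l g' →
      u ∈ Geom.good lo hi l g w → u' ∈ Geom.good lo hi l g' w → u * g = u' * g' → g = g')
    (h0hi : h0 ≤ hi) (hlo : lo < hi) (hm : 0 < m) (hmU : m ≤ ∑ u ∈ U, tau1 S p u)
    (hε : 0 ≤ ε) (hεm : (Geom.T.card : ℝ) ≤ ε ^ 2 * (κ * m))
    (l : Geom.L) (W : Finset Γ) (f h : Γ → ℝ) (hf : ∀ x, 0 ≤ f x) (hh : ∀ x, 0 ≤ h x) :
    ∑ r ∈ (W ×ˢ W) with Geom.piece lo hi l (r.2⁻¹ * r.1) r.1⁻¹,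
        f r.1 * tau1 S p (r.2⁻¹ * r.1) * h r.2
      ≤ ε * chi S p * (Real.sqrt (∑ x ∈ W, f x ^ 2) * Real.sqrt (∑ y ∈ W, h y ^ 2)) := by
  have hχ : 0 ≤ chi S p := zero_le_one.trans (one_le_chi S hp0 hp1 hK)
  have hτ : ∀ g, 0 ≤ tau1 S p g := tau1_nonneg S hp0 hp1
  set P := (W ×ˢ W).filter fun r => Geom.piece lo hi l (r.2⁻¹ * r.1) r.1⁻¹
  let φ : Γ × Γ → Γ × Γ := fun r => (r.2⁻¹ * r.1, r.1⁻¹)
  have hφ : Set.InjOn φ (P : Set (Γ × Γ)) := by
    intro r _ r' _ he
    simp only [φ, Prod.mk.injEq] at he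
    have h1 : r.1 = r'.1 := inv_injective he.2
    refine Prod.ext h1 (inv_injective ?_)
    have h2 := he.1
    rw [h1] at h2
    exact mul_right_cancel h2
  have heq : ∑ r ∈ P, f r.1 * tau1 S p (r.2⁻¹ * r.1) * h r.2 =
      ∑ r ∈ P.image φ, tau1 S p r.1 * f r.2⁻¹ * h (r.1 * r.2)⁻¹ := by
    rw [sum_image hφ]
    refine sum_congr rfl fun r _ => ?_
    simp only [φ, inv_inv, mul_inv_cancel_right]
    ring
  have hpc : ∀ r ∈ P.image φ, Geom.piece lo hi l r.1 r.2 := by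
    intro r hr
    obtain ⟨s, hs, rfl⟩ := mem_image.1 hr
    exact (mem_filter.1 hs).2
  have hsq := Trees.piece_sq_le (P.image φ) (fun g w => g * w) (Geom.ky lo hi l)
    (Geom.kf lo hi l) (fun r hr => Geom.key_eq _ _ _ _ _ (hpc r hr))
    (fun r _ r' _ he hm => Prod.ext he (mul_left_cancel (a := r.1) (hm.trans (by rw [he]))))
    (tau1 S p) hτ (fun w => f w⁻¹) (fun x => h x⁻¹)
    (C := chi S p) (M := Geom.T.card * chi S p / (κ * m)) (by positivity)
    (sum_tau1_le S hp0 hp1 hK _)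
    (fun w k => by
      rw [le_div_iff₀ (mul_pos hκ0 hm)]
      set A := (P.image φ).filter fun r => r.2 = w ∧ Geom.kf lo hi l r.1 = k
      have hA : Set.InjOn (Prod.fst : Γ × Γ → Γ) (A : Set (Γ × Γ)) := fun r hr r' hr' he =>
        Prod.ext he ((mem_filter.1 hr).2.1.trans (mem_filter.1 hr').2.1.symm)
      rw [← sum_image (f := tau1 S p) hA]
      refine le_trans ?_ (Geom.mass_le (tau1 S p) hτ (tau1_mul_le S hp0 hp1) hκ
        (sum_tau1_le S hp0 hp1 hK) U hh0 h0hi hlo l w (A.image Prod.fst) ?_ ?_)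
      · rw [mul_comm]
        exact mul_le_mul_of_nonneg_right (mul_le_mul_of_nonneg_left hmU hκ0.le)
          (sum_nonneg fun g _ => hτ g)
      · intro g hg
        obtain ⟨r, hr, rfl⟩ := mem_image.1 hg
        have := hpc r (mem_filter.1 hr).1
        rwa [(mem_filter.1 hr).2.1] at this
      · intro g hg g' hg'
        obtain ⟨r, hr, rfl⟩ := mem_image.1 hg
        obtain ⟨r', hr', rfl⟩ := mem_image.1 hg'
        exact (mem_filter.1 hr).2.2.trans (mem_filter.1 hr').2.2.symm)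
  have hfW : ∑ w ∈ (P.image φ).image Prod.snd, f w⁻¹ ^ 2 ≤ ∑ x ∈ W, f x ^ 2 := by
    rw [← sum_image (f := fun x => f x ^ 2) inv_injective.injOn]
    refine sum_le_sum_of_subset_of_nonneg (fun x hx => ?_) fun x _ _ => sq_nonneg _
    simp only [mem_image] at hx
    obtain ⟨w, ⟨r, ⟨s, hs, rfl⟩, rfl⟩, rfl⟩ := hx
    simpa [φ] using (mem_product.1 (mem_filter.1 hs).1).1
  have hhW : ∑ x ∈ (P.image φ).image (fun r => r.1 * r.2), h x⁻¹ ^ 2 ≤ ∑ y ∈ W, h y ^ 2 := by
    rw [← sum_image (f := fun x => h x ^ 2) inv_injective.injOn]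
    refine sum_le_sum_of_subset_of_nonneg (fun x hx => ?_) fun x _ _ => sq_nonneg _
    simp only [mem_image] at hx
    obtain ⟨w, ⟨r, ⟨s, hs, rfl⟩, rfl⟩, rfl⟩ := hx
    simpa [φ] using (mem_product.1 (mem_filter.1 hs).1).2
  have hn1 : 0 ≤ ∑ x ∈ W, f x ^ 2 := sum_nonneg fun x _ => sq_nonneg _
  have hn2 : 0 ≤ ∑ y ∈ W, h y ^ 2 := sum_nonneg fun x _ => sq_nonneg _
  rw [heq]
  refine le_of_pow_le_pow_left₀ two_ne_zero (by positivity) (hsq.trans ?_)
  rw [mul_pow, mul_pow, mul_pow, Real.sq_sqrt hn1, Real.sq_sqrt hn2]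
  have hM : chi S p * (Geom.T.card * chi S p / (κ * m)) ≤ ε ^ 2 * chi S p ^ 2 := by
    rw [mul_div_assoc', div_le_iff₀ (mul_pos hκ0 hm)]
    nlinarith [mul_le_mul_of_nonneg_right hεm (sq_nonneg (chi S p))]
  calc _ ≤ chi S p * (Geom.T.card * chi S p / (κ * m)) *
          (∑ x ∈ W, f x ^ 2) * (∑ y ∈ W, h y ^ 2) := by gcongr
    _ ≤ _ := by
        rw [mul_assoc _ (∑ x ∈ W, f x ^ 2)]
        exact mul_le_mul_of_nonneg_right hM (mul_nonneg hn1 hn2)

/-- The two-point matrix has norm at most a small multiple of the susceptibility. -/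
theorem op_small (Geom : Geo Γ) {η : ℝ} (hη : 0 < η) :
    ∃ p0, 0 < p0 ∧ p0 < pchi (mulCayley (S : Set Γ)) ∧
      ∀ p, p0 ≤ p → p < pchi (mulCayley (S : Set Γ)) →
        OpLe (mulCayley (S : Set Γ)) p (η * chi S p) := by
  have hpos := pchi_pos S hS h1 hgen
  have hle := pchi_le_one S hS h1 hgen
  set pc' := pchi (mulCayley (S : Set Γ))
  have hT : Geom.T.Nonempty := by
    obtain ⟨v, hv, -⟩ := Geom.cover_left 0 1
    exact ⟨v, hv⟩
  obtain ⟨v0, hv0, hv0min⟩ := Geom.T.exists_min_image (tau1 S (pc' / 2)) hT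
  set κ := tau1 S (pc' / 2) v0
  have hκ0 : 0 < κ := tau1_pos S hS h1 hgen (by linarith) (by linarith) v0
  let ε : ℕ → ℝ := fun k => η / ((Geom.n + 1) * ((Geom.labs k).card + 1))
  let need : ℕ → ℝ := fun k => Geom.T.card / (κ * ε k ^ 2)
  have hεpos : ∀ k, 0 < ε k := fun k => by positivity
  have hTpos : (0 : ℝ) < Geom.T.card := by exact_mod_cast hT.card_pos
  have hneed : ∀ k, 0 < need k := fun k => by
    have := hεpos k
    positivity
  have hchoose : ∀ k, ∃ (pk : ℝ) (U : Finset Γ), 0 < pk ∧ pk < pc' ∧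
      need k ≤ ∑ u ∈ U, tau1 S pk u := by
    intro k
    obtain ⟨pk, hpk0, hpk, hbig⟩ := chi_unbounded S hS h1 hgen (need k + 1)
    obtain ⟨U, hU⟩ := exists_sum_tau1_gt S hpk0.le (hpk.le.trans hle)
      (show need k < chi S pk by linarith [hbig pk le_rfl hpk])
    exact ⟨pk, U, hpk0, hpk, hU.le⟩
  choose pk U hpk0 hpk hU using hchoose
  choose h0 hh0 using fun k => Geom.inj ((U k ×ˢ Geom.T).image fun r => r.1 * r.2)
  let R : ℕ → ℕ := fun j => Nat.rec 0 (fun _ r => max (r + 1) (h0 r)) j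
  have hR : ∀ j, R (j + 1) = max (R j + 1) (h0 (R j)) := fun j => rfl
  have hRmono : StrictMono R := strictMono_nat_of_lt_succ fun j => by rw [hR]; omega
  set B := insert (pc' / 2) ((range Geom.n).image fun j => pk (R j))
  have hBne : B.Nonempty := insert_nonempty _ _
  have hBlt : B.max' hBne < pc' := by
    rw [max'_lt_iff]
    intro b hb
    rcases mem_insert.1 hb with rfl | hb
    · linarith
    · obtain ⟨j, -, rfl⟩ := mem_image.1 hb
      exact hpk _
  refine ⟨B.max' hBne, lt_of_lt_of_le (by linarith) (B.le_max' _ (mem_insert_self _ _)), hBlt,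
    fun p hp hlt W f h hf hh => ?_⟩
  have hp2 : pc' / 2 ≤ p := (B.le_max' _ (mem_insert_self _ _)).trans hp
  have hp0 : 0 ≤ p := by linarith
  have hp1 : p ≤ 1 := by linarith
  obtain ⟨K, hK⟩ := chiLe_of_lt S hS h1 hgen hp0 hlt
  have hχ : 0 ≤ chi S p := zero_le_one.trans (one_le_chi S hp0 hp1 hK)
  set N := Real.sqrt (∑ x ∈ W, f x ^ 2) * Real.sqrt (∑ y ∈ W, h y ^ 2)
  have hN : 0 ≤ N := by positivity
  let c : Γ × Γ → ℝ := fun r => f r.1 * tau1 S p (r.2⁻¹ * r.1) * h r.2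
  have hc : ∀ r, 0 ≤ c r := fun r =>
    mul_nonneg (mul_nonneg (hf _) (tau1_nonneg S hp0 hp1 _)) (hh _)
  let t : ℕ → Geom.L → Γ × Γ → ℝ := fun j l r =>
    if Geom.piece (R j) (R (j + 1)) l (r.2⁻¹ * r.1) r.1⁻¹ then c r else 0
  have ht : ∀ j l r, 0 ≤ t j l r := fun j l r => by
    simp only [t]
    split_ifs
    · exact hc r
    · exact le_rfl
  calc ∑ x ∈ W, ∑ y ∈ W, f x * tauV (mulCayley (S : Set Γ)) p W x y * h y
      ≤ ∑ r ∈ W ×ˢ W, c r := by
        rw [sum_product]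
        refine sum_le_sum fun x _ => sum_le_sum fun y _ => ?_
        refine mul_le_mul_of_nonneg_right (mul_le_mul_of_nonneg_left ?_ (hf x)) (hh y)
        rw [tauV_comm]
        exact tauV_le_tau1 S hp0 hp1 W y x
    _ ≤ ∑ r ∈ W ×ˢ W, ∑ j ∈ range Geom.n, ∑ l ∈ Geom.labs (R j), t j l r := by
        refine sum_le_sum fun r _ => ?_
        obtain ⟨j, hj, l, hl, hpiece⟩ := Geom.cover R hRmono (r.2⁻¹ * r.1) r.1⁻¹
        calc c r = t j l r := (if_pos hpiece).symm
          _ ≤ ∑ l' ∈ Geom.labs (R j), t j l' r :=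
              single_le_sum (f := fun l' => t j l' r) (fun l' _ => ht _ _ _) hl
          _ ≤ _ := single_le_sum (f := fun j' => ∑ l' ∈ Geom.labs (R j'), t j' l' r)
              (fun j' _ => sum_nonneg fun l' _ => ht _ _ _) (mem_range.2 hj)
    _ = ∑ j ∈ range Geom.n, ∑ l ∈ Geom.labs (R j), ∑ r ∈ W ×ˢ W, t j l r := by
        rw [sum_comm]
        exact sum_congr rfl fun j _ => sum_comm
    _ ≤ ∑ j ∈ range Geom.n, ∑ l ∈ Geom.labs (R j), ε (R j) * chi S p * N := by
        refine sum_le_sum fun j hj => sum_le_sum fun l _ => ?_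
        simp only [t, ← sum_filter]
        have hpj : pk (R j) ≤ p :=
          (B.le_max' _ (mem_insert_of_mem (mem_image_of_mem _ hj))).trans hp
        have hεm : (Geom.T.card : ℝ) ≤ ε (R j) ^ 2 * (κ * need (R j)) := by
          refine le_of_eq ?_
          have := hεpos (R j)
          simp only [need]
          field_simp
        exact piece_sum_le S hS h1 hgen Geom hp0 hp1 hK hκ0
          (fun v hv => (hv0min v hv).trans (tau1_mono S (by linarith) hp2 hp1 v))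
          (U (R j)) (hh0 (R j)) (by rw [hR]; exact le_max_right _ _)
          (hRmono (Nat.lt_succ_self j)) (hneed _)
          ((hU (R j)).trans (sum_le_sum fun u _ => tau1_mono S (hpk0 _).le hpj hp1 u))
          (hεpos _).le hεm l W f h hf hh
    _ ≤ ∑ j ∈ range Geom.n, η / (Geom.n + 1) * chi S p * N := by
        refine sum_le_sum fun j _ => ?_
        rw [sum_const, nsmul_eq_mul]
        refine le_of_eq_of_le
          (show _ = (Geom.labs (R j)).card * ε (R j) * chi S p * N by ring) ?_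
        refine mul_le_mul_of_nonneg_right (mul_le_mul_of_nonneg_right ?_ hχ) hN
        simp only [ε]
        rw [← div_div, mul_div_assoc', div_le_iff₀ (by positivity)]
        have : (0 : ℝ) ≤ η / (Geom.n + 1) := by positivity
        nlinarith
    _ ≤ η * chi S p * N := by
        rw [sum_const, card_range, nsmul_eq_mul]
        refine le_of_eq_of_le
          (show _ = (Geom.n : ℝ) * (η / (Geom.n + 1)) * chi S p * N by ring) ?_
        refine mul_le_mul_of_nonneg_right (mul_le_mul_of_nonneg_right ?_ hχ) hN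
        rw [mul_div_assoc', div_le_iff₀ (by positivity)]
        nlinarith
    _ = _ := by simp only [N]; ring

end Cayley

end Vale.Agent.P165.Prod
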