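import Vale.Agent.P165.Prod.Second
import Vale.Agent.P165.Prod.Spread
import Vale.Agent.P165.Main

/-!
The second moment of the cluster size is at least a multiple of the cube of the susceptibility
when triples have boundedly many centres, hence the susceptibility grows at most like the inverse
of the distance to its threshold.
-/

namespace Vale.Agent.P165.Prod

open Finset SimpleGraph Vale.Agent.P165
open scoped Classical

set_option linter.unusedSectionVars false

section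

variable {Γ : Type} [Group Γ] (S : Finset Γ) [(mulCayley (S : Set Γ)).LocallyFinite]

private lemma edgesIn_shift (g : Γ) (W : Finset Γ) :
    edgesIn (mulCayley (S : Set Γ)) (W.image (g * ·))
      = (edgesIn (mulCayley (S : Set Γ)) W).image (Sym2.map (g * ·)) := by
  ext e
  induction e using Sym2.ind with
  | h x y =>
    rw [mem_edgesIn]
    constructor
    · rintro ⟨hadj, hx, hy⟩
      obtain ⟨a, ha, rfl⟩ := Finset.mem_image.1 hx
      obtain ⟨b, hb, rfl⟩ := Finset.mem_image.1 hy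
      exact Finset.mem_image.2 ⟨s(a, b), (mem_edgesIn _).2 ⟨mulCayley_adj_mul_iff_right.1 hadj, ha, hb⟩, rfl⟩
    · intro h
      obtain ⟨e, he, heq⟩ := Finset.mem_image.1 h
      induction e using Sym2.ind with
      | h a b =>
        obtain ⟨hadj, ha, hb⟩ := (mem_edgesIn _).1 he
        rw [Sym2.map_mk, Sym2.eq_iff] at heq
        rcases heq with ⟨rfl, rfl⟩ | ⟨rfl, rfl⟩
        · exact ⟨mulCayley_adj_mul_iff_right.2 hadj, mem_image_of_mem _ ha,
            mem_image_of_mem _ hb⟩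
        · exact ⟨(mulCayley_adj_mul_iff_right.2 hadj).symm, mem_image_of_mem _ hb,
            mem_image_of_mem _ ha⟩

private lemma expect_shift (p : ℝ) (g : Γ) (W : Finset Γ) (F : Finset (Sym2 Γ) → ℝ) :
    expect p (edgesIn (mulCayley (S : Set Γ)) W) (fun ω => F (ω.image (Sym2.map (g * ·))))
      = expect p (edgesIn (mulCayley (S : Set Γ)) (W.image (g * ·))) F := by
  have hinj : Function.Injective (Sym2.map (g * ·) : Sym2 Γ → Sym2 Γ) :=
    Sym2.map.injective (mul_right_injective g)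
  rw [edgesIn_shift]
  unfold expect
  rw [Finset.powerset_image, Finset.sum_image (Finset.image_injective hinj).injOn]
  refine Finset.sum_congr rfl fun A _ => ?_
  rw [Finset.card_image_of_injective _ hinj, Finset.card_image_of_injective _ hinj]

private lemma reach_shift {ω : Finset (Sym2 Γ)} (g : Γ) {x y : Γ}
    (h : (og ω).Reachable x y) :
    (og (ω.image (Sym2.map (g * ·)))).Reachable (g * x) (g * y) := by
  let φ : og ω →g og (ω.image (Sym2.map (g * ·))) :=
    { toFun := fun z => g * z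
      map_rel' := fun {a b} hab => by
        obtain ⟨hm, hne⟩ := og_adj.1 hab
        exact og_adj.2 ⟨Finset.mem_image.2 ⟨s(a, b), hm, rfl⟩,
          fun h => hne (mul_left_cancel h)⟩ }
  exact h.map φ

/-- Indicator that `x` is connected to `u` and to `v`. -/
private noncomputable def both (ω : Finset (Sym2 Γ)) (x u v : Γ) : ℝ :=
  if (og ω).Reachable x u ∧ (og ω).Reachable x v then 1 else 0

private lemma both_nonneg (ω : Finset (Sym2 Γ)) (x u v : Γ) : 0 ≤ both ω x u v := by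
  unfold both; split_ifs <;> norm_num

private lemma both_mono (x u v : Γ) : Monotone fun ω : Finset (Sym2 Γ) => both ω x u v := by
  intro a b hab
  simp only [both]
  by_cases h : (og a).Reachable x u ∧ (og a).Reachable x v
  · rw [if_pos h, if_pos ⟨h.1.mono (og_mono hab), h.2.mono (og_mono hab)⟩]
  · rw [if_neg h]; split_ifs <;> norm_num

private lemma ite_and_mul (P Q : Prop) :
    (if P then (1 : ℝ) else 0) * (if Q then (1 : ℝ) else 0) = if P ∧ Q then 1 else 0 := by
  split_ifs <;> simp_all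


private lemma three_sum {α : Type*} (a b c : Finset α) (P : α → Prop) :
    (∑ x ∈ a, if P x then (1 : ℝ) else 0) * (∑ y ∈ b, if P y then (1 : ℝ) else 0)
      * (∑ z ∈ c, if P z then (1 : ℝ) else 0)
    = ∑ t ∈ a ×ˢ (b ×ˢ c),
      (if P t.1 then (1 : ℝ) else 0) *
        (if P t.2.1 ∧ P t.2.2 then (1 : ℝ) else 0) := by
  rw [sum_product, mul_assoc, sum_mul]
  refine sum_congr rfl fun x _ => ?_
  rw [sum_mul_sum, mul_sum, sum_product]
  refine sum_congr rfl fun y _ => ?_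
  rw [mul_sum]
  refine sum_congr rfl fun z _ => ?_
  dsimp only
  rw [← ite_and_mul]

/-- Pairs seen from a translated point: the triples are at most `K` times the second moment. -/
private lemma triple_sum_le {p : ℝ} (hp0 : 0 ≤ p) (hp1 : p ≤ 1) (F0 F1 F2 W W' : Finset Γ)
    (K : ℕ) (hW' : ∀ h ∈ F0, W.image (h⁻¹ * ·) ⊆ W') (hF1 : F1 ⊆ W) (hF2 : F2 ⊆ W)
    (hmed : ∀ (u v : Γ) (A : Finset Γ),
      (∀ a ∈ A, a⁻¹ ∈ F0 ∧ a⁻¹ * u ∈ F1 ∧ a⁻¹ * v ∈ F2) → A.card ≤ K) :
    expect p (edgesIn (mulCayley (S : Set Γ)) W) (fun ω =>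
        (∑ x ∈ F0, if (og ω).Reachable 1 x then (1 : ℝ) else 0)
          * (∑ x ∈ F1, if (og ω).Reachable 1 x then (1 : ℝ) else 0)
          * (∑ x ∈ F2, if (og ω).Reachable 1 x then (1 : ℝ) else 0))
      ≤ (K : ℝ) * sqV (mulCayley (S : Set Γ)) p W' 1 := by
  set trip := F0 ×ˢ (F1 ×ˢ F2) with htrip
  let φ : Γ × Γ × Γ → Γ × Γ := fun t => (t.1⁻¹ * t.2.1, t.1⁻¹ * t.2.2)
  let P : Γ × Γ → ℝ := fun uv =>
    expect p (edgesIn (mulCayley (S : Set Γ)) W') (fun ω => both ω 1 uv.1 uv.2)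
  have hP0 : ∀ uv, 0 ≤ P uv := fun uv =>
    expect_nonneg hp0 hp1 fun ω _ => both_nonneg ω _ _ _
  have hterm : ∀ t ∈ trip, expect p (edgesIn (mulCayley (S : Set Γ)) W) (fun ω =>
      (if (og ω).Reachable 1 t.1 then (1 : ℝ) else 0) * both ω 1 t.2.1 t.2.2) ≤ P (φ t) := by
    intro t ht
    obtain ⟨ht0, -⟩ := mem_product.1 ht
    calc expect p (edgesIn (mulCayley (S : Set Γ)) W) (fun ω =>
          (if (og ω).Reachable 1 t.1 then (1 : ℝ) else 0) * both ω 1 t.2.1 t.2.2)
        ≤ expect p (edgesIn (mulCayley (S : Set Γ)) W) (fun ω =>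
          both (ω.image (Sym2.map (t.1⁻¹ * ·))) 1 (φ t).1 (φ t).2) := by
          refine expect_mono hp0 hp1 fun ω _ => ?_
          by_cases hr : (og ω).Reachable 1 t.1
          · rw [if_pos hr, one_mul]
            unfold both
            by_cases hb : (og ω).Reachable 1 t.2.1 ∧ (og ω).Reachable 1 t.2.2
            · rw [if_pos hb, if_pos]
              constructor
              · have := reach_shift t.1⁻¹ (hr.symm.trans hb.1)
                rwa [inv_mul_cancel] at this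
              · have := reach_shift t.1⁻¹ (hr.symm.trans hb.2)
                rwa [inv_mul_cancel] at this
            · rw [if_neg hb]; split_ifs <;> norm_num
          · rw [if_neg hr, zero_mul]; exact both_nonneg _ _ _ _
      _ = expect p (edgesIn (mulCayley (S : Set Γ)) (W.image (t.1⁻¹ * ·)))
            (fun ω => both ω 1 (φ t).1 (φ t).2) :=
          expect_shift S p t.1⁻¹ W (fun ω => both ω 1 (φ t).1 (φ t).2)
      _ ≤ P (φ t) := by
          have hsub : edgesIn (mulCayley (S : Set Γ)) (W.image (t.1⁻¹ * ·))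
              ⊆ edgesIn (mulCayley (S : Set Γ)) W' := by
            intro e he
            induction e using Sym2.ind with
            | h x y =>
              obtain ⟨ha, hx, hy⟩ := (mem_edgesIn _).1 he
              exact (mem_edgesIn _).2 ⟨ha, hW' _ ht0 hx, hW' _ ht0 hy⟩
          rw [← expect_subset hsub]
          exact expect_mono hp0 hp1 fun ω _ => both_mono _ _ _ inter_subset_left
  have hmaps : ∀ t ∈ trip, φ t ∈ W' ×ˢ W' := by
    intro t ht
    obtain ⟨ht0, ht12⟩ := mem_product.1 ht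
    obtain ⟨ht1, ht2⟩ := mem_product.1 ht12
    exact mem_product.2 ⟨hW' _ ht0 (mem_image_of_mem _ (hF1 ht1)),
      hW' _ ht0 (mem_image_of_mem _ (hF2 ht2))⟩
  have hfib : ∀ uv ∈ W' ×ˢ W', ∑ t ∈ trip.filter (fun t => φ t = uv), P (φ t)
      ≤ (K : ℝ) * P uv := by
    intro uv _
    rw [sum_congr rfl (fun t ht => by rw [(mem_filter.1 ht).2] :
      ∀ t ∈ trip.filter (fun t => φ t = uv), P (φ t) = P uv), sum_const, nsmul_eq_mul]
    refine mul_le_mul_of_nonneg_right (Nat.cast_le.2 ?_) (hP0 uv)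
    have hinj : Set.InjOn (fun t : Γ × Γ × Γ => t.1⁻¹)
        ↑(trip.filter (fun t => φ t = uv)) := by
      intro s hs t ht hst
      obtain ⟨-, hs⟩ := mem_filter.1 hs
      obtain ⟨-, ht⟩ := mem_filter.1 ht
      have h0 : s.1 = t.1 := inv_injective hst
      have hst' : φ s = φ t := hs.trans ht.symm
      simp only [φ, Prod.mk.injEq, h0] at hst'
      exact Prod.ext h0 (Prod.ext (mul_left_cancel hst'.1) (mul_left_cancel hst'.2))
    rw [← card_image_of_injOn hinj]
    refine hmed uv.1 uv.2 _ fun a ha => ?_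
    obtain ⟨t, ht, rfl⟩ := Finset.mem_image.1 ha
    obtain ⟨htm, rfl⟩ := mem_filter.1 ht
    obtain ⟨ht0, ht12⟩ := mem_product.1 htm
    obtain ⟨ht1, ht2⟩ := mem_product.1 ht12
    simp only [φ, inv_inv, mul_inv_cancel_left]
    exact ⟨ht0, ht1, ht2⟩
  have hsq : ∑ uv ∈ W' ×ˢ W', P uv = sqV (mulCayley (S : Set Γ)) p W' 1 := by
    simp only [P]
    rw [← expect_sum, sqV]
    refine expect_congr fun ω _ => ?_
    rw [sq, cluster, Finset.natCast_card_filter, sum_mul_sum, sum_product]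
    refine sum_congr rfl fun u _ => sum_congr rfl fun v _ => ?_
    dsimp only [both]
    rw [← ite_and_mul]
  calc expect p (edgesIn (mulCayley (S : Set Γ)) W) _
      = ∑ t ∈ trip, expect p (edgesIn (mulCayley (S : Set Γ)) W) (fun ω =>
          (if (og ω).Reachable 1 t.1 then (1 : ℝ) else 0) * both ω 1 t.2.1 t.2.2) := by
        rw [← expect_sum]
        exact expect_congr fun ω _ => three_sum F0 F1 F2 _
    _ ≤ ∑ t ∈ trip, P (φ t) := sum_le_sum hterm
    _ = ∑ uv ∈ W' ×ˢ W', ∑ t ∈ trip.filter (fun t => φ t = uv), P (φ t) :=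
        (sum_fiberwise_of_maps_to hmaps _).symm
    _ ≤ ∑ uv ∈ W' ×ˢ W', (K : ℝ) * P uv := sum_le_sum hfib
    _ = _ := by rw [← mul_sum, hsq]

end

section

variable {Γ : Type} [Group Γ] [Infinite Γ] (S : Finset Γ) [(mulCayley (S : Set Γ)).LocallyFinite]
  (hS : ∀ s ∈ S, s⁻¹ ∈ S) (h1 : (1 : Γ) ∉ S) (hgen : Subgroup.closure (S : Set Γ) = ⊤)
include hS h1 hgen

theorem sq_lower (Geom : Geo Γ) {p0 : ℝ} (h0 : 0 < p0) :
    ∃ c, 0 < c ∧ ∀ p, p0 ≤ p → p < pchi (mulCayley (S : Set Γ)) →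
      ∃ W : Finset Γ, (1 : Γ) ∈ W ∧ c * chi S p ^ 3 ≤ sqV (mulCayley (S : Set Γ)) p W 1 := by
  set q0 := min p0 1 with hq0
  have hq00 : 0 < q0 := lt_min h0 one_pos
  have hq01 : q0 ≤ 1 := min_le_right _ _
  have hinvnn : ∀ v, 0 ≤ (tau1 S q0 v)⁻¹ := fun v =>
    inv_nonneg.2 (tau1_nonneg S hq00.le hq01 v)
  set A : ℝ := ∑ v ∈ Geom.T, (tau1 S q0 v)⁻¹ + 1 with hA
  have hA0 : 0 < A := add_pos_of_nonneg_of_pos (sum_nonneg fun v _ => hinvnn v) one_pos
  have hK0 : (0 : ℝ) ≤ (Geom.K : ℝ) := Nat.cast_nonneg _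
  refine ⟨1 / (64 * A ^ 3 * ((Geom.K : ℝ) + 1)), by positivity, fun p hp hpc => ?_⟩
  have hp0 : 0 < p := h0.trans_le hp
  have hp1 : p ≤ 1 := hpc.le.trans (pchi_le_one S hS h1 hgen)
  obtain ⟨K, hK⟩ := chiLe_of_lt S hS h1 hgen hp0.le hpc
  set X := chi S p with hX
  have hX1 : 1 ≤ X := one_le_chi S hp0.le hp1 hK
  obtain ⟨F, hF⟩ := exists_sum_tau1_gt S hp0.le hp1 (show X / 2 < chi S p by linarith)
  set Fj : Fin 3 → Finset Γ := fun j =>
    ((Geom.T ×ˢ F).image fun t => t.1 * t.2).filter (fun h => h ∈ Geom.H j) with hFj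
  have hcov : ∀ j, X / 2 ≤ A * ∑ h ∈ Fj j, tau1 S p h := by
    intro j
    have hnn : 0 ≤ ∑ h ∈ Fj j, tau1 S p h := sum_nonneg fun h _ => tau1_nonneg S hp0.le hp1 h
    have h2 : ∀ g ∈ F, tau1 S p g ≤ ∑ v ∈ Geom.T,
        if v * g ∈ Geom.H j then (tau1 S q0 v)⁻¹ * tau1 S p (v * g) else 0 := by
      intro g _
      obtain ⟨v, hv, hvg⟩ := Geom.cover_left j g
      refine le_trans ?_ (single_le_sum (fun v _ => ?_) hv)
      · rw [if_pos hvg]
        have hv0 : 0 < tau1 S q0 v := tau1_pos S hS h1 hgen hq00 hq01 v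
        rw [le_inv_mul_iff₀ hv0]
        refine le_trans (mul_le_mul_of_nonneg_right
          (tau1_mono S hq00.le ((min_le_left _ _).trans hp) hp1 v)
          (tau1_nonneg S hp0.le hp1 g)) (tau1_mul_le S hp0.le hp1 v g)
      · split_ifs
        · exact mul_nonneg (hinvnn v) (tau1_nonneg S hp0.le hp1 _)
        · exact le_rfl
    calc X / 2 ≤ ∑ g ∈ F, tau1 S p g := hF.le
      _ ≤ ∑ g ∈ F, ∑ v ∈ Geom.T,
          if v * g ∈ Geom.H j then (tau1 S q0 v)⁻¹ * tau1 S p (v * g) else 0 := sum_le_sum h2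
      _ = ∑ v ∈ Geom.T, (tau1 S q0 v)⁻¹ *
          ∑ g ∈ F.filter (fun g => v * g ∈ Geom.H j), tau1 S p (v * g) := by
          rw [sum_comm]
          refine sum_congr rfl fun v _ => ?_
          rw [mul_sum, sum_filter]
      _ ≤ ∑ v ∈ Geom.T, (tau1 S q0 v)⁻¹ * ∑ h ∈ Fj j, tau1 S p h := by
          refine sum_le_sum fun v hv => mul_le_mul_of_nonneg_left ?_ (hinvnn v)
          rw [← sum_image (g := fun g => v * g) (f := fun h => tau1 S p h)
            (mul_right_injective v).injOn]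
          refine sum_le_sum_of_subset_of_nonneg ?_ fun h _ _ => tau1_nonneg S hp0.le hp1 h
          intro h hh
          obtain ⟨g, hg, rfl⟩ := Finset.mem_image.1 hh
          obtain ⟨hgF, hgH⟩ := mem_filter.1 hg
          exact mem_filter.2 ⟨Finset.mem_image.2 ⟨(v, g), mk_mem_product hv hgF, rfl⟩, hgH⟩
      _ ≤ A * ∑ h ∈ Fj j, tau1 S p h := by
          rw [← sum_mul]
          exact mul_le_mul_of_nonneg_right (by rw [hA]; linarith) hnn
  have hpick : ∀ h : Γ, ∃ W : Finset Γ, tau1 S p h / 2 < tauV (mulCayley (S : Set Γ)) p W 1 h := by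
    intro h
    have hpos := tau1_pos S hS h1 hgen hp0 hp1 h
    exact exists_lt_of_lt_ciSup
      (show tau1 S p h / 2 < ⨆ W : Finset Γ, tauV (mulCayley (S : Set Γ)) p W 1 h from by
        show tau1 S p h / 2 < tau1 S p h
        linarith)
  choose Wh hWh using hpick
  set U := (Finset.univ : Finset (Fin 3)).biUnion Fj with hU
  set W := insert (1 : Γ) (U ∪ U.biUnion Wh) with hW
  have hFW : ∀ j, ∀ h ∈ Fj j, h ∈ W := fun j h hh =>
    mem_insert_of_mem (mem_union_left _ (mem_biUnion.2 ⟨j, mem_univ j, hh⟩))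
  have hm : ∀ j, X / (4 * A) ≤ ∑ h ∈ Fj j, tauV (mulCayley (S : Set Γ)) p W 1 h := by
    intro j
    have h2 : ∑ h ∈ Fj j, tau1 S p h ≤ 2 * ∑ h ∈ Fj j, tauV (mulCayley (S : Set Γ)) p W 1 h := by
      rw [mul_sum]
      refine sum_le_sum fun h hh => ?_
      have hsub : Wh h ⊆ W := fun z hz => mem_insert_of_mem (mem_union_right _
        (mem_biUnion.2 ⟨h, mem_biUnion.2 ⟨j, mem_univ j, hh⟩, hz⟩))
      have h3 := tauV_mono_set (mulCayley (S : Set Γ)) hp0.le hp1 hsub 1 h
      have h4 := hWh h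
      linarith
    have h5 := (hcov j).trans (mul_le_mul_of_nonneg_left h2 hA0.le)
    rw [div_le_iff₀ (by positivity)]
    linarith
  set E := edgesIn (mulCayley (S : Set Γ)) W with hE
  set f : Fin 3 → Finset (Sym2 Γ) → ℝ := fun j ω =>
    ∑ h ∈ Fj j, if (og ω).Reachable 1 h then (1 : ℝ) else 0 with hf
  have hfnn : ∀ j ω, 0 ≤ f j ω := fun j ω =>
    sum_nonneg fun h _ => by split_ifs <;> norm_num
  have hfm : ∀ j, Monotone (f j) := by
    intro j a b hab
    refine sum_le_sum fun h _ => ?_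
    by_cases hr : (og a).Reachable 1 h
    · rw [if_pos hr, if_pos (hr.mono (og_mono hab))]
    · rw [if_neg hr]; split_ifs <;> norm_num
  have hEf : ∀ j, X / (4 * A) ≤ expect p E (f j) := by
    intro j
    refine (hm j).trans (le_of_eq ?_)
    rw [hf, expect_sum]
    rfl
  have hm0 : 0 ≤ X / (4 * A) := by positivity
  have hEf0 : ∀ j, 0 ≤ expect p E (f j) := fun j => hm0.trans (hEf j)
  have h012 : (X / (4 * A)) ^ 3 ≤ expect p E (fun ω => f 0 ω * f 1 ω * f 2 ω) := by
    have ha := Prod.expect_harris hp0.le hp1 E (f 0) (f 1) (hfm 0) (hfm 1)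
    have hb := Prod.expect_harris hp0.le hp1 E (fun ω => f 0 ω * f 1 ω) (f 2)
      (fun a b hab => mul_le_mul (hfm 0 hab) (hfm 1 hab) (hfnn 1 a) (hfnn 0 b)) (hfm 2)
    calc (X / (4 * A)) ^ 3 = X / (4 * A) * (X / (4 * A)) * (X / (4 * A)) := by ring
      _ ≤ expect p E (f 0) * expect p E (f 1) * expect p E (f 2) :=
          mul_le_mul (mul_le_mul (hEf 0) (hEf 1) hm0 (hEf0 0)) (hEf 2) hm0
            (mul_nonneg (hEf0 0) (hEf0 1))
      _ ≤ expect p E (fun ω => f 0 ω * f 1 ω) * expect p E (f 2) :=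
          mul_le_mul_of_nonneg_right ha (hEf0 2)
      _ ≤ _ := hb
  set W' := insert (1 : Γ) ((Fj 0).biUnion fun h => W.image (h⁻¹ * ·)) with hW'
  refine ⟨W', mem_insert_self _ _, ?_⟩
  have htri := triple_sum_le S hp0.le hp1 (Fj 0) (Fj 1) (Fj 2) W W' Geom.K
    (fun h hh z hz => mem_insert_of_mem (mem_biUnion.2 ⟨h, hh, hz⟩))
    (fun h hh => hFW 1 h hh) (fun h hh => hFW 2 h hh) (fun u v A hA' => by
      refine Geom.median ![1, u, v] A fun a ha j => ?_
      obtain ⟨a0, a1, a2⟩ := hA' a ha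
      fin_cases j
      · simpa using (mem_filter.1 a0).2
      · simpa using (mem_filter.1 a1).2
      · simpa using (mem_filter.1 a2).2)
  have hsq0 : 0 ≤ sqV (mulCayley (S : Set Γ)) p W' 1 :=
    expect_nonneg hp0.le hp1 fun ω _ => by positivity
  have h2 : (X / (4 * A)) ^ 3 ≤ (Geom.K + 1 : ℝ) * sqV (mulCayley (S : Set Γ)) p W' 1 := by
    have := h012.trans htri
    linarith
  calc 1 / (64 * A ^ 3 * ((Geom.K : ℝ) + 1)) * X ^ 3
      = (X / (4 * A)) ^ 3 / ((Geom.K : ℝ) + 1) := by field_simp; ring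
    _ ≤ _ := by rw [div_le_iff₀ (by positivity)]; linarith

omit h1 in
private lemma chi_mono_aux {p q K : ℝ} (hp0 : 0 ≤ p) (hpq : p ≤ q) (hq1 : q ≤ 1)
    (h : ChiLe (mulCayley (S : Set Γ)) q K) : chi S p ≤ chi S q :=
  chi_le S ((chiLe_chi S (hp0.trans hpq) hq1 h).mono _ hp0 hpq hq1)

/-- One step of the growth of the susceptibility. -/
private lemma step_aux {c p q : ℝ} (hp0 : 0 < p) (hpq : p ≤ q)
    (hq : q < pchi (mulCayley (S : Set Γ))) {W : Finset Γ} (hW : (1 : Γ) ∈ W)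
    (hc : c * chi S p ^ 3 ≤ sqV (mulCayley (S : Set Γ)) p W 1) :
    (q - p) * (c * chi S p ^ 3 - chi S q - chi S q ^ 2) ≤ chi S q ^ 2 := by
  have hq1 : q ≤ 1 := hq.le.trans (pchi_le_one S hS h1 hgen)
  have hq0 : 0 ≤ q := hp0.le.trans hpq
  obtain ⟨K, hK⟩ := chiLe_of_lt S hS h1 hgen hq0 hq
  set M := chi S q with hM
  have hM1 : 1 ≤ M := one_le_chi S hq0 hq1 hK
  have hMle : ChiLe (mulCayley (S : Set Γ)) q M := chiLe_chi S hq0 hq1 hK
  set L := c * chi S p ^ 3 - M - M ^ 2 with hL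
  set F : ℝ → ℝ := fun r => M * chiV (mulCayley (S : Set Γ)) r W 1 - L * r with hF
  have hd : ∀ r ∈ Set.Icc p q, ∃ d, HasDerivAt F d r ∧ 0 ≤ d := by
    intro r hr
    have hr0 : 0 ≤ r := hp0.le.trans hr.1
    have hr1 : r ≤ 1 := hr.2.trans hq1
    obtain ⟨D, hD, hD0, hsq⟩ := sqV_le (mulCayley (S : Set Γ)) hr0 hr1 W hW
      (fun x hx => hMle.mono (mulCayley (S : Set Γ)) hr0 hr.2 hq1 W x hx)
    refine ⟨_, (hD.const_mul M).sub ((hasDerivAt_id r).const_mul L), ?_⟩
    have h2 := sqV_mono_p (mulCayley (S : Set Γ)) hp0.le hr.1 hr1 W 1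
    have h3 : r * M * D ≤ M * D := by
      have hMD : 0 ≤ M * D := mul_nonneg (zero_le_one.trans hM1) hD0
      calc r * M * D = r * (M * D) := mul_assoc _ _ _
        _ ≤ 1 * (M * D) := mul_le_mul_of_nonneg_right hr1 hMD
        _ = _ := one_mul _
    simp only [mul_one]
    linarith
  have hmono : MonotoneOn F (Set.Icc p q) := by
    refine monotoneOn_of_deriv_nonneg (convex_Icc p q) ?_ ?_ ?_
    · intro r hr
      obtain ⟨d, hd', -⟩ := hd r hr
      exact hd'.continuousAt.continuousWithinAt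
    · intro r hr
      obtain ⟨d, hd', -⟩ := hd r (interior_subset hr)
      exact hd'.differentiableAt.differentiableWithinAt
    · intro r hr
      obtain ⟨d, hd', hle⟩ := hd r (interior_subset hr)
      rw [hd'.deriv]
      exact hle
  have hFF := hmono (Set.left_mem_Icc.2 hpq) (Set.right_mem_Icc.2 hpq) hpq
  have hq2 : chiV (mulCayley (S : Set Γ)) q W 1 ≤ M := hMle W 1 hW
  have hp2 : 0 ≤ chiV (mulCayley (S : Set Γ)) p W 1 := sum_nonneg fun y _ => tauV_nonneg (mulCayley (S : Set Γ)) hp0.le (hpq.trans hq1) W 1 y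
  have hM0 : 0 ≤ M := zero_le_one.trans hM1
  have h4 := mul_le_mul_of_nonneg_left hq2 hM0
  have h5 := mul_nonneg hM0 hp2
  simp only [hF] at hFF
  nlinarith

/-- The susceptibility doubles along a step of length `9 / (c * chi)`. -/
private lemma double_aux {c p q : ℝ} (hc0 : 0 < c) (hp0 : 0 < p) (hpq : p ≤ q)
    (hq : q < pchi (mulCayley (S : Set Γ))) {W : Finset Γ} (hW : (1 : Γ) ∈ W)
    (hc : c * chi S p ^ 3 ≤ sqV (mulCayley (S : Set Γ)) p W 1)
    (h12 : 12 / c ≤ chi S p) (hY1 : 1 ≤ chi S p) (hgap : 9 / (c * chi S p) ≤ q - p) :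
    2 * chi S p ≤ chi S q := by
  obtain ⟨K, hK⟩ := chiLe_of_lt S hS h1 hgen (hp0.le.trans hpq) hq
  have hYZ := chi_mono_aux S hS hgen hp0.le hpq (hq.le.trans (pchi_le_one S hS h1 hgen)) hK
  have hstep := step_aux S hS h1 hgen hp0 hpq hq hW hc
  by_contra hne
  rw [not_le] at hne
  generalize chi S p = Y at hc h12 hY1 hgap hYZ hstep hne
  generalize chi S q = Z at hYZ hstep hne
  have h12' : 12 ≤ c * Y := by
    have := (div_le_iff₀ hc0).1 h12
    linarith
  have hY0 : 0 < Y := by linarith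
  have h6 : Z + Z ^ 2 ≤ 6 * Y ^ 2 := by nlinarith
  have h7 : 12 * Y ^ 2 ≤ c * Y ^ 3 := by
    have := mul_le_mul_of_nonneg_right h12' (sq_nonneg Y)
    linarith
  have hlow : c * Y ^ 3 / 2 ≤ c * Y ^ 3 - Z - Z ^ 2 := by linarith
  have h8 : 9 / (c * Y) * (c * Y ^ 3 / 2) ≤ Z ^ 2 :=
    (mul_le_mul hgap hlow (by positivity) (sub_nonneg.2 hpq)).trans hstep
  have h9 : 9 / (c * Y) * (c * Y ^ 3 / 2) = 9 / 2 * Y ^ 2 := by field_simp
  have h10 : Z ^ 2 ≤ 4 * Y ^ 2 := by nlinarith
  nlinarith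

theorem gamma_one (Geom : Geo Γ) :
    ∃ p0 C, 0 < p0 ∧ p0 < pchi (mulCayley (S : Set Γ)) ∧
      ∀ p, p0 ≤ p → p < pchi (mulCayley (S : Set Γ)) →
        chi S p * (pchi (mulCayley (S : Set Γ)) - p) ≤ C := by
  obtain ⟨a0, ha0, ha1, -⟩ := chi_unbounded S hS h1 hgen 0
  obtain ⟨c, hc, hsq⟩ := sq_lower S hS h1 hgen Geom ha0
  obtain ⟨b0, hb0, hb1, hbig⟩ := chi_unbounded S hS h1 hgen (12 / c)
  refine ⟨max a0 b0, 18 / c, lt_of_lt_of_le ha0 (le_max_left _ _), max_lt ha1 hb1,
    fun p hp hpc => ?_⟩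
  have hpc1 : pchi (mulCayley (S : Set Γ)) ≤ 1 := pchi_le_one S hS h1 hgen
  have hp0 : 0 < p := ha0.trans_le ((le_max_left _ _).trans hp)
  obtain ⟨K, hK⟩ := chiLe_of_lt S hS h1 hgen hp0.le hpc
  set M := chi S p with hM
  have hM1 : 1 ≤ M := one_le_chi S hp0.le (hpc.le.trans hpc1) hK
  have hMpos : 0 < M := by linarith
  by_contra hcon
  rw [not_le] at hcon
  set top := p + 18 / (c * M) with htop
  have htopc : top < pchi (mulCayley (S : Set Γ)) := by
    have hlt : 18 / (c * M) < pchi (mulCayley (S : Set Γ)) - p := by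
      rw [div_lt_iff₀ (by positivity)]
      have := (div_lt_iff₀ hc).1 hcon
      linarith
    linarith
  set pk : ℕ → ℝ := fun k => top - 18 / (c * M) * (1 / 2) ^ k with hpk
  have hpk_ge : ∀ k, p ≤ pk k := by
    intro k
    have h2 : 18 / (c * M) * (1 / 2 : ℝ) ^ k ≤ 18 / (c * M) :=
      mul_le_of_le_one_right (by positivity) (pow_le_one₀ (by norm_num) (by norm_num))
    simp only [hpk, htop]
    linarith
  have hpk_le : ∀ k, pk k ≤ top := by
    intro k
    have : 0 ≤ 18 / (c * M) * (1 / 2 : ℝ) ^ k := by positivity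
    simp only [hpk]
    linarith
  have hfin : ∀ r, p ≤ r → r ≤ top → ∃ K, ChiLe (mulCayley (S : Set Γ)) r K := fun r hr hr' =>
    chiLe_of_lt S hS h1 hgen (hp0.le.trans hr) (hr'.trans_lt htopc)
  have hgrow : ∀ k : ℕ, (2 : ℝ) ^ k * M ≤ chi S (pk k) := by
    intro k
    induction k with
    | zero =>
      have : pk 0 = p := by simp [hpk, htop]
      rw [this, pow_zero, one_mul]
    | succ k ih =>
      have hk0 : 0 < pk k := hp0.trans_le (hpk_ge k)
      have hkc : pk k < pchi (mulCayley (S : Set Γ)) := (hpk_le k).trans_lt htopc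
      have hgap : pk (k + 1) - pk k = 9 / (c * M) * (1 / 2) ^ k := by
        simp only [hpk, pow_succ]
        ring
      have hle : pk k ≤ pk (k + 1) := by
        have : (0 : ℝ) ≤ 9 / (c * M) * (1 / 2) ^ k := by positivity
        linarith
      have hkk : (0 : ℝ) < 2 ^ k * M := by positivity
      have hY0 : 0 < chi S (pk k) := hkk.trans_le ih
      have hgap' : 9 / (c * chi S (pk k)) ≤ pk (k + 1) - pk k := by
        rw [hgap]
        calc 9 / (c * chi S (pk k)) ≤ 9 / (c * (2 ^ k * M)) := by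
              refine div_le_div_of_nonneg_left (by norm_num) (by positivity) ?_
              exact mul_le_mul_of_nonneg_left ih hc.le
          _ = _ := by rw [div_pow, one_pow]; field_simp
      obtain ⟨W, hW, hWc⟩ := hsq (pk k)
        ((le_max_left _ _).trans (hp.trans (hpk_ge k))) hkc
      have hdbl := double_aux S hS h1 hgen hc hk0 hle ((hpk_le _).trans_lt htopc) hW hWc
        (hbig _ ((le_max_right _ _).trans (hp.trans (hpk_ge k))) hkc)
        ((one_le_mul_of_one_le_of_one_le (one_le_pow₀ (by norm_num)) hM1).trans ih) hgap'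
      rw [pow_succ]
      linarith
  obtain ⟨k, hk⟩ := pow_unbounded_of_one_lt (chi S top / M) (one_lt_two : (1 : ℝ) < 2)
  obtain ⟨K', hK'⟩ := hfin top (by
    have : 0 ≤ 18 / (c * M) := by positivity
    linarith) le_rfl
  have := chi_mono_aux S hS hgen (hp0.le.trans (hpk_ge k)) (hpk_le k) (htopc.le.trans hpc1) hK'
  have h11 := (div_lt_iff₀ hMpos).1 hk
  linarith [hgrow k]

end

end Vale.Agent.P165.Prod
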