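import Vale.Agent.P165.Prod.Defs

/-!
The combinatorial data pass to overgroups of finite index, so the nonuniqueness theorem applies to
every group which is virtually of the type considered.
-/

namespace Vale.Agent.P165.Prod

open Finset
open scoped Classical

variable {Γ Δ : Type} [Group Γ] [Group Δ]

/-- The data of a finite-index subgroup give data of the whole group: half-spaces and admissible
right translates are taken inside the subgroup, and labels remember the two cosets. -/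
theorem Geo.extend (Geom : Geo Γ) (ι : Γ →* Δ) (hι : Function.Injective ι)
    [hfi : ι.range.FiniteIndex] : Nonempty (Geo Δ) := by
  obtain ⟨R, hRl, hRr⟩ : ∃ R : Finset Δ,
      (∀ x, ∃ r ∈ R, r * x ∈ ι.range) ∧ (∀ x, ∃ r ∈ R, x * r ∈ ι.range) := by
    have : Finite (Δ ⧸ ι.range) := Subgroup.finite_quotient_of_finiteIndex
    have := Fintype.ofFinite (Δ ⧸ ι.range)
    let rep : Δ ⧸ ι.range → Δ := fun q => q.out
    have key : ∀ x : Δ, (rep x)⁻¹ * x ∈ ι.range := fun x =>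
      QuotientGroup.eq.1 (Quotient.out_eq (x : Δ ⧸ ι.range))
    refine ⟨(univ.image fun q => (rep q)⁻¹) ∪ univ.image rep, fun x => ⟨_, ?_, key x⟩,
      fun x => ⟨rep (x⁻¹ : Δ), ?_, ?_⟩⟩
    · simp
    · simp
    · simpa using inv_mem (key x⁻¹)
  let pre : Δ → Γ := Function.invFun ι
  have hpre : ∀ γ, pre (ι γ) = γ := Function.leftInverse_invFun hι
  refine ⟨{
    T := (Geom.T ×ˢ R).image (fun vr => ι vr.1 * vr.2) ∪
      (Geom.T ×ˢ R).image (fun vr => vr.2 * ι vr.1)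
    H := fun j => ι '' Geom.H j
    K := Geom.K
    cover_left := ?_
    median := ?_
    L := Geom.L × Δ × Δ
    Key := Geom.Key
    n := Geom.n
    labs := fun lo => Geom.labs lo ×ˢ R ×ˢ R
    piece := fun lo hi l g w => ∃ γ δ, g * l.2.1 = ι γ ∧ l.2.1⁻¹ * w * l.2.2 = ι δ ∧
      Geom.piece lo hi l.1 γ δ
    kf := fun lo hi l g => Geom.kf lo hi l.1 (pre (g * l.2.1))
    ky := fun lo hi l x => Geom.ky lo hi l.1 (pre (x * l.2.2))
    key_eq := ?_
    cover := ?_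
    good := fun lo hi l g w =>
      ι '' Geom.good lo hi l.1 (pre (g * l.2.1)) (pre (l.2.1⁻¹ * w * l.2.2))
    cover_right := ?_
    inj := ?_ }⟩
  · intro j g
    obtain ⟨r, hr, γ, hγ⟩ := hRl g
    obtain ⟨v, hv, hvH⟩ := Geom.cover_left j γ
    refine ⟨ι v * r, mem_union_left _ (mem_image.2 ⟨(v, r), mem_product.2 ⟨hv, hr⟩, rfl⟩),
      v * γ, hvH, ?_⟩
    rw [map_mul, hγ, mul_assoc]
  · intro x A hA
    rcases A.eq_empty_or_nonempty with rfl | ⟨a₀, ha₀⟩
    · simp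
    choose ξ _hξ hξe using hA a₀ ha₀
    have hα : ∀ a ∈ A, ∃ α, ι α = a₀⁻¹ * a ∧ ∀ j, α⁻¹ * ξ j ∈ Geom.H j := by
      intro a ha
      choose h hh he using hA a ha
      refine ⟨ξ 0 * (h 0)⁻¹, ?_, fun j => ?_⟩
      · rw [map_mul, map_inv, hξe 0, he 0]; group
      · have : (ξ 0 * (h 0)⁻¹)⁻¹ * ξ j = h j := hι (by
          rw [map_mul, map_inv, map_mul, map_inv, hξe 0, he 0, hξe j, he j]; group)
        rw [this]; exact hh j
    choose α hαe hαH using hα
    calc A.card = (A.attach.image fun a => α a.1 a.2).card := by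
          rw [card_image_of_injective _ fun a b hab => Subtype.ext (mul_left_cancel
            (a := a₀⁻¹) (by rw [← hαe a.1 a.2, ← hαe b.1 b.2]; exact congrArg ι hab)),
            card_attach]
      _ ≤ Geom.K := Geom.median ξ _ fun b hb j => by
          obtain ⟨a, _, rfl⟩ := mem_image.1 hb
          exact hαH a.1 a.2 j
  · rintro lo hi ⟨l, t, s⟩ g w ⟨γ, δ, hγ, hδ, hp⟩
    simp only at hγ hδ ⊢
    rw [show g * w * s = ι (γ * δ) by rw [map_mul, ← hγ, ← hδ]; group, hpre, hγ, hpre]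
    exact Geom.key_eq lo hi l γ δ hp
  · intro Rs hR g w
    obtain ⟨t, ht, γ, hγ⟩ := hRr g
    obtain ⟨s, hs, δ, hδ⟩ := hRr (t⁻¹ * w)
    obtain ⟨j, hj, l, hl, hp⟩ := Geom.cover Rs hR γ δ
    exact ⟨j, hj, (l, t, s), mem_product.2 ⟨hl, mem_product.2 ⟨ht, hs⟩⟩, γ, δ, hγ.symm,
      hδ.symm, hp⟩
  · intro lo hi l g w u
    obtain ⟨r, hr, ν, hν⟩ := hRr u
    obtain ⟨v, hv, hvg⟩ :=
      Geom.cover_right lo hi l.1 (pre (g * l.2.1)) (pre (l.2.1⁻¹ * w * l.2.2)) ν
    refine ⟨r * ι v, mem_union_right _ (mem_image.2 ⟨(v, r), mem_product.2 ⟨hv, hr⟩, rfl⟩),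
      ν * v, hvg, ?_⟩
    rw [map_mul, hν, mul_assoc]
  · intro U
    obtain ⟨h0, h⟩ := Geom.inj (U.preimage ι hι.injOn)
    refine ⟨h0, fun lo hi hh hlh ⟨l, t, s⟩ w g g' u u' hu hu' hp hp' hk hgu hgu' he => ?_⟩
    obtain ⟨γ, δ, hγ, hδ, hpp⟩ := hp
    obtain ⟨γ', δ', hγ', hδ', hpp'⟩ := hp'
    simp only at hγ hδ hγ' hδ' hk hgu hgu'
    obtain rfl : δ' = δ := hι (hδ'.symm.trans hδ)
    rw [hγ, hγ', hpre, hpre] at hk
    rw [hγ, hδ, hpre, hpre] at hgu
    rw [hγ', hδ, hpre, hpre] at hgu'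
    obtain ⟨ν, hν, rfl⟩ := hgu
    obtain ⟨ν', hν', rfl⟩ := hgu'
    have e : ν * γ = ν' * γ' := hι (by
      rw [map_mul, map_mul, ← hγ, ← hγ', ← mul_assoc, he, mul_assoc])
    have := h lo hi hh hlh l δ' γ γ' ν ν' (mem_preimage.2 hu) (mem_preimage.2 hu') hpp hpp' hk
      hν hν' e
    subst this
    exact mul_right_cancel (hγ.trans hγ'.symm)

end Vale.Agent.P165.Prod
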