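import Vale.Agent.P165.Prod.Sharp
import Vale.Agent.P165.Prod.Gamma
import Vale.Agent.P165.Main

/-!
Nonuniqueness just above the susceptibility threshold: a bounded two-point operator at a
parameter above the threshold excludes a unique infinite cluster, and the threshold is at least
`p_c` by sharpness.
-/

namespace Vale.Agent.P165.Prod

open MeasureTheory ProbabilityTheory Finset SimpleGraph Vale.Agent.P165
open scoped Classical ENNReal

set_option linter.unusedSectionVars false

section

variable {V : Type*} {G : SimpleGraph V} [G.LocallyFinite] [Countable V]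

/-- The indicator of escape is monotone. -/
private lemma monotone_escInd (B : Finset V) (o : V) :
    Monotone fun ω : Finset (Sym2 V) => if Esc B ω o then (1 : ℝ) else 0 := by
  intro a b hab
  dsimp only
  by_cases h : Esc B a o
  · rw [if_pos h, if_pos (esc_mono hab h)]
  · rw [if_neg h]; split_ifs <;> norm_num

/-- Positive association of two escape events. -/
lemma theta_mul_le (p : unitInterval) (B B' : Finset V) (x y : V) :
    theta G (p : ℝ) B x * theta G (p : ℝ) B' y
      ≤ (percMeasure G p).real (escEvent G B x ∩ escEvent G B' y) := by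
  set E := edgesAt G B ∪ edgesAt G B' with hE
  have hEs : (E : Set (Sym2 V)) ⊆ G.edgeSet := by
    rw [hE, Finset.coe_union]
    exact Set.union_subset (edgesAt_subset B) (edgesAt_subset B')
  have htr : ∀ (B0 : Finset V), edgesAt G B0 ⊆ E → ∀ ω : Set (Sym2 V),
      tr (edgesAt G B0) ω = tr E ω ∩ edgesAt G B0 := by
    intro B0 hB0 ω
    ext e
    simp only [mem_tr, Finset.mem_inter]
    exact ⟨fun h => ⟨⟨hB0 h.1, h.2⟩, h.1⟩, fun h => ⟨h.2, h.1.2⟩⟩
  have hset : escEvent G B x ∩ escEvent G B' y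
      = {ω | Esc B (tr E ω ∩ edgesAt G B) x ∧ Esc B' (tr E ω ∩ edgesAt G B') y} := by
    ext ω
    rw [escEvent_eq, escEvent_eq, Set.mem_inter_iff, Set.mem_setOf_eq, Set.mem_setOf_eq,
      Set.mem_setOf_eq, htr B subset_union_left, htr B' subset_union_right]
  rw [hset, real_tr p hEs (fun A => Esc B (A ∩ edgesAt G B) x ∧ Esc B' (A ∩ edgesAt G B') y),
    theta, theta, ← expect_subset (F := E) subset_union_left,
    ← expect_subset (F := E) subset_union_right]
  refine (Prod.expect_harris p.2.1 p.2.2 E _ _ ?_ ?_).trans (le_of_eq ?_)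
  · exact fun a b hab => monotone_escInd B x (inter_subset_inter_right hab)
  · exact fun a b hab => monotone_escInd B' y (inter_subset_inter_right hab)
  · refine expect_congr fun ω _ => ?_
    split_ifs <;> simp_all

/-- Positive association of two infinite clusters. -/
lemma infAt_mul_le (p : unitInterval) (x y : V) :
    (percMeasure G p).real (infAt G x) * (percMeasure G p).real (infAt G y)
      ≤ (percMeasure G p).real (infAt G x ∩ infAt G y) := by
  refine infAt_real_ge p y (infAt G x) (measurableSet_infAt x) _ fun B' _ => ?_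
  rw [Set.inter_comm]
  refine infAt_real_ge p x (escEvent G B' y) (measurableSet_escEvent B' y) _ fun B _ => ?_
  rw [Set.inter_comm (escEvent G B' y)]
  refine le_trans ?_ (theta_mul_le p B B' x y)
  rw [← real_escEvent, ← real_escEvent]
  exact mul_le_mul (infAt_le_esc p B x) (infAt_le_esc p B' y) measureReal_nonneg measureReal_nonneg

/-- A connection is realised in a finite set. -/
lemma connEvent_le_of_tauV (p : unitInterval) (x y : V) (c : ℝ)
    (h : ∀ W : Finset V, tauV G (p : ℝ) W x y ≤ c) :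
    (percMeasure G p).real (connEvent G x y) ≤ c := by
  obtain ⟨B, hmono, -, hcof⟩ := exists_exhaustion x
  set Ev : ℕ → Set (Set (Sym2 V)) := fun n =>
    {ω | (og (tr (edgesIn G (B n)) ω)).Reachable x y} with hEv
  have hsubset : ∀ n, (edgesIn G (B n) : Set (Sym2 V)) ⊆ G.edgeSet := by
    intro n e
    induction e using Sym2.ind with
    | h a b => intro h; exact ((mem_edgesIn G).1 h).1
  have hmonoE : Monotone Ev := by
    intro a b hab ω hω
    refine Reachable.mono (og_mono ?_) hω
    intro e he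
    rw [mem_tr] at he ⊢
    refine ⟨?_, he.2⟩
    induction e using Sym2.ind with
    | h u v =>
      obtain ⟨h1, h2, h3⟩ := (mem_edgesIn G).1 he.1
      exact (mem_edgesIn G).2 ⟨h1, hmono hab h2, hmono hab h3⟩
  have heq : connEvent G x y = ⋃ n, Ev n := by
    ext ω
    rw [Set.mem_iUnion]
    constructor
    · rintro ⟨r⟩
      obtain ⟨n, hn⟩ := hcof r.support.toFinset
      refine ⟨n, ⟨r.transfer _ fun e he => ?_⟩⟩
      have he' := r.edges_subset_edgeSet he
      rw [openGraph, edgeSet_fromEdgeSet] at he'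
      rw [og, edgeSet_fromEdgeSet]
      refine ⟨?_, he'.2⟩
      rw [Finset.mem_coe, mem_tr]
      refine ⟨?_, he'.1.1⟩
      induction e using Sym2.ind with
      | h u v =>
        exact (mem_edgesIn G).2 ⟨he'.1.2,
          hn (List.mem_toFinset.2 (r.fst_mem_support_of_mem_edges he)),
          hn (List.mem_toFinset.2 (r.snd_mem_support_of_mem_edges he))⟩
    · rintro ⟨n, hn⟩
      exact hn.mono (og_tr_le (hsubset n) ω)
  have ht := tendsto_measure_iUnion_atTop (μ := percMeasure G p) hmonoE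
  rw [← heq] at ht
  refine le_of_tendsto' ((ENNReal.tendsto_toReal (measure_ne_top _ _)).comp ht) fun n => ?_
  have := real_tr p (hsubset n) (fun A => (og A).Reachable x y)
  simp only [Function.comp_apply, ← measureReal_def]
  calc (percMeasure G p).real (Ev n) = tauV G (p : ℝ) (B n) x y := this
    _ ≤ c := h (B n)

end

section

variable {Γ : Type} [Group Γ] [Infinite Γ] (S : Finset Γ) [(mulCayley (S : Set Γ)).LocallyFinite]


/-- Left translation by `g`. -/
private def shiftIso (g : Γ) : (mulCayley (S : Set Γ)) ≃g (mulCayley (S : Set Γ)) where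
  toEquiv := Equiv.mulLeft g
  map_rel_iff' := by intro a b; simp

omit [Infinite Γ] in
private lemma cayley_connected (hgen : Subgroup.closure (S : Set Γ) = ⊤) : ((mulCayley (S : Set Γ))).Connected := by
  have h : ∀ g : Γ, ((mulCayley (S : Set Γ))).Reachable 1 g := by
    intro g
    have hg : g ∈ Subgroup.closure (S : Set Γ) := hgen ▸ Subgroup.mem_top g
    induction hg using Subgroup.closure_induction with
    | mem s hs =>
      by_cases hs1 : s = 1
      · rw [hs1]
      · exact (mulCayley_adj _ 1 s |>.2 ⟨Ne.symm hs1, Or.inl (by simpa using hs)⟩).reachable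
    | one => exact Reachable.refl _
    | mul a b _ _ iha ihb =>
      have h2 := ihb.map (shiftIso S a).toHom
      simp only [shiftIso] at h2
      change ((mulCayley (S : Set Γ))).Reachable (a * 1) (a * b) at h2
      rw [mul_one] at h2
      exact iha.trans h2
    | inv a _ iha =>
      have h2 := iha.map (shiftIso S a⁻¹).toHom
      change ((mulCayley (S : Set Γ))).Reachable (a⁻¹ * 1) (a⁻¹ * a) at h2
      rw [mul_one, inv_mul_cancel] at h2
      exact h2.symm
  exact ⟨fun x y => (h x).symm.trans (h y)⟩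

omit [Infinite Γ] in
private lemma cayley_quasi : QuasiTransitive (mulCayley (S : Set Γ)) :=
  ⟨{1}, fun v => ⟨shiftIso S v⁻¹, Finset.mem_singleton.2 (inv_mul_cancel v)⟩⟩

private lemma phi_shift (p : ℝ) (W : Finset Γ) (g : Γ) :
    phi (mulCayley (S : Set Γ)) p (W.image (g * ·)) g = phi (mulCayley (S : Set Γ)) p W 1 := by
  rw [phi_eq, phi_eq, sum_image (mul_right_injective g).injOn]
  congr 1
  refine sum_congr rfl fun y _ => ?_
  have h := tauV_translate S g W 1 y (p := p)
  rw [mul_one] at h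
  rw [h]
  congr 2
  refine (card_bij (fun z _ => g * z) ?_ ?_ ?_).symm
  · intro z hz
    simp only [Finset.mem_sdiff, mem_neighborFinset] at hz ⊢
    exact ⟨mulCayley_adj_mul_iff_right.2 hz.1,
      fun hm => hz.2 (by
        obtain ⟨w, hw, hwz⟩ := Finset.mem_image.1 hm
        rwa [mul_left_cancel hwz] at hw)⟩
  · exact fun a _ b _ h => mul_left_cancel h
  · intro z hz
    refine ⟨g⁻¹ * z, ?_, mul_inv_cancel_left _ _⟩
    simp only [Finset.mem_sdiff, mem_neighborFinset] at hz ⊢
    constructor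
    · rw [← mulCayley_adj_mul_iff_right (d := g), mul_inv_cancel_left]
      exact hz.1
    · exact fun hm => hz.2 (Finset.mem_image.2 ⟨_, hm, mul_inv_cancel_left _ _⟩)

/-- A finite set with small functional bounds the susceptibility. -/
private lemma chiLe_of_phi {p : ℝ} (hp0 : 0 ≤ p) (hp1 : p ≤ 1) {W : Finset Γ}
    (hW : (1 : Γ) ∈ W) (h : phi (mulCayley (S : Set Γ)) p W 1 < 1) : ∃ K, ChiLe (mulCayley (S : Set Γ)) p K := by
  refine ⟨(W.card : ℝ) / (1 - max (phi (mulCayley (S : Set Γ)) p W 1) 0), fun B x hx => ?_⟩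
  refine chi_finite_le (mulCayley (S : Set Γ)) hp0 hp1 (le_max_right _ _) (max_lt h one_pos) (fun o => ?_) B hx
  exact ⟨W.image (o * ·), Finset.mem_image.2 ⟨1, hW, mul_one o⟩, card_image_le,
    (phi_shift S p W o).le.trans (le_max_left _ _)⟩

variable (hS : ∀ s ∈ S, s⁻¹ ∈ S) (h1 : (1 : Γ) ∉ S) (hgen : Subgroup.closure (S : Set Γ) = ⊤)

include hgen in
private lemma unique_one : percMeasure (mulCayley (S : Set Γ)) 1 (uniqueCluster (mulCayley (S : Set Γ))) = 1 :=
  haveI : Countable Γ := countable_of_connected (cayley_connected S hgen)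
  unique_at_one (cayley_connected S hgen)

include hS h1 hgen

theorem pc_le_pchi : pc (mulCayley (S : Set Γ)) ≤ pchi (mulCayley (S : Set Γ)) := by
  haveI : Countable Γ := countable_of_connected (cayley_connected S hgen)
  have hnn : 0 ≤ pchi (mulCayley (S : Set Γ)) := (pchi_pos S hS h1 hgen).le
  have hone : pc (mulCayley (S : Set Γ)) ≤ 1 := by
    refine csInf_le ⟨0, fun x ⟨hx, _⟩ => hx.1⟩ ⟨⟨zero_le_one, le_rfl⟩, ?_⟩
    have h : percMeasure (mulCayley (S : Set Γ)) 1 (uniqueCluster (mulCayley (S : Set Γ))) = 1 := unique_one S hgen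
    refine lt_of_lt_of_le (show (0 : ℝ≥0∞) < 1 from one_pos) (h ▸ measure_mono ?_)
    rintro ω ⟨C, hC, -⟩
    exact ⟨C, hC⟩
  by_contra hlt
  rw [not_le] at hlt
  set a := (2 * pchi (mulCayley (S : Set Γ)) + pc (mulCayley (S : Set Γ))) / 3 with ha
  set b := (pchi (mulCayley (S : Set Γ)) + 2 * pc (mulCayley (S : Set Γ))) / 3 with hb
  have hb1 : b < 1 := by rw [hb]; linarith
  have hab : a < b := by rw [ha, hb]; linarith
  have ha0 : 0 ≤ a := by rw [ha]; linarith
  have hphi : ∀ p ∈ Set.Icc a b, ∀ W : Finset Γ, (1 : Γ) ∈ W → 1 ≤ phi (mulCayley (S : Set Γ)) p W 1 := by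
    intro p hp W hW
    by_contra hlt'
    have hp0 : 0 ≤ p := ha0.trans hp.1
    have hp1 : p ≤ 1 := hp.2.trans hb1.le
    have : p ≤ pchi (mulCayley (S : Set Γ)) :=
      le_csSup ⟨1, fun x hx => hx.1.2⟩ ⟨⟨hp0, hp1⟩, chiLe_of_phi S hp0 hp1 hW (not_le.1 hlt')⟩
    have := hp.1
    rw [ha] at this
    linarith
  have hb0 : 0 ≤ b := ha0.trans hab.le
  set c0 := 1 - Real.exp (-(1 * (b - a))) with hc0
  have hc0pos : 0 < c0 := by
    have : Real.exp (-(1 * (b - a))) < 1 := Real.exp_lt_one_iff.2 (by linarith)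
    linarith
  have hinf : c0 ≤ (percMeasure (mulCayley (S : Set Γ)) ⟨b, hb0, hb1.le⟩).real (infAt (mulCayley (S : Set Γ)) 1) := by
    have := infAt_real_ge (G := (mulCayley (S : Set Γ))) ⟨b, hb0, hb1.le⟩ 1 Set.univ MeasurableSet.univ c0
      fun B hB => by
        rw [Set.univ_inter, real_escEvent]
        exact theta_lower_phi (mulCayley (S : Set Γ)) ha0 hab.le hb1 B hB fun p hp W _ hW => hphi p hp W hW
    rwa [Set.univ_inter] at this
  have hle : pc (mulCayley (S : Set Γ)) ≤ b := by
    refine csInf_le ⟨0, fun x ⟨hx, _⟩ => hx.1⟩ ⟨⟨hb0, hb1.le⟩, ?_⟩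
    have h1 : 0 < percMeasure (mulCayley (S : Set Γ)) ⟨b, hb0, hb1.le⟩ (infAt (mulCayley (S : Set Γ)) 1) :=
      (ENNReal.toReal_pos_iff.1 (lt_of_lt_of_le hc0pos hinf)).1
    exact lt_of_lt_of_le h1 (measure_mono fun ω hω => ⟨_, hω⟩)
  rw [hb] at hle
  linarith

/-- A bounded two-point operator forces a square summable two-point function. -/
private lemma sum_sq_tau1_le {q N : ℝ} (hq0 : 0 ≤ q) (hq1 : q ≤ 1) (hN : 0 ≤ N)
    (h : OpLe (mulCayley (S : Set Γ)) q N) (F : Finset Γ) : ∑ g ∈ F, tau1 S q g ^ 2 ≤ N ^ 2 := by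
  have hfin : ∀ W : Finset Γ, (1 : Γ) ∈ W → ∑ g ∈ W, tauV (mulCayley (S : Set Γ)) q W 1 g ^ 2 ≤ N ^ 2 := by
    intro W hW
    have hh := h W (fun x => if x = 1 then 1 else 0) (fun y => tauV (mulCayley (S : Set Γ)) q W 1 y)
      (fun x => by split_ifs <;> norm_num) (fun y => tauV_nonneg (mulCayley (S : Set Γ)) hq0 hq1 W 1 y)
    have hf : ∑ x ∈ W, (if x = (1 : Γ) then (1 : ℝ) else 0) ^ 2 = 1 := by
      rw [sum_eq_single (1 : Γ) (fun x _ hx => by simp [hx]) (fun h => absurd hW h)]
      simp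
    have hl : ∑ x ∈ W, ∑ y ∈ W, (if x = (1 : Γ) then (1 : ℝ) else 0) * tauV (mulCayley (S : Set Γ)) q W x y
        * tauV (mulCayley (S : Set Γ)) q W 1 y = ∑ y ∈ W, tauV (mulCayley (S : Set Γ)) q W 1 y ^ 2 := by
      rw [sum_eq_single (1 : Γ) (fun x _ hx => by simp [hx]) (fun h => absurd hW h)]
      simp [sq]
    rw [hl, hf, Real.sqrt_one, mul_one] at hh
    set s := ∑ y ∈ W, tauV (mulCayley (S : Set Γ)) q W 1 y ^ 2 with hs
    have hs0 : 0 ≤ s := sum_nonneg fun y _ => sq_nonneg _
    have h2 := Real.mul_self_sqrt hs0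
    have h3 : Real.sqrt s ≤ N := by
      by_contra hne
      rw [not_le] at hne
      nlinarith [Real.sqrt_nonneg s]
    calc s = Real.sqrt s * Real.sqrt s := h2.symm
      _ ≤ N * N := mul_le_mul h3 h3 (Real.sqrt_nonneg s) hN
      _ = N ^ 2 := (sq N).symm
  refine le_of_forall_pos_le_add fun ε hε => ?_
  have hpick : ∀ g : Γ, ∃ W : Finset Γ,
      tau1 S q g - ε / (2 * ((F.card : ℝ) + 1)) < tauV (mulCayley (S : Set Γ)) q W 1 g := by
    intro g
    exact exists_lt_of_lt_ciSup (show _ < ⨆ W : Finset Γ, tauV (mulCayley (S : Set Γ)) q W 1 g from by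
      show _ < tau1 S q g
      have : 0 < ε / (2 * ((F.card : ℝ) + 1)) := by positivity
      linarith)
  choose Wg hWg using hpick
  set W := insert (1 : Γ) (F ∪ F.biUnion Wg) with hW
  have hterm : ∀ g ∈ F, tau1 S q g ^ 2 ≤ tauV (mulCayley (S : Set Γ)) q W 1 g ^ 2 + ε / ((F.card : ℝ) + 1) := by
    intro g hg
    have h2 := tauV_mono_set (mulCayley (S : Set Γ)) hq0 hq1 (show Wg g ⊆ W from fun z hz =>
      mem_insert_of_mem (mem_union_right _ (mem_biUnion.2 ⟨g, hg, hz⟩))) 1 g
    have h3 := hWg g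
    have h4 := tau1_le_one S hq0 hq1 g
    have h5 := tau1_nonneg S hq0 hq1 g
    have h6 := tauV_nonneg (mulCayley (S : Set Γ)) hq0 hq1 W 1 g
    have h7 := tauV_le_one (mulCayley (S : Set Γ)) hq0 hq1 W 1 g
    have h8 : ε / ((F.card : ℝ) + 1) = 2 * (ε / (2 * ((F.card : ℝ) + 1))) := by field_simp
    have h9 : 0 ≤ ε / (2 * ((F.card : ℝ) + 1)) := by positivity
    rw [h8]
    nlinarith
  refine (sum_le_sum hterm).trans ?_
  rw [sum_add_distrib, sum_const, nsmul_eq_mul]
  refine add_le_add ?_ ?_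
  · refine le_trans ?_ (hfin W (mem_insert_self _ _))
    exact sum_le_sum_of_subset_of_nonneg
      (fun g hg => mem_insert_of_mem (mem_union_left _ hg)) fun g _ _ => sq_nonneg _
  · rw [← mul_div_assoc, div_le_iff₀ (by positivity)]
    nlinarith

/-- A lower bound on all two-point functions contradicts square summability. -/
private lemma op_tau_absurd {q N t : ℝ} (hq0 : 0 ≤ q) (hq1 : q ≤ 1) (hN : 0 ≤ N) (ht : 0 < t)
    (h : OpLe (mulCayley (S : Set Γ)) q N) (hlow : ∀ g : Γ, t ≤ tau1 S q g) : False := by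
  obtain ⟨n, hn⟩ := exists_nat_gt (N ^ 2 / t ^ 2)
  obtain ⟨F, hF⟩ := Infinite.exists_subset_card_eq Γ n
  have h2 := sum_sq_tau1_le S hS h1 hgen hq0 hq1 hN h F
  have h3 : (n : ℝ) * t ^ 2 ≤ ∑ g ∈ F, tau1 S q g ^ 2 := by
    rw [← hF, ← nsmul_eq_mul, ← sum_const]
    exact sum_le_sum fun g _ => pow_le_pow_left₀ ht.le (hlow g) 2
  rw [div_lt_iff₀ (by positivity)] at hn
  linarith

private lemma tau1_one (g : Γ) : 1 ≤ tau1 S (1 : ℝ) g := by
  obtain ⟨W, hW⟩ := exists_lt_of_lt_ciSup
    (show (0 : ℝ) < ⨆ W : Finset Γ, tauV (mulCayley (S : Set Γ)) 1 W 1 g from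
      tau1_pos S hS h1 hgen one_pos le_rfl g)
  have hev : tauV (mulCayley (S : Set Γ)) 1 W 1 g =
      if (og (edgesIn (mulCayley (S : Set Γ)) W)).Reachable 1 g then (1 : ℝ) else 0 := by
    rw [tauV]
    unfold expect
    rw [sum_eq_single (edgesIn (mulCayley (S : Set Γ)) W) (fun A hA hne => ?_)
      (fun h => absurd (Finset.mem_powerset.2 subset_rfl) h)]
    · simp
    · have : A.card < (edgesIn (mulCayley (S : Set Γ)) W).card :=
        card_lt_card (Finset.ssubset_iff_subset_ne.2 ⟨Finset.mem_powerset.1 hA, hne⟩)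
      rw [sub_self, zero_pow (by omega)]
      ring
  have hW1 : tauV (mulCayley (S : Set Γ)) 1 W 1 g = 1 := by
    rw [hev] at hW ⊢
    split_ifs at hW ⊢ with hc
    · rfl
    · exact absurd hW (lt_irrefl _)
  have := tauV_le_tau1 S zero_le_one le_rfl W 1 g
  rw [hW1, inv_one, one_mul] at this
  exact this

/-- Below a parameter with bounded operator there is no unique infinite cluster. -/
private lemma not_unique_of_op {q N : ℝ} (hN : 0 ≤ N) (hq : q ≤ 1) (h : OpLe (mulCayley (S : Set Γ)) q N)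
    (p : unitInterval) (hpq : (p : ℝ) ≤ q) : percMeasure (mulCayley (S : Set Γ)) p (uniqueCluster (mulCayley (S : Set Γ))) ≠ 1 := by
  haveI : Countable Γ := countable_of_connected (cayley_connected S hgen)
  intro hU
  have hex : ∃ o, 0 < (percMeasure (mulCayley (S : Set Γ)) p).real (infAt (mulCayley (S : Set Γ)) o) := by
    by_contra hno
    simp only [not_exists, not_lt] at hno
    have h0 : percMeasure (mulCayley (S : Set Γ)) p (⋃ o, infAt (mulCayley (S : Set Γ)) o) = 0 := by
      refine measure_iUnion_null fun o => ?_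
      have := le_antisymm (hno o) measureReal_nonneg
      rwa [measureReal_def, ENNReal.toReal_eq_zero_iff, or_iff_left (measure_ne_top _ _)] at this
    have h2 : percMeasure (mulCayley (S : Set Γ)) p (uniqueCluster (mulCayley (S : Set Γ))) = 0 :=
      measure_mono_null uniqueCluster_subset h0
    rw [hU] at h2
    exact one_ne_zero h2
  obtain ⟨o, ho⟩ := hex
  have hall : ∀ v, (percMeasure (mulCayley (S : Set Γ)) p).real (infAt (mulCayley (S : Set Γ)) v) = (percMeasure (mulCayley (S : Set Γ)) p).real (infAt (mulCayley (S : Set Γ)) 1) := by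
    intro v
    have := infAt_invariant p (shiftIso S v) (1 : Γ)
    rwa [show shiftIso S v (1 : Γ) = v from mul_one v] at this
  rw [hall o] at ho
  refine op_tau_absurd S hS h1 hgen (p.2.1.trans hpq) hq hN (pow_pos ho 2) h fun g => ?_
  calc (percMeasure (mulCayley (S : Set Γ)) p).real (infAt (mulCayley (S : Set Γ)) 1) ^ 2
      = (percMeasure (mulCayley (S : Set Γ)) p).real (infAt (mulCayley (S : Set Γ)) 1) * (percMeasure (mulCayley (S : Set Γ)) p).real (infAt (mulCayley (S : Set Γ)) g) := by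
        rw [hall g, sq]
    _ ≤ (percMeasure (mulCayley (S : Set Γ)) p).real (infAt (mulCayley (S : Set Γ)) 1 ∩ infAt (mulCayley (S : Set Γ)) g) := infAt_mul_le p 1 g
    _ ≤ (percMeasure (mulCayley (S : Set Γ)) p).real (connEvent (mulCayley (S : Set Γ)) 1 g) := pair_le_conn p hU 1 g
    _ ≤ tau1 S (p : ℝ) g := connEvent_le_of_tauV p 1 g _ fun W => by
        have := tauV_le_tau1 S p.2.1 p.2.2 W 1 g
        rwa [inv_one, one_mul] at this
    _ ≤ _ := tau1_mono S p.2.1 hpq hq g

/-- **Nonuniqueness from the geometric data.** -/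
theorem pc_lt_pu_of_geo (Geom : Geo Γ) : pc (mulCayley (S : Set Γ)) < pu (mulCayley (S : Set Γ)) := by
  obtain ⟨a, C, ha0, hac, hgam⟩ := gamma_one S hS h1 hgen Geom
  set D : ℝ := (S.card : ℝ) with hD
  have hD0 : 0 ≤ D := Nat.cast_nonneg _
  set η : ℝ := 1 / (4 * (D + 1) * (|C| + 1)) with hη
  have hη0 : 0 < η := by positivity
  obtain ⟨b, hb0, hbc, hop⟩ := op_small S hS h1 hgen Geom hη0
  set p := max a b with hp
  have hpc : p < pchi (mulCayley (S : Set Γ)) := max_lt hac hbc
  have hp0 : 0 < p := lt_max_of_lt_left ha0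
  have hc1 := pchi_le_one S hS h1 hgen
  obtain ⟨K, hK⟩ := chiLe_of_lt S hS h1 hgen hp0.le hpc
  have hX1 : 1 ≤ chi S p := one_le_chi S hp0.le (hpc.le.trans hc1) hK
  have hN : 0 ≤ η * chi S p := mul_nonneg hη0.le (zero_le_one.trans hX1)
  set q := min 1 (2 * pchi (mulCayley (S : Set Γ)) - p) with hq
  have hpq : p ≤ q := le_min (hpc.le.trans hc1) (by linarith)
  have hq1 : q ≤ 1 := min_le_left _ _
  have hs : (q - p) * D * (η * chi S p) < 1 := by
    have h2 : (q - p) * chi S p ≤ 2 * |C| := by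
      calc (q - p) * chi S p ≤ 2 * (pchi (mulCayley (S : Set Γ)) - p) * chi S p := by
            refine mul_le_mul_of_nonneg_right ?_ (zero_le_one.trans hX1)
            linarith [min_le_right 1 (2 * pchi (mulCayley (S : Set Γ)) - p)]
        _ = 2 * (chi S p * (pchi (mulCayley (S : Set Γ)) - p)) := by ring
        _ ≤ 2 * C := by linarith [hgam p (le_max_left _ _) hpc]
        _ ≤ 2 * |C| := by linarith [le_abs_self C]
    calc (q - p) * D * (η * chi S p) = D * η * ((q - p) * chi S p) := by ring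
      _ ≤ D * η * (2 * |C|) := mul_le_mul_of_nonneg_left h2 (mul_nonneg hD0 hη0.le)
      _ = 2 * D * |C| / (4 * (D + 1) * (|C| + 1)) := by rw [hη]; field_simp
      _ < 1 := by
          rw [div_lt_one (by positivity)]
          nlinarith [abs_nonneg C]
  have hOp := sprinkle_op S hS h1 hgen hp0.le hpq hq1 hN (hop p (le_max_right _ _) hpc) hs
  set N := η * chi S p / (1 - (q - p) * D * (η * chi S p)) with hNdef
  have hN' : 0 ≤ N := div_nonneg hN (by linarith)
  have hq0 : 0 ≤ q := hp0.le.trans hpq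
  have hqlt : pchi (mulCayley (S : Set Γ)) < q := by
    rcases le_total 1 (2 * pchi (mulCayley (S : Set Γ)) - p) with h | h
    · exfalso
      have hqe : q = 1 := min_eq_left h
      rw [hqe] at hOp
      exact op_tau_absurd S hS h1 hgen zero_le_one le_rfl hN' one_pos hOp
        (tau1_one S hS h1 hgen)
    · rw [hq, min_eq_right h]
      linarith
  refine lt_of_le_of_lt (pc_le_pchi S hS h1 hgen) (lt_of_lt_of_le hqlt ?_)
  refine le_csInf ⟨1, ⟨zero_le_one, le_rfl⟩, unique_one S hgen⟩ ?_
  rintro r ⟨hr, hU⟩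
  by_contra hlt
  exact not_unique_of_op S hS h1 hgen hN' hq1 hOp ⟨r, hr⟩ (not_le.1 hlt).le hU

end

end Vale.Agent.P165.Prod
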