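import Vale.Agent.P165.Prod.Defs

/-!
If `o` is connected to `x` and to `y`, either it is connected to them by edge-disjoint walks, or
some open edge `(u,f)` separates `o` from `f`, and `f` has such walks beyond it.
-/

namespace Vale.Agent.P165.Prod

open Finset SimpleGraph
open scoped Classical

variable {V : Type*}

/-- Two edge-disjoint connections, from `f` to `x` and from `f` to `y`. -/
def Fork (H : SimpleGraph V) (f x y : V) : Prop :=
  ∃ a : H.Walk f x, ∃ b : H.Walk f y, ∀ e ∈ a.edges, e ∉ b.edges

lemma Fork.symm {H : SimpleGraph V} {f x y : V} (h : Fork H f x y) : Fork H f y x := by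
  obtain ⟨a, b, hab⟩ := h
  exact ⟨b, a, fun e he he' => hab e he' he⟩

lemma Fork.mono {H H' : SimpleGraph V} (hle : H ≤ H') {f x y : V} (h : Fork H f x y) :
    Fork H' f x y := by
  obtain ⟨a, b, hab⟩ := h
  exact ⟨a.mapLe hle, b.mapLe hle, by simpa using hab⟩

lemma Fork.reachable {H : SimpleGraph V} {f x y : V} (h : Fork H f x y) :
    H.Reachable f x ∧ H.Reachable f y := by
  obtain ⟨a, b, _⟩ := h
  exact ⟨⟨a⟩, ⟨b⟩⟩

lemma fork_exists_paths {H : SimpleGraph V} {f x y : V} (h : Fork H f x y) :
    ∃ a : H.Walk f x, ∃ b : H.Walk f y, a.IsPath ∧ b.IsPath ∧ ∀ e ∈ a.edges, e ∉ b.edges := by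
  obtain ⟨a, b, hab⟩ := h
  exact ⟨a.bypass, b.bypass, a.bypass_isPath, b.bypass_isPath, fun e he he' =>
    hab e (Walk.edges_bypass_subset_edges _ he) (Walk.edges_bypass_subset_edges _ he')⟩

lemma fork_deleteEdge {H : SimpleGraph V} {f x y : V} {e : Sym2 V} (a : H.Walk f x)
    (b : H.Walk f y) (ha : e ∉ a.edges) (hb : e ∉ b.edges)
    (hab : ∀ e ∈ a.edges, e ∉ b.edges) : Fork (H.deleteEdges {e}) f x y := by
  refine ⟨a.toDeleteEdge e ha, b.toDeleteEdge e hb, ?_⟩
  simpa [Walk.toDeleteEdge, Walk.toDeleteEdges] using hab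

/-- The edge entering a fork vertex from the first vertex is used by the first walk. -/
lemma fork_of_mem_edges {H : SimpleGraph V} {u f x y : V} (hadj : H.Adj u f) (a : H.Walk f x)
    (b : H.Walk f y) (ha : a.IsPath) (hmem : s(u, f) ∈ a.edges)
    (hab : ∀ e ∈ a.edges, e ∉ b.edges) : Fork H u x y := by
  cases a with
  | nil => simp at hmem
  | @cons _ c _ hfc a' =>
    rw [Walk.cons_isPath_iff] at ha
    rw [Walk.edges_cons, List.mem_cons] at hmem
    rcases hmem with h | h
    · rw [Sym2.eq_iff] at h
      rcases h with ⟨h1, _⟩ | ⟨h1, _⟩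
      · exact absurd h1 hadj.ne
      · subst h1
        refine ⟨a', Walk.cons hadj b, fun e he he' => ?_⟩
        rw [Walk.edges_cons, List.mem_cons] at he'
        rcases he' with rfl | he'
        · exact ha.2 (a'.snd_mem_support_of_mem_edges he)
        · exact hab e (by simp [he]) he'
    · exact absurd (a'.snd_mem_support_of_mem_edges h) ha.2

/-- The neighbour `u` of a fork vertex `f` is a fork vertex, or the edge `uf` is a bridge avoided
by a fork at `f`. -/
lemma fork_neighbour {H : SimpleGraph V} {u f x y : V} (hadj : H.Adj u f) (h : Fork H f x y) :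
    Fork H u x y ∨ (¬ (H.deleteEdges {s(u, f)}).Reachable u f ∧
      Fork (H.deleteEdges {s(u, f)}) f x y) := by
  obtain ⟨a, b, ha, hb, hab⟩ := fork_exists_paths h
  by_cases hea : s(u, f) ∈ a.edges
  · exact Or.inl (fork_of_mem_edges hadj a b ha hea hab)
  by_cases heb : s(u, f) ∈ b.edges
  · exact Or.inl (fork_of_mem_edges hadj b a hb heb (fun e he he' => hab e he' he)).symm
  by_cases hr : (H.deleteEdges {s(u, f)}).Reachable u f
  swap
  · exact Or.inr ⟨hr, fork_deleteEdge a b hea heb hab⟩
  left
  obtain ⟨r⟩ := hr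
  obtain ⟨w, hw, q, hq⟩ := walk_first_hit (a.support ++ b.support) r
    (List.mem_append_left _ a.start_mem_support)
  have hle : H.deleteEdges {s(u, f)} ≤ H := deleteEdges_le _
  have hqe : ∀ e ∈ (q.mapLe hle).edges, e ≠ s(u, f) ∧ e ∉ a.edges ∧ e ∉ b.edges := by
    intro e he
    rw [Walk.edges_mapLe_eq_edges] at he
    refine ⟨fun h => ?_, ?_, ?_⟩
    · have := q.edges_subset_edgeSet he
      rw [edgeSet_deleteEdges] at this
      exact this.2 h
    all_goals
      intro he'
      obtain ⟨v, hv, hvn⟩ := hq e he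
      apply hvn
      rw [List.mem_append]
    · exact Or.inl (Walk.mem_support_of_mem_edges he' hv)
    · exact Or.inr (Walk.mem_support_of_mem_edges he' hv)
  rw [List.mem_append] at hw
  rcases hw with hw | hw
  · refine ⟨(q.mapLe hle).append (a.dropUntil w hw), Walk.cons hadj b, fun e he he' => ?_⟩
    rw [Walk.edges_cons, List.mem_cons] at he'
    rw [Walk.edges_append, List.mem_append] at he
    rcases he with he | he
    · rcases he' with he' | he'
      · exact (hqe e he).1 he'
      · exact (hqe e he).2.2 he'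
    · have he2 := a.edges_dropUntil_subset_edges hw he
      rcases he' with rfl | he'
      · exact hea he2
      · exact hab e he2 he'
  · refine ⟨Walk.cons hadj a, (q.mapLe hle).append (b.dropUntil w hw), fun e he he' => ?_⟩
    rw [Walk.edges_cons, List.mem_cons] at he
    rw [Walk.edges_append, List.mem_append] at he'
    rcases he' with he' | he'
    · rcases he with he | he
      · exact (hqe e he').1 he
      · exact (hqe e he').2.1 he
    · have he2 := b.edges_dropUntil_subset_edges hw he'
      rcases he with rfl | he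
      · exact heb he2
      · exact hab e he he2

/-- The conclusion of `fork_or_bridge`. -/
def ForkOrBridge (H : SimpleGraph V) (o x y : V) : Prop :=
  Fork H o x y ∨ ∃ u f, H.Adj u f ∧ (H.deleteEdges {s(u, f)}).Reachable o u ∧
    ¬ (H.deleteEdges {s(u, f)}).Reachable o f ∧ Fork (H.deleteEdges {s(u, f)}) f x y

lemma forkOrBridge_of_walk {H : SimpleGraph V} {o z x y : V} (p : H.Walk o z)
    (hz : Fork H z x y) : ForkOrBridge H o x y := by
  induction p with
  | nil => exact Or.inl hz
  | @cons o a z hoa q ih =>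
    rcases ih hz with ha | ⟨u, f, huf, hru, hnf, hf⟩
    · rcases fork_neighbour hoa ha with h | ⟨h1, h2⟩
      · exact Or.inl h
      · exact Or.inr ⟨o, a, hoa, Reachable.refl _, h1, h2⟩
    · by_cases he : s(o, a) = s(u, f)
      · rw [Sym2.eq_iff] at he
        rcases he with ⟨rfl, rfl⟩ | ⟨rfl, rfl⟩
        · exact absurd (Reachable.refl _) hnf
        · exact Or.inl (hf.mono (deleteEdges_le _))
      · have hoa' : (H.deleteEdges {s(u, f)}).Adj o a := by
          rw [deleteEdges_adj]
          exact ⟨hoa, he⟩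
        exact Or.inr ⟨u, f, huf, hoa'.reachable.trans hru,
          fun h => hnf (hoa'.symm.reachable.trans h), hf⟩

lemma fork_or_bridge {H : SimpleGraph V} {o x y : V} (hx : H.Reachable o x)
    (hy : H.Reachable o y) : ForkOrBridge H o x y := by
  obtain ⟨p⟩ := hx
  obtain ⟨r⟩ := hy
  exact forkOrBridge_of_walk p ⟨Walk.nil, p.reverse.append r, by simp⟩

end Vale.Agent.P165.Prod
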