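import Vale.Agent.P165.Prod.Basic
import Vale.Agent.P165.Prod.SecondFork

/-!
The second moment of the cluster size is bounded by the susceptibility and its derivative.
-/

namespace Vale.Agent.P165.Prod

open Finset SimpleGraph
open scoped Classical

set_option linter.unusedSectionVars false

variable {V : Type*} (G : SimpleGraph V) [G.LocallyFinite]

private lemma og_erase (ω : Finset (Sym2 V)) (e : Sym2 V) :
    og (ω.erase e) = (og ω).deleteEdges {e} := by
  ext a b
  simp only [og_adj, mem_erase, deleteEdges_adj, Set.mem_singleton_iff]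
  tauto

private lemma fork_disj {ω : Finset (Sym2 V)} {f x y : V} (h : Fork (og ω) f x y) :
    Disj (fun a => (og a).Reachable f x) (fun a => (og a).Reachable f y) ω := by
  obtain ⟨a, b, hab⟩ := h
  have hsub : ∀ {z : V} (w : (og ω).Walk f z), w.edges.toFinset ⊆ ω := fun w e he =>
    og_edgeSet (w.edges_subset_edgeSet (List.mem_toFinset.1 he))
  have hreach : ∀ {z : V} (w : (og ω).Walk f z), (og w.edges.toFinset).Reachable f z := by
    intro z w
    refine ⟨w.transfer _ fun e he => ?_⟩
    rw [og, edgeSet_fromEdgeSet]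
    exact ⟨by simpa using he, (og ω).not_isDiag_of_mem_edgeSet (w.edges_subset_edgeSet he)⟩
  refine ⟨_, _, hsub a, hsub b, ?_, hreach a, hreach b⟩
  rw [Finset.disjoint_left]
  exact fun e he he' => hab e (List.mem_toFinset.1 he) (List.mem_toFinset.1 he')

private lemma reach_monotone (x y : V) :
    Monotone fun a : Finset (Sym2 V) => (og a).Reachable x y :=
  fun _ _ h hr => hr.mono (og_mono h)

/-- BK for a fork. -/
private lemma expect_fork_le {p : ℝ} (hp0 : 0 ≤ p) (hp1 : p ≤ 1) (E : Finset (Sym2 V))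
    (f x y : V) :
    expect p E (fun ω => if Fork (og ω) f x y then 1 else 0)
      ≤ expect p E (fun ω => if (og ω).Reachable f x then 1 else 0)
        * expect p E (fun ω => if (og ω).Reachable f y then 1 else 0) := by
  refine le_trans ?_ (expect_bk hp0 hp1 E _ _ (reach_monotone f x) (reach_monotone f y))
  refine expect_mono hp0 hp1 fun ω _ => ?_
  by_cases h : Fork (og ω) f x y
  · rw [if_pos h, if_pos (fork_disj h)]
  · rw [if_neg h]; split_ifs <;> norm_num

private lemma expect_le_superset {p : ℝ} (hp0 : 0 ≤ p) (hp1 : p ≤ 1) {E F : Finset (Sym2 V)}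
    (h : E ⊆ F) (x y : V) :
    expect p E (fun ω => if (og ω).Reachable x y then 1 else 0)
      ≤ expect p F (fun ω => if (og ω).Reachable x y then 1 else 0) := by
  rw [show F = E ∪ (F \ E) from (union_sdiff_of_subset h).symm, expect_union disjoint_sdiff]
  refine expect_mono hp0 hp1 fun a _ => ?_
  refine le_trans (le_of_eq (expect_const p (F \ E) _).symm) (expect_mono hp0 hp1 fun b _ => ?_)
  by_cases hr : (og a).Reachable x y
  · rw [if_pos hr, if_pos (hr.mono (og_mono subset_union_left))]
  · rw [if_neg hr]; split_ifs <;> norm_num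

/-- The edges of `E` touching `C`. -/
private noncomputable def touch (E : Finset (Sym2 V)) (C : Finset V) : Finset (Sym2 V) :=
  E.filter fun d => ∃ v ∈ d, v ∈ C

/-- An open walk either stays in the cluster or avoids it. -/
private lemma reach_rest {E a b : Finset (Sym2 V)} {C : Finset V}
    (ha : a ⊆ touch E C) {o : V}
    (hC : ∀ z, z ∈ C ↔ (og (a ∪ b)).Reachable o z) {f z : V} (hf : f ∉ C)
    (w : (og (a ∪ b)).Walk f z) : ∀ e ∈ w.edges, e ∈ (og b).edgeSet := by
  intro e he
  have h1 : e ∈ (og (a ∪ b)).edgeSet := w.edges_subset_edgeSet he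
  have h2 := og_edgeSet h1
  rw [mem_union] at h2
  rcases h2 with h2 | h2
  · obtain ⟨v, hv, hvC⟩ := (mem_filter.1 (ha h2)).2
    have hvs : v ∈ w.support := w.mem_support_of_mem_edges he hv
    exact absurd (((hC v).1 hvC).trans ⟨(w.takeUntil v hvs).reverse⟩) (fun h => hf ((hC f).2 h))
  · rw [og, edgeSet_fromEdgeSet]
    exact ⟨by exact_mod_cast h2, (og (a ∪ b)).not_isDiag_of_mem_edgeSet h1⟩

private lemma fork_rest {E a b : Finset (Sym2 V)} {C : Finset V}
    (ha : a ⊆ touch E C) {o : V}
    (hC : ∀ z, z ∈ C ↔ (og (a ∪ b)).Reachable o z) {f x y : V} (hf : f ∉ C)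
    (h : Fork (og (a ∪ b)) f x y) : Fork (og b) f x y := by
  obtain ⟨u, v, huv⟩ := h
  refine ⟨u.transfer _ (reach_rest ha hC hf u), v.transfer _ (reach_rest ha hC hf v),
    ?_⟩
  simpa [Walk.edges_transfer] using huv

/-- Whether `C` is the cluster of `o` depends only on the edges touching `C`. -/
private lemma cluster_union_iff {E a b : Finset (Sym2 V)} {C : Finset V}
    (hb : b ⊆ E \ touch E C) {o : V} (ho : o ∈ C) :
    (∀ z, z ∈ C ↔ (og (a ∪ b)).Reachable o z) ↔ (∀ z, z ∈ C ↔ (og a).Reachable o z) := by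
  have hnb : ∀ {v w : V}, v ∈ C → s(v, w) ∉ b := fun {v w} hv hm =>
    (mem_sdiff.1 (hb hm)).2 (mem_filter.2 ⟨(mem_sdiff.1 (hb hm)).1, v, Sym2.mem_mk_left v w, hv⟩)
  constructor
  · intro h z
    refine ⟨fun hz => ?_, fun hz => (h z).2 (hz.mono (og_mono subset_union_left))⟩
    obtain ⟨w⟩ := (h z).1 hz
    refine ⟨w.transfer _ fun e he => ?_⟩
    have h1 : e ∈ (og (a ∪ b)).edgeSet := w.edges_subset_edgeSet he
    rw [og, edgeSet_fromEdgeSet]
    refine ⟨?_, (og (a ∪ b)).not_isDiag_of_mem_edgeSet h1⟩
    rcases mem_union.1 (og_edgeSet h1) with h2 | h2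
    · exact_mod_cast h2
    · induction e using Sym2.ind with
      | h v u =>
        exact absurd h2 (hnb ((h v).2 ⟨w.takeUntil v (w.fst_mem_support_of_mem_edges he)⟩))
  · intro h z
    refine ⟨fun hz => ((h z).1 hz).mono (og_mono subset_union_left), fun hz => ?_⟩
    obtain ⟨w⟩ := hz
    have : ∀ {v z : V}, (og (a ∪ b)).Walk v z → v ∈ C → z ∈ C := by
      intro v z w
      induction w with
      | nil => exact id
      | @cons v u z hvu q ih =>
        intro hv
        apply ih
        obtain ⟨h2, hne⟩ := og_adj.1 hvu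
        rcases mem_union.1 h2 with h3 | h3
        · exact (h u).2 (((h v).1 hv).trans (og_adj.2 ⟨h3, hne⟩).reachable)
        · exact absurd h3 (hnb hv)
    exact this w ho

/-- Conditioning on the cluster of `o` with the pivotal edge removed. -/
private lemma expect_pivot_fork_le {p : ℝ} (hp0 : 0 ≤ p) (hp1 : p ≤ 1) {S : Finset V} {o : V}
    (ho : o ∈ S) {E : Finset (Sym2 V)} (hE : E ⊆ edgesIn G S) (u f x y : V) :
    expect p E (fun ω => if (og ω).Reachable o u ∧ ¬ (og ω).Reachable o f ∧ Fork (og ω) f x y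
        then 1 else 0)
      ≤ tauV G p S f y * expect p E (fun ω => if (og ω).Reachable o u ∧
          ¬ (og ω).Reachable o f ∧ (og ω).Reachable f x then 1 else 0) := by
  set P : Finset V → Finset (Sym2 V) → Prop :=
    fun C ω => ∀ z, z ∈ C ↔ (og ω).Reachable o z with hP
  have hsplit : ∀ Q : Finset (Sym2 V) → Prop, expect p E (fun ω => if (og ω).Reachable o u ∧
        ¬ (og ω).Reachable o f ∧ Q ω then 1 else 0)
      = ∑ C ∈ S.powerset.filter (fun C => o ∈ C ∧ u ∈ C ∧ f ∉ C),
          expect p E (fun ω => if P C ω ∧ Q ω then 1 else 0) := by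
    intro Q
    rw [← expect_sum]
    refine expect_congr fun ω hω => ?_
    have hmem : ∀ z, z ∈ cluster ω S o ↔ (og ω).Reachable o z := by
      intro z
      rw [cluster, mem_filter]
      refine ⟨fun h => h.2, fun h => ⟨?_, h⟩⟩
      obtain ⟨w⟩ := h
      exact walk_support_subset G (hω.trans hE) w ho z w.end_mem_support
    by_cases h : (og ω).Reachable o u ∧ ¬ (og ω).Reachable o f ∧ Q ω
    · rw [if_pos h, sum_eq_single (cluster ω S o)]
      · rw [if_pos ⟨hmem, h.2.2⟩]
      · intro C _ hne
        rw [if_neg]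
        rintro ⟨hC, -⟩
        exact hne (Finset.ext fun z => (hC z).trans (hmem z).symm)
      · intro hn
        refine absurd (mem_filter.2 ⟨mem_powerset.2 (filter_subset _ _), ?_⟩) hn
        exact ⟨(hmem o).2 (Reachable.refl _), (hmem u).2 h.1, fun hh => h.2.1 ((hmem f).1 hh)⟩
    · rw [if_neg h]
      refine (sum_eq_zero fun C hC => ?_).symm
      rw [if_neg]
      rintro ⟨hC', hQ⟩
      obtain ⟨-, -, hu, hf⟩ := mem_filter.1 hC
      exact h ⟨(hC' u).1 hu, fun hh => hf ((hC' f).2 hh), hQ⟩
  rw [hsplit, hsplit, mul_sum]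
  refine sum_le_sum fun C hC => ?_
  obtain ⟨-, hoC, -, hf⟩ := mem_filter.1 hC
  have hdis : Disjoint (touch E C) (E \ touch E C) := disjoint_sdiff
  have hun : E = touch E C ∪ (E \ touch E C) :=
    (union_sdiff_of_subset (filter_subset _ _)).symm
  calc expect p E (fun ω => if P C ω ∧ Fork (og ω) f x y then 1 else 0)
      = expect p (touch E C) (fun a => expect p (E \ touch E C)
          (fun b => if P C (a ∪ b) ∧ Fork (og (a ∪ b)) f x y then 1 else 0)) := by
        conv_lhs => rw [hun]
        exact expect_union hdis _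
    _ ≤ expect p (touch E C) (fun a => tauV G p S f y * expect p (E \ touch E C)
          (fun b => if P C (a ∪ b) ∧ (og (a ∪ b)).Reachable f x then 1 else 0)) := by
        refine expect_mono hp0 hp1 fun a ha => ?_
        by_cases hPa : P C a
        · have hiff : ∀ b, b ⊆ E \ touch E C → P C (a ∪ b) :=
            fun b hb => (cluster_union_iff hb hoC).2 hPa
          calc _ ≤ expect p (E \ touch E C) (fun b => if Fork (og b) f x y then 1 else 0) := by
                refine expect_mono hp0 hp1 fun b hb => ?_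
                by_cases h : P C (a ∪ b) ∧ Fork (og (a ∪ b)) f x y
                · rw [if_pos h, if_pos (fork_rest ha h.1 hf h.2)]
                · rw [if_neg h]; split_ifs <;> norm_num
            _ ≤ _ := expect_fork_le hp0 hp1 _ f x y
            _ ≤ _ := by
                rw [mul_comm]
                refine mul_le_mul ?_ (expect_mono hp0 hp1 fun b hb => ?_) ?_ ?_
                · exact expect_le_superset hp0 hp1 (sdiff_subset.trans hE) f y
                · by_cases h : (og b).Reachable f x
                  · rw [if_pos h, if_pos ⟨hiff b hb, h.mono (og_mono subset_union_right)⟩]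
                  · rw [if_neg h]; split_ifs <;> norm_num
                all_goals exact expect_nonneg hp0 hp1 fun b _ => by split_ifs <;> norm_num
        · refine le_of_eq ?_
          have h0 : ∀ Q : Finset (Sym2 V) → Prop, expect p (E \ touch E C)
              (fun b => if P C (a ∪ b) ∧ Q b then 1 else 0) = 0 := by
            intro Q
            rw [expect_congr (g := fun _ => (0:ℝ)) fun b hb =>
              if_neg fun h => hPa ((cluster_union_iff hb hoC).1 h.1), expect_const]
          rw [h0 (fun b => Fork (og (a ∪ b)) f x y), h0 (fun b => (og (a ∪ b)).Reachable f x),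
            mul_zero]
    _ = tauV G p S f y * expect p E (fun ω => if P C ω ∧ (og ω).Reachable f x then 1 else 0) := by
        rw [expect_mul_left]
        congr 1
        conv_rhs => rw [hun]
        exact (expect_union hdis
          (fun ω => if P C ω ∧ (og ω).Reachable f x then (1:ℝ) else 0)).symm

/-- Second moment: `E|C|^2 ≤ χ + χ^2 + p χ χ'`. -/
theorem sqV_le {p K : ℝ} (hp0 : 0 ≤ p) (hp1 : p ≤ 1) (S : Finset V) {o : V} (ho : o ∈ S)
    (hK : ∀ x ∈ S, chiV G p S x ≤ K) :
    ∃ D, HasDerivAt (fun q => chiV G q S o) D p ∧ 0 ≤ D ∧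
      sqV G p S o ≤ K + K ^ 2 + p * K * D := by
  set E := edgesIn G S with hEdef
  set nn : Finset (Sym2 V) → ℝ :=
    fun ω => ∑ x ∈ S, if (og ω).Reachable o x then 1 else 0 with hnn
  have hchi : (fun q => chiV G q S o) = fun q => expect q E nn := by
    funext q
    rw [hnn, expect_sum]
    rfl
  have hmono : ∀ (e : Sym2 V) ω, nn ω ≤ nn (insert e ω) := by
    intro e ω
    refine sum_le_sum fun x _ => ?_
    by_cases h : (og ω).Reachable o x
    · rw [if_pos h, if_pos (h.mono (og_mono (subset_insert _ _)))]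
    · rw [if_neg h]; split_ifs <;> norm_num
  refine ⟨_, hchi ▸ hasDerivAt_expect p E nn, sum_nonneg fun e _ =>
    expect_nonneg hp0 hp1 fun ω _ => sub_nonneg.2 (hmono e ω), ?_⟩
  have hK0 : 0 ≤ K := le_trans (sum_nonneg fun y _ =>
    expect_nonneg hp0 hp1 fun ω _ => by split_ifs <;> norm_num) (hK o ho)
  have hτ0 : ∀ x y, 0 ≤ tauV G p S x y := fun x y =>
    expect_nonneg hp0 hp1 fun ω _ => by split_ifs <;> norm_num
  -- the directed edges
  set P := (S ×ˢ S).filter fun uf => G.Adj uf.1 uf.2 with hPdef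
  set T : V × V → V → V → Finset (Sym2 V) → ℝ := fun uf x y ω =>
    if s(uf.1, uf.2) ∈ ω then (if (og (ω.erase s(uf.1, uf.2))).Reachable o uf.1 ∧
      ¬ (og (ω.erase s(uf.1, uf.2))).Reachable o uf.2 ∧
      Fork (og (ω.erase s(uf.1, uf.2))) uf.2 x y then 1 else 0) else 0 with hTdef
  have hpoint : ∀ ω, ω ⊆ E → ∀ x y, (if (og ω).Reachable o x ∧ (og ω).Reachable o y
        then (1:ℝ) else 0)
      ≤ (if Fork (og ω) o x y then 1 else 0) + ∑ uf ∈ P, T uf x y ω := by
    intro ω hω x y
    have hT0 : ∀ uf ∈ P, 0 ≤ T uf x y ω := fun uf _ => by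
      simp only [hTdef]; split_ifs <;> norm_num
    by_cases h : (og ω).Reachable o x ∧ (og ω).Reachable o y
    swap
    · rw [if_neg h]
      exact add_nonneg (by split_ifs <;> norm_num) (sum_nonneg hT0)
    rw [if_pos h]
    rcases fork_or_bridge h.1 h.2 with hf | ⟨u, f, huf, hru, hnf, hf⟩
    · rw [if_pos hf]
      linarith [sum_nonneg hT0]
    · rw [← og_erase] at hru hnf hf
      have he : s(u, f) ∈ ω := (og_adj.1 huf).1
      have hmem := (mem_edgesIn G).1 (hω he)
      have hP : (u, f) ∈ P := mem_filter.2 ⟨mem_product.2 ⟨hmem.2.1, hmem.2.2⟩, hmem.1⟩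
      have hone : T (u, f) x y ω = 1 := by
        simp only [hTdef]; rw [if_pos he, if_pos ⟨hru, hnf, hf⟩]
      have h1 : T (u, f) x y ω ≤ ∑ uf ∈ P, T uf x y ω :=
        single_le_sum (f := fun uf => T uf x y ω) hT0 hP
      have h2 : (0:ℝ) ≤ if Fork (og ω) o x y then 1 else 0 := by split_ifs <;> norm_num
      linarith
  -- bound for one directed edge
  set B : V × V → V → ℝ := fun uf x => expect p (E.erase s(uf.1, uf.2))
    (fun ω => if (og ω).Reachable o uf.1 ∧ ¬ (og ω).Reachable o uf.2 ∧
      (og ω).Reachable uf.2 x then 1 else 0) with hBdef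
  have hB0 : ∀ uf x, 0 ≤ B uf x := fun uf x =>
    expect_nonneg hp0 hp1 fun ω _ => by split_ifs <;> norm_num
  have hone : ∀ uf ∈ P, ∀ x y,
      expect p E (T uf x y) ≤ p * (tauV G p S uf.2 y * B uf x) := by
    rintro ⟨u, f⟩ huf x y
    obtain ⟨hm, hadj⟩ := mem_filter.1 huf
    have he : ({s(u, f)} : Finset (Sym2 V)) ⊆ E := singleton_subset_iff.2
      ((mem_edgesIn G).2 ⟨hadj, (mem_product.1 hm).1, (mem_product.1 hm).2⟩)
    have h := expect_contains (p := p) he (fun ω => if (og ω).Reachable o u ∧
      ¬ (og ω).Reachable o f ∧ Fork (og ω) f x y then (1:ℝ) else 0)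
    simp only [singleton_subset_iff, card_singleton, pow_one, sdiff_singleton_eq_erase] at h
    simp only [hTdef, hBdef]
    rw [h]
    exact mul_le_mul_of_nonneg_left
      (expect_pivot_fork_le G hp0 hp1 ho (erase_subset _ _) u f x y) hp0
  have hD : ∑ uf ∈ P, ∑ x ∈ S, B uf x
      ≤ ∑ e ∈ E, expect p (E.erase e) (fun ω => nn (insert e ω) - nn ω) := by
    have hmap : ∀ uf ∈ P, s(uf.1, uf.2) ∈ E := fun uf huf => by
      obtain ⟨hm, hadj⟩ := mem_filter.1 huf
      exact (mem_edgesIn G).2 ⟨hadj, (mem_product.1 hm).1, (mem_product.1 hm).2⟩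
    rw [← sum_fiberwise_of_maps_to hmap]
    refine sum_le_sum fun e _ => ?_
    set Q := P.filter fun uf => s(uf.1, uf.2) = e with hQ
    have hrw : ∑ uf ∈ Q, ∑ x ∈ S, B uf x = expect p (E.erase e) (fun ω => ∑ x ∈ S, ∑ uf ∈ Q,
        if (og ω).Reachable o uf.1 ∧ ¬ (og ω).Reachable o uf.2 ∧ (og ω).Reachable uf.2 x
          then 1 else 0) := by
      rw [sum_comm, expect_sum]
      refine sum_congr rfl fun x _ => ?_
      rw [expect_sum]
      refine sum_congr rfl fun uf huf => ?_
      simp only [hBdef]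
      rw [(mem_filter.1 huf).2]
    rw [hrw]
    refine expect_mono hp0 hp1 fun ω _ => ?_
    simp only [hnn, ← sum_sub_distrib]
    refine sum_le_sum fun x _ => ?_
    set R : V × V → Prop := fun uf => (og ω).Reachable o uf.1 ∧ ¬ (og ω).Reachable o uf.2 ∧
      (og ω).Reachable uf.2 x with hR
    by_cases hex : ∃ uf ∈ Q, R uf
    · obtain ⟨⟨u, f⟩, huf, hu, hnf, hfx⟩ := hex
      obtain ⟨hufP, hufe⟩ := mem_filter.1 huf
      have hne : u ≠ f := fun h => hnf (h ▸ hu)
      have hadj : (og (insert e ω)).Adj u f :=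
        og_adj.2 ⟨hufe ▸ mem_insert_self _ _, hne⟩
      have hx : (og (insert e ω)).Reachable o x :=
        ((hu.mono (og_mono (subset_insert _ _))).trans hadj.reachable).trans
          (hfx.mono (og_mono (subset_insert _ _)))
      have hnx : ¬ (og ω).Reachable o x := fun h => hnf (h.trans hfx.symm)
      rw [if_pos hx, if_neg hnx, sub_zero, sum_eq_single (u, f)]
      · split_ifs <;> norm_num
      · rintro ⟨u', f'⟩ huf' hne'
        rw [if_neg]
        rintro ⟨h1, h2, -⟩
        have := (mem_filter.1 huf').2.trans hufe.symm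
        rw [Sym2.eq_iff] at this
        rcases this with ⟨rfl, rfl⟩ | ⟨rfl, rfl⟩
        · exact hne' rfl
        · exact hnf h1
      · exact fun h => absurd huf h
    · rw [sum_eq_zero fun uf huf => if_neg fun h => hex ⟨uf, huf, h⟩]
      rw [sub_nonneg]
      by_cases h : (og ω).Reachable o x
      · rw [if_pos h, if_pos (h.mono (og_mono (subset_insert _ _)))]
      · rw [if_neg h]; split_ifs <;> norm_num
  calc sqV G p S o
      = expect p E (fun ω => ∑ x ∈ S, ∑ y ∈ S,
          if (og ω).Reachable o x ∧ (og ω).Reachable o y then (1:ℝ) else 0) := by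
        refine expect_congr fun ω _ => ?_
        rw [cluster, ← sum_boole, sq, sum_mul_sum]
        refine sum_congr rfl fun x _ => sum_congr rfl fun y _ => ?_
        split_ifs <;> simp_all
    _ ≤ expect p E (fun ω => ∑ x ∈ S, ∑ y ∈ S,
          ((if Fork (og ω) o x y then (1:ℝ) else 0) + ∑ uf ∈ P, T uf x y ω)) :=
        expect_mono hp0 hp1 fun ω hω =>
          sum_le_sum fun x _ => sum_le_sum fun y _ => hpoint ω hω x y
    _ ≤ ∑ x ∈ S, ∑ y ∈ S, (tauV G p S o x * tauV G p S o y
          + ∑ uf ∈ P, p * (tauV G p S uf.2 y * B uf x)) := by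
        rw [expect_sum]
        refine sum_le_sum fun x _ => ?_
        rw [expect_sum]
        refine sum_le_sum fun y _ => ?_
        rw [expect_add, expect_sum]
        exact add_le_add (expect_fork_le hp0 hp1 E o x y) (sum_le_sum fun uf huf => hone uf huf x y)
    _ = chiV G p S o ^ 2 + p * ∑ uf ∈ P, ∑ x ∈ S, B uf x * chiV G p S uf.2 := by
        simp only [sum_add_distrib, sq, chiV, sum_mul_sum]
        congr 1
        rw [mul_sum, sum_comm]
        simp only [mul_sum]
        rw [sum_comm (s := P)]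
        rw [sum_comm]
        refine sum_congr rfl fun x _ => ?_
        rw [sum_comm]
        refine sum_congr rfl fun uf _ => sum_congr rfl fun y _ => ?_
        ring
    _ ≤ K ^ 2 + p * ∑ uf ∈ P, ∑ x ∈ S, B uf x * K := by
        gcongr with uf huf x hx
        · exact sum_nonneg fun y _ => hτ0 o y
        · exact hK o ho
        · exact hB0 uf x
        · exact hK _ (mem_product.1 (mem_filter.1 huf).1).2
    _ ≤ _ := by
        simp only [← sum_mul]
        nlinarith [mul_le_mul_of_nonneg_left hD (mul_nonneg hp0 hK0)]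

end Vale.Agent.P165.Prod
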