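import Vale.Agent.P165.Prod.Defs

/-!
Sharpness: the boundary functional of a finite set, the differential inequality for the escape
probability, and bounded susceptibility when the functional is below one (Duminil-Copin and
Tassion).
-/

namespace Vale.Agent.P165.Prod

open Finset SimpleGraph Vale.Agent.P165
open scoped Classical

set_option linter.unusedSectionVars false

variable {V : Type*} (G : SimpleGraph V) [G.LocallyFinite]

/-- Expected number of open boundary edges of `S` at the cluster of `o` inside `S`. -/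
noncomputable def phi (p : ℝ) (S : Finset V) (o : V) : ℝ :=
  p * expect p (edgesIn G S) (fun ω => ∑ x ∈ cluster ω S o, (#(G.neighborFinset x \ S) : ℝ))

/-- Indicator of connection in a finite configuration. -/
private noncomputable def conInd (ω : Finset (Sym2 V)) (x y : V) : ℝ :=
  if (og ω).Reachable x y then 1 else 0

private lemma conInd_nonneg (ω : Finset (Sym2 V)) (x y : V) : 0 ≤ conInd ω x y := by
  unfold conInd; split_ifs <;> norm_num

private lemma conInd_mono {a b : Finset (Sym2 V)} (h : a ⊆ b) (x y : V) :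
    conInd a x y ≤ conInd b x y := by
  unfold conInd
  by_cases hr : (og a).Reachable x y
  · rw [if_pos hr, if_pos (hr.mono (og_mono h))]
  · rw [if_neg hr]; split_ifs <;> norm_num

/-- A monotone function has smaller expectation on a smaller edge set. -/
private lemma expect_subset_le {p : ℝ} (hp0 : 0 ≤ p) (hp1 : p ≤ 1) {E E' : Finset (Sym2 V)}
    (h : E' ⊆ E) {f : Finset (Sym2 V) → ℝ} (hf : ∀ a b, a ⊆ b → f a ≤ f b) :
    expect p E' f ≤ expect p E f := by
  conv_rhs => rw [← Finset.union_sdiff_of_subset h, expect_union Finset.disjoint_sdiff]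
  refine expect_mono hp0 hp1 fun a _ => ?_
  calc f a = expect p (E \ E') (fun _ => f a) := (expect_const _ _ _).symm
    _ ≤ _ := expect_mono hp0 hp1 fun b _ => hf _ _ subset_union_left

lemma expect_deriv_nonneg {p : ℝ} (hp0 : 0 ≤ p) (hp1 : p ≤ 1) (E : Finset (Sym2 V))
    {f : Finset (Sym2 V) → ℝ} (hf : ∀ a b, a ⊆ b → f a ≤ f b) :
    0 ≤ ∑ e ∈ E, expect p (E.erase e) (fun ω => f (insert e ω) - f ω) :=
  sum_nonneg fun e _ => expect_nonneg hp0 hp1 fun ω _ => sub_nonneg.2 (hf _ _ (subset_insert _ _))

lemma esc_mono {B : Finset V} {a b : Finset (Sym2 V)} (h : a ⊆ b) {x : V} (he : Esc B a x) :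
    Esc B b x := by
  obtain ⟨z, hz, hr⟩ := he
  exact ⟨z, hz, hr.mono (og_mono h)⟩

/-- The differential inequality for the escape probability. -/
lemma theta_deriv_ge_phi {p c : ℝ} (hp0 : 0 ≤ p) (hp1 : p < 1) (B : Finset V) {o : V}
    (ho : o ∈ B) (hphi : ∀ S ⊆ B, o ∈ S → c ≤ phi G p S o) :
    ∃ d, HasDerivAt (fun q => theta G q B o) d p ∧ 0 ≤ d ∧ c * (1 - theta G p B o) ≤ d := by
  set E := edgesAt G B with hE
  set f : Finset (Sym2 V) → ℝ := fun ω => if Esc B ω o then 1 else 0 with hf
  have hfm : ∀ a b, a ⊆ b → f a ≤ f b := fun a b hab => by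
    simp only [hf]
    by_cases h : Esc B a o
    · rw [if_pos h, if_pos (esc_mono hab h)]
    · rw [if_neg h]; split_ifs <;> norm_num
  refine ⟨_, hasDerivAt_expect p E f, expect_deriv_nonneg hp0 hp1.le E hfm, ?_⟩
  set d := ∑ e ∈ E, expect p (E.erase e) (fun ω => f (insert e ω) - f ω) with hd
  have hd0 : 0 ≤ d := expect_deriv_nonneg hp0 hp1.le E hfm
  set g : Finset V → Finset (Sym2 V) → ℝ := fun S ω => if o ∈ S then
    ∑ x ∈ cluster ω S o, (#(G.neighborFinset x \ S) : ℝ) else 0 with hg
  have hpiv : expect p E (fun ω => g (sealed B ω) ω) ≤ (1 - p) * d := by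
    rw [hd, deriv_expect_mul]
    refine expect_mono hp0 hp1.le fun ω hω => ?_
    set S := sealed B ω with hS
    have hterm : ∀ e ∈ E, 0 ≤ if e ∈ ω then 0 else f (insert e ω) - f ω := by
      intro e _
      split_ifs
      · exact le_rfl
      · exact sub_nonneg.2 (hfm _ _ (subset_insert _ _))
    simp only [hg]
    split_ifs with hoS
    · set P := (cluster ω S o).sigma fun x => G.neighborFinset x \ S with hP
      have hcard : (∑ x ∈ cluster ω S o, (#(G.neighborFinset x \ S) : ℝ)) = (#P : ℝ) := by
        rw [hP, card_sigma, Nat.cast_sum]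
      rw [hcard]
      set T := P.image (fun xy => s(xy.1, xy.2)) with hT
      have hTcard : #T = #P := by
        refine card_image_of_injOn ?_
        rintro ⟨x, y⟩ hxy ⟨x', y'⟩ hxy' he
        simp only [hP, mem_coe, mem_sigma, Finset.mem_sdiff, cluster, mem_filter] at hxy hxy'
        simp only [Sym2.eq_iff] at he
        rcases he with ⟨rfl, rfl⟩ | ⟨rfl, rfl⟩
        · rfl
        · exact absurd hxy'.1.1 hxy.2.2
      rw [← hTcard]
      have hall : ∀ e ∈ T, e ∈ E ∧ e ∉ ω ∧ f (insert e ω) - f ω = 1 := by
        intro e he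
        obtain ⟨⟨x, y⟩, hxy, rfl⟩ := Finset.mem_image.1 he
        simp only [hP, mem_sigma, Finset.mem_sdiff, cluster, mem_filter, mem_neighborFinset]
          at hxy
        obtain ⟨⟨hxS, hr⟩, hadj, hyS⟩ := hxy
        have hxS' := mem_filter.1 hxS
        have hyesc : Esc B ω y := by
          by_cases hyB : y ∈ B
          · by_contra hh
            exact hyS (mem_filter.2 ⟨hyB, hh⟩)
          · exact ⟨y, hyB, Reachable.refl _⟩
        have hnm : s(x, y) ∉ ω := by
          intro hm
          obtain ⟨z, hz, hyz⟩ := hyesc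
          exact hxS'.2 ⟨z, hz, ((og_adj.2 ⟨hm, hadj.ne⟩).reachable).trans hyz⟩
        refine ⟨(mem_edgesAt G).2 ⟨hadj, Or.inl hxS'.1⟩, hnm, ?_⟩
        obtain ⟨z, hz, hyz⟩ := hyesc
        have h1 : Esc B (insert s(x, y) ω) o :=
          ⟨z, hz, ((hr.mono (og_mono (subset_insert _ _))).trans
            (og_adj.2 ⟨mem_insert_self _ _, hadj.ne⟩).reachable).trans
              (hyz.mono (og_mono (subset_insert _ _)))⟩
        simp only [hf]
        rw [if_pos h1, if_neg (mem_filter.1 hoS).2]
        norm_num
      calc ((#T : ℕ) : ℝ) = ∑ _e ∈ T, (1:ℝ) := by simp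
        _ = ∑ e ∈ T, if e ∈ ω then 0 else f (insert e ω) - f ω :=
            sum_congr rfl fun e he => by rw [if_neg (hall e he).2.1, (hall e he).2.2]
        _ ≤ _ := sum_le_sum_of_subset_of_nonneg (fun e he => (hall e he).1)
            fun e he _ => hterm e he
    · exact sum_nonneg hterm
  have hmain : c * (1 - theta G p B o) ≤ p * expect p E (fun ω => g (sealed B ω) ω) := by
    have hrw : ∀ ω, g (sealed B ω) ω
        = ∑ S ∈ B.powerset, if sealed B ω = S then g S ω else 0 := fun ω => by
      rw [sum_ite_eq, if_pos (mem_powerset.2 (show sealed B ω ⊆ B from filter_subset _ _))]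
    have hth : 1 - theta G p B o
        = ∑ S ∈ B.powerset, expect p E (fun ω =>
            if sealed B ω = S then (if o ∈ S then (1:ℝ) else 0) else 0) := by
      rw [← expect_sum, theta, ← hE]
      nth_rw 1 [← expect_const p E (1:ℝ)]
      rw [← expect_sub]
      refine expect_congr fun ω _ => ?_
      rw [sum_ite_eq, if_pos (mem_powerset.2 (show sealed B ω ⊆ B from filter_subset _ _))]
      simp only [sealed, mem_filter, ho, true_and]
      by_cases h : Esc B ω o <;> simp [h]
    simp only [hrw, expect_sum, hth, mul_sum]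
    refine sum_le_sum fun S hS => ?_
    rw [mem_powerset] at hS
    have hsub := edgesIn_subset_edgesAt G hS
    have hdec : E = (E \ edgesIn G S) ∪ edgesIn G S := (Finset.sdiff_union_of_subset hsub).symm
    rw [hdec, expect_union Finset.sdiff_disjoint, expect_union Finset.sdiff_disjoint,
      ← expect_mul_left, ← expect_mul_left]
    refine expect_mono hp0 hp1.le fun a _ => ?_
    have hiff : ∀ b, b ⊆ edgesIn G S → (sealed B (a ∪ b) = S ↔ sealed B a = S) :=
      fun b hb => sealed_union_iff G hb
    by_cases hS' : sealed B a = S ∧ o ∈ S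
    · rw [expect_congr (g := fun _ => (1:ℝ)) fun b hb => by
        rw [if_pos ((hiff b hb).2 hS'.1), if_pos hS'.2], expect_const, mul_one]
      refine (hphi S hS hS'.2).trans ?_
      refine mul_le_mul_of_nonneg_left (expect_mono hp0 hp1.le fun b hb => ?_) hp0
      rw [if_pos ((hiff b hb).2 hS'.1)]
      simp only [hg]
      rw [if_pos hS'.2]
      refine sum_le_sum_of_subset_of_nonneg ?_ fun _ _ _ => Nat.cast_nonneg _
      intro x hx
      simp only [cluster, mem_filter] at hx ⊢
      exact ⟨hx.1, hx.2.mono (og_mono subset_union_right)⟩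
    · rw [expect_congr (g := fun _ => (0:ℝ)) fun b hb => by
        by_cases h1 : sealed B (a ∪ b) = S
        · rw [if_pos h1, if_neg fun h2 => hS' ⟨(hiff b hb).1 h1, h2⟩]
        · rw [if_neg h1], expect_const, mul_zero]
      refine mul_nonneg hp0 (expect_nonneg hp0 hp1.le fun b _ => ?_)
      simp only [hg]
      split_ifs <;> first | exact le_rfl | exact sum_nonneg fun _ _ => Nat.cast_nonneg _
  have h1 := hmain.trans (mul_le_mul_of_nonneg_left hpiv hp0)
  refine h1.trans ?_
  nlinarith [mul_nonneg hd0 hp0, mul_nonneg hd0 (sub_nonneg.2 hp1.le),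
    mul_nonneg (mul_nonneg hd0 hp0) hp0]

/-- If all functionals are at least `c` on an interval, the escape probability grows. -/
lemma theta_lower_phi {c a b : ℝ} (ha : 0 ≤ a) (hab : a ≤ b) (hb : b < 1) (B : Finset V) {o : V}
    (ho : o ∈ B) (hphi : ∀ p ∈ Set.Icc a b, ∀ S ⊆ B, o ∈ S → c ≤ phi G p S o) :
    1 - Real.exp (-(c * (b - a))) ≤ theta G b B o := by
  set F : ℝ → ℝ := fun p => (1 - theta G p B o) * Real.exp (c * (p - a)) with hF
  have hderiv : ∀ p ∈ Set.Icc a b, ∃ d', HasDerivAt F d' p ∧ d' ≤ 0 := by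
    intro p hp
    obtain ⟨d, hd, -, hle⟩ := theta_deriv_ge_phi G (ha.trans hp.1) (lt_of_le_of_lt hp.2 hb) B ho
      (hphi p hp)
    refine ⟨_, (hd.const_sub 1).mul ((((hasDerivAt_id p).sub_const a).const_mul c).exp), ?_⟩
    simp only [id_eq, mul_one]
    rw [show -d * Real.exp (c * (p - a))
        + (1 - theta G p B o) * (Real.exp (c * (p - a)) * c)
        = Real.exp (c * (p - a)) * (c * (1 - theta G p B o) - d) by ring]
    exact mul_nonpos_of_nonneg_of_nonpos (Real.exp_pos _).le (by linarith)
  have hanti : AntitoneOn F (Set.Icc a b) := by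
    refine antitoneOn_of_deriv_nonpos (convex_Icc a b) ?_ ?_ ?_
    · intro p hp
      obtain ⟨d', hd', -⟩ := hderiv p hp
      exact hd'.continuousAt.continuousWithinAt
    · intro p hp
      obtain ⟨d', hd', -⟩ := hderiv p (interior_subset hp)
      exact hd'.differentiableAt.differentiableWithinAt
    · intro p hp
      obtain ⟨d', hd', hle⟩ := hderiv p (interior_subset hp)
      rw [hd'.deriv]; exact hle
  have h1 := hanti (Set.left_mem_Icc.2 hab) (Set.right_mem_Icc.2 hab) hab
  have h2 : F a ≤ 1 := by
    simp only [hF, sub_self, mul_zero, Real.exp_zero, mul_one]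
    have : 0 ≤ theta G a B o :=
      expect_nonneg ha (hab.trans hb.le) fun ω _ => by split_ifs <;> norm_num
    linarith
  have h3 : (1 - theta G b B o) * Real.exp (c * (b - a)) ≤ 1 := h1.trans h2
  rw [Real.exp_neg]
  have he := Real.exp_pos (c * (b - a))
  rw [sub_le_comm, inv_eq_one_div, le_div_iff₀ he]
  linarith

/-- The cluster of `o` using the edges inside `S`. -/
noncomputable def clusterIn (ω : Finset (Sym2 V)) (S : Finset V) (o : V) : Finset V :=
  cluster (ω ∩ edgesIn G S) S o

lemma clusterIn_union {S : Finset V} {C : Finset V} {a b : Finset (Sym2 V)} {o : V}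
    (hb : Disjoint b (edgesAt G C)) (ho : o ∈ S) :
    clusterIn G (a ∪ b) S o = C ↔ clusterIn G a S o = C := by
  have hsub : a ∩ edgesIn G S ⊆ (a ∪ b) ∩ edgesIn G S :=
    inter_subset_inter_right subset_union_left
  have key : ∀ a' : Finset (Sym2 V), ((∀ u, u ∈ C → (og a').Reachable o u) →
      (∀ u v, u ∈ C → s(u, v) ∈ a' → v ∈ C) → o ∈ C → ∀ u, (og a').Reachable o u → u ∈ C) := by
    intro a' _ hcl hoC u hu
    obtain ⟨r⟩ := hu
    suffices hs : ∀ v w, (og a').Walk v w → v ∈ C → w ∈ C from hs o u r hoC
    intro v w r'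
    clear * - r' hcl
    induction r' with
    | nil => exact id
    | @cons x y z hxy q ih => exact fun hx => ih (hcl _ _ hx (og_adj.1 hxy).1)
  constructor
  · intro h
    have hoC : o ∈ C := h ▸ mem_filter.2 ⟨ho, Reachable.refl _⟩
    have hall : ∀ u, ∀ q : (og ((a ∪ b) ∩ edgesIn G S)).Walk o u,
        (og (a ∩ edgesIn G S)).Reachable o u := by
      intro u q
      refine ⟨q.transfer _ fun e he => ?_⟩
      have he' := q.edges_subset_edgeSet he
      rw [og, edgeSet_fromEdgeSet] at he' ⊢
      refine ⟨?_, he'.2⟩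
      have hm : e ∈ (a ∪ b) ∩ edgesIn G S := he'.1
      rw [Finset.mem_inter, Finset.mem_union] at hm
      refine Finset.mem_inter.2 ⟨hm.1.resolve_right fun hbe => ?_, hm.2⟩
      induction e using Sym2.ind with
      | h x y =>
        obtain ⟨hadj, hxS, -⟩ := (mem_edgesIn G).1 hm.2
        have hx : x ∈ q.support := q.fst_mem_support_of_mem_edges he
        have hxC : x ∈ C := h ▸ mem_filter.2 ⟨hxS, ⟨q.takeUntil x hx⟩⟩
        exact Finset.disjoint_left.1 hb hbe ((mem_edgesAt G).2 ⟨hadj, Or.inl hxC⟩)
    rw [← h]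
    refine Finset.ext fun u => ?_
    simp only [clusterIn, cluster, mem_filter]
    exact and_congr_right fun _ => ⟨fun hr => hr.mono (og_mono hsub), fun ⟨q⟩ => hall u q⟩
  · intro h
    have hoC : o ∈ C := h ▸ mem_filter.2 ⟨ho, Reachable.refl _⟩
    refine Finset.ext fun u => ?_
    simp only [clusterIn, cluster, mem_filter]
    constructor
    · rintro ⟨-, hu⟩
      refine key _ ?_ ?_ hoC u hu
      · intro v hv
        rw [← h] at hv
        exact (mem_filter.1 hv).2.mono (og_mono hsub)
      · intro x y hx hxy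
        rw [Finset.mem_inter, Finset.mem_union] at hxy
        obtain ⟨hadj, -, hyS⟩ := (mem_edgesIn G).1 hxy.2
        have hxa : s(x, y) ∈ a := hxy.1.resolve_right fun hbe =>
          Finset.disjoint_left.1 hb hbe ((mem_edgesAt G).2 ⟨hadj, Or.inl hx⟩)
        rw [← h] at hx ⊢
        exact mem_filter.2 ⟨hyS, (mem_filter.1 hx).2.trans
          (og_adj.2 ⟨Finset.mem_inter.2 ⟨hxa, hxy.2⟩, hadj.ne⟩).reachable⟩
    · intro hu
      rw [← h] at hu
      exact ⟨(mem_filter.1 hu).1, (mem_filter.1 hu).2.mono (og_mono hsub)⟩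

/-- A connection leaving `S` has a last edge out of the cluster inside `S`. -/
lemma exists_exit {B S : Finset V} {ω : Finset (Sym2 V)} (hω : ω ⊆ edgesIn G B) {o x : V}
    (ho : o ∈ S) (hx : x ∉ S) (h : (og ω).Reachable o x) :
    ∃ y ∈ clusterIn G ω S o, ∃ z ∈ (G.neighborFinset y \ S) ∩ B, s(y, z) ∈ ω ∧
      (og (ω \ edgesAt G (clusterIn G ω S o))).Reachable z x := by
  set C := clusterIn G ω S o with hC
  have hxC : x ∉ C := fun h => hx (mem_filter.1 h).1
  suffices hs : ∀ u, ∀ q : (og ω).Walk u x, u ∈ C ∨ (∃ v ∈ q.support, v ∈ C) →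
      ∃ y ∈ C, ∃ z ∈ (G.neighborFinset y \ S) ∩ B, s(y, z) ∈ ω ∧
        (og (ω \ edgesAt G C)).Reachable z x by
    obtain ⟨r⟩ := h
    exact hs o r (Or.inl (mem_filter.2 ⟨ho, Reachable.refl _⟩))
  clear_value C
  intro u q
  clear * - hω q hxC hx hC
  induction q with
  | nil =>
    rintro (h | ⟨v, hv, h⟩)
    · exact absurd h hxC
    · rw [Walk.support_nil, List.mem_singleton] at hv
      exact absurd (hv ▸ h) hxC
  | @cons u v w huv q ih =>
    intro hu
    by_cases hq : ∃ v' ∈ q.support, v' ∈ C
    · exact ih hx hxC (Or.inr hq)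
    · have huC : u ∈ C := by
        rcases hu with h | ⟨v', hv', h⟩
        · exact h
        · rw [Walk.support_cons, List.mem_cons] at hv'
          rcases hv' with rfl | hv'
          · exact h
          · exact absurd ⟨v', hv', h⟩ hq
      obtain ⟨hm, hne⟩ := og_adj.1 huv
      obtain ⟨hadj, -, hvB⟩ := (mem_edgesIn G).1 (hω hm)
      have huC' : u ∈ clusterIn G ω S o := hC ▸ huC
      have hvS : v ∉ S := fun hvS => hq ⟨v, q.start_mem_support,
        hC.symm ▸ mem_filter.2 ⟨hvS, (mem_filter.1 huC').2.trans (og_adj.2 ⟨Finset.mem_inter.2 ⟨hm,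
          (mem_edgesIn G).2 ⟨hadj, (mem_filter.1 huC').1, hvS⟩⟩, hne⟩).reachable⟩⟩
      refine ⟨u, huC, v, ?_, hm, ⟨q.transfer _ fun e he => ?_⟩⟩
      · simp [hadj, hvS, hvB]
      · have he' := q.edges_subset_edgeSet he
        rw [og, edgeSet_fromEdgeSet] at he' ⊢
        refine ⟨?_, he'.2⟩
        rw [Finset.mem_coe, Finset.mem_sdiff]
        refine ⟨he'.1, fun hea => hq ?_⟩
        induction e using Sym2.ind with
        | h a b =>
          rcases ((mem_edgesAt G).1 hea).2 with h | h
          · exact ⟨a, q.fst_mem_support_of_mem_edges he, h⟩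
          · exact ⟨b, q.snd_mem_support_of_mem_edges he, h⟩

/-- One term of the first-exit decomposition. -/
lemma expect_exit_le {p : ℝ} (hp0 : 0 ≤ p) (hp1 : p ≤ 1) {B S : Finset V} {o : V} (ho : o ∈ S)
    {y z : V} (hz : z ∉ S) (x : V) :
    expect p (edgesIn G B) (fun ω =>
      if y ∈ clusterIn G ω S o ∧ s(y, z) ∈ ω then
        conInd (ω \ edgesAt G (clusterIn G ω S o)) z x else 0)
      ≤ p * expect p (edgesIn G S) (fun ω => conInd ω o y)
          * expect p (edgesIn G B) (fun ω => conInd ω z x) := by
  set E := edgesIn G B with hE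
  set τ := expect p E (fun ω => conInd ω z x) with hτ
  have hτ0 : 0 ≤ τ := expect_nonneg hp0 hp1 fun ω _ => conInd_nonneg ω z x
  by_cases he : s(y, z) ∈ E
  swap
  · rw [expect_congr (g := fun _ => (0:ℝ)) fun ω hω => if_neg fun h => he (hω h.2), expect_const]
    exact mul_nonneg (mul_nonneg hp0 (expect_nonneg hp0 hp1 fun ω _ => conInd_nonneg ω o y)) hτ0
  have hadj : G.Adj y z := ((mem_edgesIn G).1 he).1
  set Cs := S.powerset.filter (fun C => y ∈ C) with hCs
  have hsum : ∀ ω, (if y ∈ clusterIn G ω S o ∧ s(y, z) ∈ ω then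
        conInd (ω \ edgesAt G (clusterIn G ω S o)) z x else 0)
      = ∑ C ∈ Cs, if clusterIn G ω S o = C then
          (if s(y, z) ∈ ω then conInd (ω \ edgesAt G C) z x else 0) else 0 := by
    intro ω
    rw [sum_ite_eq]
    have hsub : clusterIn G ω S o ⊆ S := filter_subset _ _
    by_cases hy : y ∈ clusterIn G ω S o
    · simp [hCs, hsub, hy]
    · simp [hCs, hy]
  have hterm : ∀ C ∈ Cs, expect p E (fun ω => if clusterIn G ω S o = C then
          (if s(y, z) ∈ ω then conInd (ω \ edgesAt G C) z x else 0) else 0)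
      ≤ p * expect p E (fun ω => if clusterIn G ω S o = C then 1 else 0) * τ := by
    intro C hC
    rw [hCs, mem_filter, mem_powerset] at hC
    set E1 := E ∩ edgesAt G C with hE1
    set E2 := E \ edgesAt G C with hE2
    have hd : Disjoint E1 E2 := by
      rw [Finset.disjoint_left]
      exact fun e h1 h2 => (Finset.mem_sdiff.1 h2).2 (Finset.mem_inter.1 h1).2
    have hdec : E = E1 ∪ E2 := by
      ext e; simp only [hE1, hE2, Finset.mem_union, Finset.mem_inter, Finset.mem_sdiff]; tauto
    have hb : ∀ b ⊆ E2, Disjoint b (edgesAt G C) := fun b hb =>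
      Finset.disjoint_left.2 fun e h1 => (Finset.mem_sdiff.1 (hb h1)).2
    have he1 : s(y, z) ∈ E1 :=
      Finset.mem_inter.2 ⟨he, (mem_edgesAt G).2 ⟨hadj, Or.inl hC.2⟩⟩
    have hτle : expect p E2 (fun b => conInd b z x) ≤ τ :=
      expect_subset_le hp0 hp1 sdiff_subset fun a b h => conInd_mono h z x
    set W := expect p E1 (fun a => if clusterIn G a S o = C then (1:ℝ) else 0) with hW
    have hW0 : 0 ≤ W := expect_nonneg hp0 hp1 fun a _ => by split_ifs <;> norm_num
    have hWeq : expect p E (fun ω => if clusterIn G ω S o = C then (1:ℝ) else 0) = W := by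
      rw [hdec, expect_union hd]
      refine expect_congr fun a _ => ?_
      rw [expect_congr (g := fun _ => if clusterIn G a S o = C then (1:ℝ) else 0) fun b hb' => by
        simp only [clusterIn_union G (hb b hb') ho], expect_const]
    have hforce : expect p E1 (fun a => if clusterIn G a S o = C then
        (if s(y, z) ∈ a then (1:ℝ) else 0) else 0) = p * W := by
      have herase : ∀ a, clusterIn G (a.erase s(y, z)) S o = clusterIn G a S o := by
        intro a
        simp only [clusterIn]
        congr 1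
        ext e
        simp only [Finset.mem_inter, Finset.mem_erase]
        exact ⟨fun h => ⟨h.1.2, h.2⟩, fun h => ⟨⟨fun hez =>
          hz ((mem_edgesIn G).1 (hez ▸ h.2)).2.2, h.1⟩, h.2⟩⟩
      have h1 := expect_contains (p := p) (E := E1) (Q := {s(y, z)})
        (Finset.singleton_subset_iff.2 he1)
        (fun a => if clusterIn G a S o = C then (1:ℝ) else 0)
      rw [card_singleton, pow_one, sdiff_singleton_eq_erase] at h1
      have hW' : W = expect p (E1.erase s(y, z))
          (fun a => if clusterIn G a S o = C then (1:ℝ) else 0) := by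
        rw [hW]
        conv_lhs => rw [← insert_erase he1, expect_insert (notMem_erase _ _)]
        rw [expect_congr (f := fun a => if clusterIn G (insert s(y, z) a) S o = C then (1:ℝ) else 0)
          (g := fun a => if clusterIn G a S o = C then (1:ℝ) else 0) fun a ha => by
            rw [← herase (insert s(y, z) a),
              erase_insert fun h => notMem_erase _ _ (ha h)]]
        ring
      rw [hW', ← h1]
      refine expect_congr fun a _ => ?_
      simp only [Finset.singleton_subset_iff, sdiff_singleton_eq_erase, herase]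
      split_ifs <;> rfl
    rw [hWeq, ← hforce, hdec, expect_union hd, mul_comm _ τ, ← expect_mul_left]
    refine expect_mono hp0 hp1 fun a ha => ?_
    rw [expect_congr (g := fun b => (if clusterIn G a S o = C then
        (if s(y, z) ∈ a then (1:ℝ) else 0) else 0) * conInd b z x) fun b hb' => ?_,
      expect_mul_left, mul_comm]
    · refine mul_le_mul_of_nonneg_right hτle ?_
      split_ifs <;> norm_num
    · have h1 : (a ∪ b) \ edgesAt G C = b := by
        ext e
        simp only [Finset.mem_sdiff, Finset.mem_union]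
        exact ⟨fun h => h.1.resolve_left fun h' => h.2 (Finset.mem_inter.1 (ha h')).2,
          fun h => ⟨Or.inr h, (Finset.mem_sdiff.1 (hb' h)).2⟩⟩
      have h2 : s(y, z) ∈ a ∪ b ↔ s(y, z) ∈ a := by
        rw [Finset.mem_union]
        exact ⟨fun h => h.resolve_right fun h' =>
          Finset.disjoint_left.1 hd he1 (hb' h'), Or.inl⟩
      simp only [clusterIn_union G (hb b hb') ho, h1, h2]
      split_ifs <;> simp
  have hcs : ∑ C ∈ Cs, expect p E (fun ω => if clusterIn G ω S o = C then (1:ℝ) else 0)
      ≤ expect p (edgesIn G S) (fun ω => conInd ω o y) := by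
    rw [← expect_sum]
    calc _ ≤ expect p E (fun ω => conInd (ω ∩ edgesIn G S) o y) := by
          refine expect_mono hp0 hp1 fun ω _ => ?_
          rw [sum_ite_eq]
          split_ifs with h
          · rw [hCs, mem_filter] at h
            rw [conInd, if_pos (mem_filter.1 h.2).2]
          · exact conInd_nonneg _ _ _
      _ = expect p (E ∩ edgesIn G S) (fun ω => conInd ω o y) := by
          have hdec : E = (E ∩ edgesIn G S) ∪ (E \ edgesIn G S) := by
            ext e; simp only [Finset.mem_union, Finset.mem_inter, Finset.mem_sdiff]; tauto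
          conv_lhs => rw [hdec, expect_union (by
            rw [Finset.disjoint_left]
            exact fun e h1 h2 => (Finset.mem_sdiff.1 h2).2 (Finset.mem_inter.1 h1).2)]
          refine expect_congr fun a ha => ?_
          rw [expect_congr (g := fun _ => conInd a o y) fun b hb => ?_, expect_const]
          congr 1
          ext e
          simp only [Finset.mem_inter, Finset.mem_union]
          exact ⟨fun h => h.1.resolve_right fun h' => (Finset.mem_sdiff.1 (hb h')).2 h.2,
            fun h => ⟨Or.inl h, (Finset.mem_inter.1 (ha h)).2⟩⟩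
      _ ≤ _ := expect_subset_le hp0 hp1 inter_subset_right fun a b h => conInd_mono h o y
  rw [expect_congr (fun ω _ => hsum ω), expect_sum]
  refine (sum_le_sum hterm).trans ?_
  rw [← sum_mul, ← mul_sum]
  exact mul_le_mul_of_nonneg_right (mul_le_mul_of_nonneg_left hcs hp0) hτ0

/-- The functional in terms of connection probabilities. -/
lemma phi_eq (p : ℝ) (S : Finset V) (u : V) :
    phi G p S u = p * ∑ y ∈ S, tauV G p S u y * (#(G.neighborFinset y \ S) : ℝ) := by
  rw [phi]
  simp only [cluster, sum_filter, expect_sum]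
  congr 1
  refine sum_congr rfl fun y _ => ?_
  rw [tauV, mul_comm, ← expect_mul_left]
  refine expect_congr fun ω _ => ?_
  split_ifs <;> simp

/-- If every vertex has a bounded set with functional at most `r < 1`, susceptibility is bounded. -/
lemma chi_finite_le {p r : ℝ} (hp0 : 0 ≤ p) (hp1 : p ≤ 1) (hr0 : 0 ≤ r) (hr : r < 1) {N : ℕ}
    (hS : ∀ o, ∃ S : Finset V, o ∈ S ∧ #S ≤ N ∧ phi G p S o ≤ r) (B : Finset V) {o : V}
    (ho : o ∈ B) :
    ∑ x ∈ B, expect p (edgesIn G B) (fun ω => conInd ω o x) ≤ N / (1 - r) := by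
  set X : V → ℝ := fun o => ∑ x ∈ B, expect p (edgesIn G B) (fun ω => conInd ω o x) with hX
  obtain ⟨w, hwB, hw⟩ := B.exists_max_image X ⟨o, ho⟩
  have hX0 : ∀ u, 0 ≤ X u := fun u =>
    sum_nonneg fun x _ => expect_nonneg hp0 hp1 fun ω _ => conInd_nonneg _ _ _
  have hkey : ∀ u ∈ B, X u ≤ N + r * X w := by
    intro u _
    obtain ⟨S, huS, hN, hphi⟩ := hS u
    have hsplit : ∀ x ∈ B, expect p (edgesIn G B) (fun ω => conInd ω u x) ≤ (if x ∈ S then 1 else 0)
        + ∑ y ∈ S, ∑ z ∈ (G.neighborFinset y \ S) ∩ B,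
          p * expect p (edgesIn G S) (fun ω => conInd ω u y)
            * expect p (edgesIn G B) (fun ω => conInd ω z x) := by
      intro x _
      have hnn : ∀ y ∈ S, ∀ z ∈ (G.neighborFinset y \ S) ∩ B,
          0 ≤ p * expect p (edgesIn G S) (fun ω => conInd ω u y)
            * expect p (edgesIn G B) (fun ω => conInd ω z x) := fun y _ z _ =>
        mul_nonneg (mul_nonneg hp0 (expect_nonneg hp0 hp1 fun ω _ => conInd_nonneg _ _ _))
          (expect_nonneg hp0 hp1 fun ω _ => conInd_nonneg _ _ _)
      by_cases hxS : x ∈ S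
      · rw [if_pos hxS]
        refine le_add_of_le_of_nonneg ?_ (sum_nonneg fun y hy => sum_nonneg (hnn y hy))
        calc _ ≤ expect p (edgesIn G B) (fun _ => (1:ℝ)) :=
              expect_mono hp0 hp1 fun ω _ => by unfold conInd; split_ifs <;> norm_num
          _ = 1 := expect_const _ _ _
      rw [if_neg hxS, zero_add]
      refine le_trans ?_ (sum_le_sum fun y hy => sum_le_sum fun z hz =>
        expect_exit_le G hp0 hp1 huS
          (Finset.mem_sdiff.1 (Finset.mem_inter.1 hz).1).2 x)
      simp only [← expect_sum]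
      refine expect_mono hp0 hp1 fun ω hω => ?_
      have hpos : ∀ y ∈ S, ∀ z ∈ (G.neighborFinset y \ S) ∩ B,
          0 ≤ if y ∈ clusterIn G ω S u ∧ s(y, z) ∈ ω then
            conInd (ω \ edgesAt G (clusterIn G ω S u)) z x else 0 := fun y _ z _ => by
        split_ifs
        · exact conInd_nonneg _ _ _
        · exact le_rfl
      by_cases hr' : (og ω).Reachable u x
      · obtain ⟨y, hy, z, hz, hm, hzx⟩ := exists_exit G hω huS hxS hr'
        rw [conInd, if_pos hr']
        have hyS : y ∈ S := (mem_filter.1 hy).1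
        refine le_trans ?_ (single_le_sum (fun y hy => sum_nonneg (hpos y hy)) hyS)
        refine le_trans ?_ (single_le_sum (hpos y hyS) hz)
        rw [if_pos ⟨hy, hm⟩, conInd, if_pos hzx]
      · rw [conInd, if_neg hr']
        exact sum_nonneg fun y hy => sum_nonneg (hpos y hy)
    calc X u ≤ ∑ x ∈ B, ((if x ∈ S then (1:ℝ) else 0)
          + ∑ y ∈ S, ∑ z ∈ (G.neighborFinset y \ S) ∩ B,
            p * expect p (edgesIn G S) (fun ω => conInd ω u y)
              * expect p (edgesIn G B) (fun ω => conInd ω z x)) := sum_le_sum hsplit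
      _ = (#(B ∩ S) : ℝ) + ∑ y ∈ S, ∑ z ∈ (G.neighborFinset y \ S) ∩ B,
            p * expect p (edgesIn G S) (fun ω => conInd ω u y) * X z := by
          rw [sum_add_distrib, sum_comm (s := B) (t := S)]
          congr 1
          · rw [sum_boole, filter_mem_eq_inter]
          · refine sum_congr rfl fun y _ => ?_
            rw [sum_comm]
            simp only [hX, mul_sum]
      _ ≤ (N : ℝ) + ∑ y ∈ S, ∑ _z ∈ G.neighborFinset y \ S,
            p * expect p (edgesIn G S) (fun ω => conInd ω u y) * X w := by
          refine add_le_add (Nat.cast_le.2 ((card_le_card inter_subset_right).trans hN))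
            (sum_le_sum fun y _ => ?_)
          have h0 : 0 ≤ p * expect p (edgesIn G S) (fun ω => conInd ω u y) :=
            mul_nonneg hp0 (expect_nonneg hp0 hp1 fun ω _ => conInd_nonneg _ _ _)
          refine le_trans (sum_le_sum fun z hz => mul_le_mul_of_nonneg_left
            (hw z (Finset.mem_inter.1 hz).2) h0) ?_
          exact sum_le_sum_of_subset_of_nonneg inter_subset_left
            fun _ _ _ => mul_nonneg h0 (hX0 w)
      _ = (N : ℝ) + phi G p S u * X w := by
          congr 1
          rw [phi_eq]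
          generalize X w = M
          rw [mul_sum, sum_mul]
          refine sum_congr rfl fun y _ => ?_
          rw [sum_const, nsmul_eq_mul]
          simp only [tauV, conInd]
          ring
      _ ≤ _ := by gcongr; exact hX0 w
  have h1 := hkey w hwB
  have h2 : X w ≤ N / (1 - r) := by
    rw [le_div_iff₀ (by linarith)]
    nlinarith
  exact (hw o ho).trans h2

end Vale.Agent.P165.Prod
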