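import Vale.Agent.P165.Prod.Basic
import Vale.Agent.P165.Trees.Sprinkle

/-!
Sprinkling: raising `p` to `q` costs a term that is linear in the kernel at `q`, so a small
increment keeps the two-point matrix bounded, in the row-sum sense and on `ℓ²`.
-/

namespace Vale.Agent.P165.Prod

open Finset SimpleGraph
open scoped Classical

set_option linter.unusedSectionVars false
set_option linter.unusedVariables false

/-- Two rounds of percolation. -/
theorem expect_two {α : Type*} [DecidableEq α] {p r q : ℝ} (hq : p + (1 - p) * r = q)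
    (E : Finset α) (f : Finset α → ℝ) :
    expect q E f = expect p E fun ω => expect r E fun η => f (ω ∪ η) := by
  induction E using Finset.induction_on generalizing f with
  | empty => simp [expect_empty]
  | insert a E ha ih =>
    have h1 : ∀ ω, expect r (insert a E) (fun η => f (insert a ω ∪ η)) =
        expect r E (fun η => f (insert a (ω ∪ η))) := fun ω => by
      rw [expect_insert ha]
      simp only [insert_union, union_insert, insert_idem]
      ring
    have h2 : ∀ ω, expect r (insert a E) (fun η => f (ω ∪ η)) =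
        (1 - r) * expect r E (fun η => f (ω ∪ η)) +
          r * expect r E (fun η => f (insert a (ω ∪ η))) := fun ω => by
      rw [expect_insert ha]
      simp only [union_insert]
    rw [expect_insert ha, expect_insert ha, ih, ih]
    simp only [h1, h2, expect_add, expect_mul_left]
    rw [← hq]
    ring

/-- Increasing functions gain from further edges. -/
theorem expect_erase_le {α : Type*} [DecidableEq α] {p : ℝ} (hp0 : 0 ≤ p) (hp1 : p ≤ 1)
    {E : Finset α} (e : α) {f : Finset α → ℝ} (hf : Monotone f) :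
    expect p (E.erase e) f ≤ expect p E f := by
  by_cases he : e ∈ E
  · conv_rhs => rw [← insert_erase he, expect_insert (notMem_erase e E)]
    have h := expect_mono hp0 hp1 (E := E.erase e) (f := f) (g := fun ω => f (insert e ω))
      fun ω _ => hf (subset_insert e ω)
    nlinarith
  · rw [erase_eq_of_notMem he]

section Graph

variable {V : Type*} {G : SimpleGraph V} [G.LocallyFinite]

/-- The indicator that `x` and `y` are connected. -/
noncomputable def conn (x y : V) (ω : Finset (Sym2 V)) : ℝ :=
  if (og ω).Reachable x y then 1 else 0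

theorem monotone_conn (x y : V) : Monotone (conn x y) := fun a b hab => by
  unfold conn
  by_cases h : (og a).Reachable x y
  · rw [if_pos h, if_pos (h.mono (og_mono hab))]
  · rw [if_neg h]; split_ifs <;> norm_num

/-- A walk of open edges is open in any set containing its edges. -/
theorem reachable_of_edges {ω : Finset (Sym2 V)} {x y : V} {ζ : Finset (Sym2 V)}
    (P : (og ω).Walk x y) (h : ∀ e ∈ P.edges, e ∈ ζ) : (og ζ).Reachable x y :=
  ⟨P.transfer (og ζ) fun e he => by
    have h1 : e ∈ (og ω).edgeSet := P.edges_subset_edgeSet he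
    rw [og, edgeSet_fromEdgeSet] at h1 ⊢
    exact ⟨h e he, h1.2⟩⟩

/-- The first edge of a path that is not open in the first round. -/
theorem exists_first_new {S : Finset V} {ω η : Finset (Sym2 V)} (hω : ω ⊆ edgesIn G S)
    (hη : η ⊆ edgesIn G S) :
    ∀ {x y : V} (P : (og (ω ∪ η)).Walk x y), P.edges.Nodup → ¬ (og ω).Reachable x y →
      ∃ a ∈ S, ∃ b ∈ S, G.Adj a b ∧ s(a, b) ∈ η ∧ s(a, b) ∉ ω ∧
        ∃ c d : Finset (Sym2 V), c ⊆ ω ∧ d ⊆ ω ∧ Disjoint c d ∧
          (∀ e ∈ c ∪ d, e ∈ P.edges) ∧ (og c).Reachable x a ∧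
          (og (d ∪ η.erase s(a, b))).Reachable b y := by
  intro x y P
  induction P with
  | nil => exact fun _ h => absurd (Reachable.refl _) h
  | @cons u v w huv P ih =>
    intro hnd hnr
    rw [Walk.edges_cons, List.nodup_cons] at hnd
    obtain ⟨hm, hne⟩ := og_adj.1 huv
    by_cases hin : s(u, v) ∈ ω
    · have hnr' : ¬ (og ω).Reachable v w := fun h =>
        hnr (((og_adj.2 ⟨hin, hne⟩).reachable).trans h)
      obtain ⟨a, ha, b, hb, hab, heη, heω, c, d, hc, hd, hcd, hP, hxa, hby⟩ := ih hnd.2 hnr'
      refine ⟨a, ha, b, hb, hab, heη, heω, insert s(u, v) c, d, insert_subset hin hc, hd,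
        disjoint_insert_left.2 ⟨fun h => hnd.1 (hP _ (mem_union_right _ h)), hcd⟩, ?_,
        ((og_adj.2 ⟨mem_insert_self _ _, hne⟩).reachable).trans
          (hxa.mono (og_mono (subset_insert _ _))), hby⟩
      intro e he
      rw [Walk.edges_cons, List.mem_cons]
      rw [insert_union, mem_insert] at he
      exact he.imp_right (hP e)
    · have heη : s(u, v) ∈ η := (mem_union.1 hm).resolve_left hin
      obtain ⟨hadj, hu, hv⟩ := (mem_edgesIn G).1 (hη heη)
      refine ⟨u, hu, v, hv, hadj, heη, hin, ∅, ω.filter fun e => e ∈ P.edges, empty_subset _,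
        filter_subset _ _, disjoint_empty_left _, ?_, Reachable.refl _,
        reachable_of_edges P fun e he => ?_⟩
      · intro e he
        rw [empty_union, mem_filter] at he
        rw [Walk.edges_cons, List.mem_cons]
        exact Or.inr he.2
      · rw [mem_union]
        rcases mem_union.1 (og_edgeSet (P.edges_subset_edgeSet he)) with h | h
        · exact Or.inl (mem_filter.2 ⟨h, he⟩)
        · exact Or.inr (mem_erase.2 ⟨fun h' => hnd.1 (h' ▸ he), h⟩)

variable (G) in
/-- Entrywise sprinkling. -/
theorem tauV_sprinkle {p q : ℝ} (hp0 : 0 ≤ p) (hpq : p ≤ q) (hq1 : q ≤ 1) (S : Finset V)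
    (x y : V) :
    tauV G q S x y ≤ tauV G p S x y + (q - p) *
      ∑ a ∈ S, tauV G p S x a * ∑ b ∈ S, (if G.Adj a b then 1 else 0) * tauV G q S b y := by
  rcases eq_or_lt_of_le (hpq.trans hq1) with hp1 | hp1
  · have : q = p := le_antisymm (hq1.trans hp1.ge) hpq
    subst this
    simp
  set r : ℝ := (q - p) / (1 - p) with hr
  have hr0 : 0 ≤ r := div_nonneg (by linarith) (by linarith)
  have hr1 : r ≤ 1 := (div_le_one (by linarith)).2 (by linarith)
  have hmix : p + (1 - p) * r = q := by rw [hr]; field_simp; ring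
  set E := edgesIn G S with hE
  let A : V → Finset (Sym2 V) → Prop := fun a ξ => (og ξ).Reachable x a
  let B : V → V → Finset (Sym2 V) → Finset (Sym2 V) → Prop := fun a b η ξ =>
    (og (ξ ∪ η.erase s(a, b))).Reachable b y
  let N : V → V → Finset (Sym2 V) → Finset (Sym2 V) → ℝ := fun a b ω η =>
    if s(a, b) ∈ η then (if s(a, b) ∉ ω ∧ Disj (A a) (B a b η) ω then 1 else 0) else 0
  have hN0 : ∀ a b ω η, 0 ≤ N a b ω η := fun a b ω η => by
    simp only [N]; split_ifs <;> norm_num
  have hpt : ∀ ω, ω ⊆ E → ∀ η, η ⊆ E → conn x y (ω ∪ η) ≤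
      conn x y ω + ∑ a ∈ S, ∑ b ∈ S, if G.Adj a b then N a b ω η else 0 := by
    intro ω hω η hη
    have h0 : 0 ≤ ∑ a ∈ S, ∑ b ∈ S, if G.Adj a b then N a b ω η else 0 :=
      sum_nonneg fun a _ => sum_nonneg fun b _ => by
        split_ifs
        · exact hN0 _ _ _ _
        · exact le_rfl
    unfold conn
    by_cases h1 : (og ω).Reachable x y
    · rw [if_pos h1]; split_ifs <;> linarith
    rw [if_neg h1, zero_add]
    split_ifs with h2
    · obtain ⟨P⟩ := h2
      obtain ⟨a, ha, b, hb, hab, heη, heω, c, d, hc, hd, hcd, -, hxa, hby⟩ :=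
        exists_first_new hω hη P.bypass P.bypass_isPath.isTrail.edges_nodup h1
      have hNab : N a b ω η = 1 := by
        simp only [N]
        rw [if_pos heη, if_pos ⟨heω, c, d, hc, hd, hcd, hxa, hby⟩]
      calc (1 : ℝ) = if G.Adj a b then N a b ω η else 0 := by rw [if_pos hab, hNab]
        _ ≤ ∑ b' ∈ S, if G.Adj a b' then N a b' ω η else 0 :=
            single_le_sum (f := fun b' => if G.Adj a b' then N a b' ω η else 0)
              (fun b' _ => by split_ifs <;> first | exact hN0 _ _ _ _ | exact le_rfl) hb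
        _ ≤ _ := single_le_sum (f := fun a' => ∑ b' ∈ S, if G.Adj a' b' then N a' b' ω η else 0)
              (fun a' _ => sum_nonneg fun b' _ => by
                split_ifs <;> first | exact hN0 _ _ _ _ | exact le_rfl) ha
    · exact h0
  have hterm : ∀ a ∈ S, ∀ b ∈ S, G.Adj a b →
      expect p E (fun ω => expect r E (N a b ω)) ≤
        (q - p) * (tauV G p S x a * tauV G q S b y) := by
    intro a ha b hb hab
    set e := s(a, b) with he
    have heE : e ∈ E := (mem_edgesIn G).2 ⟨hab, ha, hb⟩
    have hne : e ∉ E.erase e := notMem_erase e E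
    let C : Finset (Sym2 V) → Finset (Sym2 V) → ℝ := fun ω η =>
      if Disj (A a) (fun ξ => (og (ξ ∪ η)).Reachable b y) ω then 1 else 0
    have hin : ∀ ω, expect r E (N a b ω) =
        if e ∈ ω then 0 else r * expect r (E.erase e) (C ω) := fun ω => by
      conv_lhs => rw [← insert_erase heE, expect_insert hne]
      have z : expect r (E.erase e) (N a b ω) = 0 := by
        rw [expect_congr (g := fun _ => (0 : ℝ)) fun η hη => by
          simp only [N, ← he]; rw [if_neg fun h => hne (hη h)], expect_const]
      rw [z, mul_zero, zero_add]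
      by_cases hω : e ∈ ω
      · rw [if_pos hω, expect_congr (g := fun _ => (0 : ℝ)) fun η _ => by
          simp only [N, ← he]; rw [if_pos (mem_insert_self e η), if_neg fun h => h.1 hω],
          expect_const, mul_zero]
      · rw [if_neg hω]
        congr 1
        refine expect_congr fun η hη => ?_
        simp only [N, B, C, ← he]
        rw [if_pos (mem_insert_self e η), erase_insert fun h => hne (hη h)]
        simp only [hω, not_false_eq_true, true_and]
    have hout : expect p E (fun ω => expect r E (N a b ω)) =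
        (1 - p) * r * expect p (E.erase e) (fun ω => expect r (E.erase e) (C ω)) := by
      simp only [hin]
      conv_lhs => rw [← insert_erase heE, expect_insert hne]
      rw [expect_congr (p := p) (E := E.erase e) (g := fun _ => (0 : ℝ))
          (f := fun ω => if e ∈ insert e ω then (0 : ℝ) else _) fun ω _ => if_pos (mem_insert_self e ω),
        expect_const, mul_zero, add_zero, mul_assoc (1 - p) r, ← expect_mul_left p _ r]
      congr 1
      exact expect_congr fun ω hω => by rw [if_neg fun h => hne (hω h), erase_insert hne]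
    rw [hout, show (1 - p) * r = q - p by linarith]
    refine mul_le_mul_of_nonneg_left ?_ (by linarith)
    calc expect p (E.erase e) (fun ω => expect r (E.erase e) (C ω))
        = expect r (E.erase e) (fun η => expect p (E.erase e) fun ω => C ω η) := by
          simp only [expect, mul_sum]
          rw [sum_comm]
          exact sum_congr rfl fun η _ => sum_congr rfl fun ω _ => by ring
      _ ≤ expect r (E.erase e) (fun η => expect p (E.erase e) (conn x a) *
            expect p (E.erase e) fun ω => conn b y (ω ∪ η)) :=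
          expect_mono hr0 hr1 fun η _ => by
            simp only [C, conn]
            exact expect_bk hp0 hp1.le _ (A a) (fun ξ => (og (ξ ∪ η)).Reachable b y)
              (monotone_reach x a) fun _ _ h => fun hh =>
                hh.mono (og_mono (union_subset_union h subset_rfl))
      _ = expect p (E.erase e) (conn x a) * expect q (E.erase e) (conn b y) := by
          rw [expect_mul_left, expect_two hmix]
          congr 1
          simp only [expect, mul_sum]
          rw [sum_comm]
          exact sum_congr rfl fun η _ => sum_congr rfl fun ω _ => by ring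
      _ ≤ tauV G p S x a * tauV G q S b y := by
          refine mul_le_mul (expect_erase_le hp0 hp1.le e (monotone_conn x a))
            (expect_erase_le (hp0.trans hpq) hq1 e (monotone_conn b y)) ?_ (tauV_nonneg G hp0 hp1.le S x a)
          exact expect_nonneg (hp0.trans hpq) hq1 fun ω _ => by unfold conn; split_ifs <;> norm_num
  have hτ : tauV G p S x y = expect p E (conn x y) := rfl
  calc tauV G q S x y = expect p E (fun ω => expect r E fun η => conn x y (ω ∪ η)) :=
        expect_two hmix E (conn x y)
    _ ≤ expect p E (fun ω => expect r E fun η =>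
          conn x y ω + ∑ a ∈ S, ∑ b ∈ S, if G.Adj a b then N a b ω η else 0) :=
        expect_mono hp0 hp1.le fun ω hω => expect_mono hr0 hr1 fun η hη => hpt ω hω η hη
    _ = tauV G p S x y + ∑ a ∈ S, ∑ b ∈ S,
          expect p E (fun ω => expect r E fun η => if G.Adj a b then N a b ω η else 0) := by
        simp only [expect_add, expect_sum, expect_const, ← hτ]
    _ ≤ tauV G p S x y + ∑ a ∈ S, ∑ b ∈ S,
          if G.Adj a b then (q - p) * (tauV G p S x a * tauV G q S b y) else 0 := by
        gcongr with a ha b hb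
        split_ifs with h
        · exact hterm a ha b hb h
        · simp only [expect_const, le_refl]
    _ = _ := by
        congr 1
        simp only [mul_sum]
        refine sum_congr rfl fun a _ => sum_congr rfl fun b _ => ?_
        split_ifs <;> ring

/-- Sprinkling keeps the row sums bounded. -/
theorem ChiLe.sprinkle {p q N : ℝ} {d : ℕ}
    (hd : ∀ (W : Finset V) x, ∑ y ∈ W, (if G.Adj x y then (1 : ℝ) else 0) ≤ d)
    (hp : 0 ≤ p) (hpq : p ≤ q) (hq : q ≤ 1) (hN : 0 ≤ N)
    (h : ChiLe G p N) (hs : (q - p) * d * N < 1) :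
    ChiLe G q (N / (1 - (q - p) * d * N)) := by
  intro W x hx
  obtain ⟨z, hz, hzmax⟩ := W.exists_max_image (chiV G q W) ⟨x, hx⟩
  have hp1 := hpq.trans hq
  have hq0 := hp.trans hpq
  have hm : 0 ≤ chiV G q W z := sum_nonneg fun y _ => tauV_nonneg G hq0 hq W z y
  have hstep : ∀ u ∈ W, chiV G q W u ≤ N + (q - p) * (N * (d * chiV G q W z)) := fun u hu => by
    calc chiV G q W u ≤ ∑ y ∈ W, (tauV G p W u y + (q - p) * ∑ a ∈ W, tauV G p W u a *
            ∑ b ∈ W, (if G.Adj a b then 1 else 0) * tauV G q W b y) :=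
          sum_le_sum fun y _ => tauV_sprinkle G hp hpq hq W u y
      _ = chiV G p W u + (q - p) * ∑ a ∈ W, tauV G p W u a *
            ∑ b ∈ W, (if G.Adj a b then 1 else 0) * chiV G q W b := by
          rw [sum_add_distrib, ← mul_sum]
          refine congrArg₂ (· + ·) rfl (congrArg _ ?_)
          rw [sum_comm]
          refine sum_congr rfl fun a _ => ?_
          rw [← mul_sum, sum_comm]
          simp only [chiV, mul_sum]
      _ ≤ N + (q - p) * ∑ a ∈ W, tauV G p W u a * (d * chiV G q W z) := by
          refine add_le_add (h W u hu) (mul_le_mul_of_nonneg_left ?_ (by linarith))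
          refine sum_le_sum fun a _ => mul_le_mul_of_nonneg_left ?_ (tauV_nonneg G hp hp1 W u a)
          refine le_trans (sum_le_sum fun b hb => mul_le_mul_of_nonneg_left (hzmax b hb)
            (by split_ifs <;> norm_num)) ?_
          rw [← sum_mul]
          exact mul_le_mul_of_nonneg_right (hd W a) hm
      _ ≤ N + (q - p) * (N * (d * chiV G q W z)) := by
          rw [← sum_mul]
          exact add_le_add le_rfl (mul_le_mul_of_nonneg_left
            (mul_le_mul_of_nonneg_right (h W u hu) (by positivity)) (by linarith))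
  refine (hzmax x hx).trans ?_
  rw [le_div_iff₀ (by linarith)]
  linarith [hstep z hz]

theorem app_sq_le_of_opLe {p N : ℝ} (hp : 0 ≤ p) (hp1 : p ≤ 1) (h : OpLe G p N) (W : Finset V)
    (u : V → ℝ) (hu : ∀ y, 0 ≤ u y) :
    ∑ x ∈ W, Trees.app W (tauV G p W) u x ^ 2 ≤ N ^ 2 * ∑ x ∈ W, u x ^ 2 := by
  have hK : ∀ x y, 0 ≤ tauV G p W x y := tauV_nonneg G hp hp1 W
  refine Trees.app_sq_le_of_pairing _ hK (fun a b ha hb => ?_) u hu
  have hab := h W b a hb ha
  have h0 : 0 ≤ ∑ x ∈ W, b x * Trees.app W (tauV G p W) a x :=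
    sum_nonneg fun x _ => mul_nonneg (hb x) (Trees.app_nonneg hK ha x)
  have he : ∑ x ∈ W, b x * Trees.app W (tauV G p W) a x =
      ∑ x ∈ W, ∑ y ∈ W, b x * tauV G p W x y * a y := by
    simp only [Trees.app, mul_sum, mul_assoc]
  calc _ ≤ (N * Real.sqrt (∑ x ∈ W, b x ^ 2) * Real.sqrt (∑ x ∈ W, a x ^ 2)) ^ 2 :=
        pow_le_pow_left₀ h0 (he.le.trans hab) 2
    _ = _ := by
        rw [mul_pow, mul_pow, Real.sq_sqrt (sum_nonneg fun x _ => sq_nonneg _),
          Real.sq_sqrt (sum_nonneg fun x _ => sq_nonneg _)]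
        ring

/-- Sprinkling keeps the two-point matrix bounded on `ℓ²`. -/
theorem OpLe.sprinkle {p q N : ℝ} {d : ℕ}
    (hd : ∀ (W : Finset V) x, ∑ y ∈ W, (if G.Adj x y then (1 : ℝ) else 0) ≤ d)
    (hp : 0 ≤ p) (hpq : p ≤ q) (hq : q ≤ 1) (hN : 0 ≤ N)
    (h : OpLe G p N) (hs : (q - p) * d * N < 1) :
    OpLe G q (N / (1 - (q - p) * d * N)) := by
  intro W f g hf hg
  have hp1 := hpq.trans hq
  have hden : (q - p) * N * d = (q - p) * d * N := mul_right_comm _ _ _
  have hmain := Trees.sprinkle_le (T := W) (tauV G p W) (tauV G q W)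
    (fun a b => if G.Adj a b then 1 else 0) (tauV_nonneg G hp hp1 W)
    (tauV_nonneg G (hp.trans hpq) hq W)
    (fun a b => by split_ifs <;> norm_num) (c := q - p) (d := (d : ℝ)) (M := N)
    (by linarith) (Nat.cast_nonneg _) hN (by linarith)
    (hd W) (fun y => by simpa only [G.adj_comm] using hd W y) (app_sq_le_of_opLe hp hp1 h W)
    (fun x _ y _ => tauV_sprinkle G hp hpq hq W x y) g hg
  rw [hden] at hmain
  calc ∑ x ∈ W, ∑ y ∈ W, f x * tauV G q W x y * g y
      = ∑ x ∈ W, f x * Trees.app W (tauV G q W) g x := by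
        simp only [Trees.app, mul_sum, mul_assoc]
    _ ≤ Real.sqrt (∑ x ∈ W, f x ^ 2) *
          Real.sqrt (∑ x ∈ W, Trees.app W (tauV G q W) g x ^ 2) :=
        Real.sum_mul_le_sqrt_mul_sqrt W _ _
    _ ≤ Real.sqrt (∑ x ∈ W, f x ^ 2) *
          (N / (1 - (q - p) * d * N) * Real.sqrt (∑ x ∈ W, g x ^ 2)) := by
        refine mul_le_mul_of_nonneg_left ?_ (Real.sqrt_nonneg _)
        rw [Real.sqrt_le_iff, mul_pow, Real.sq_sqrt (sum_nonneg fun x _ => sq_nonneg _)]
        exact ⟨mul_nonneg (div_nonneg hN (by linarith)) (Real.sqrt_nonneg _), hmain⟩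
    _ = _ := by ring

end Graph

section Cayley

variable {Γ : Type} [Group Γ] [Infinite Γ] (S : Finset Γ) [(mulCayley (S : Set Γ)).LocallyFinite]
  (hS : ∀ s ∈ S, s⁻¹ ∈ S) (h1 : (1 : Γ) ∉ S) (hgen : Subgroup.closure (S : Set Γ) = ⊤)

include hS in
theorem adj_row_le (W : Finset Γ) (x : Γ) :
    ∑ y ∈ W, (if (mulCayley (S : Set Γ)).Adj x y then (1 : ℝ) else 0) ≤ S.card := by
  rw [sum_boole]
  refine Nat.cast_le.2 (card_le_card_of_injOn (fun y => x⁻¹ * y) (fun y hy => ?_)
    (mul_right_injective x⁻¹).injOn)
  rcases ((mulCayley_adj _ _ _).1 (mem_filter.1 hy).2).2 with h | h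
  · exact h
  · simpa using hS _ h

include hS h1 hgen

/-- Sprinkling keeps the row sums bounded. -/
theorem sprinkle_chi {p q N : ℝ} (hp : 0 ≤ p) (hpq : p ≤ q) (hq : q ≤ 1) (hN : 0 ≤ N)
    (h : ChiLe (mulCayley (S : Set Γ)) p N) (hs : (q - p) * S.card * N < 1) :
    ChiLe (mulCayley (S : Set Γ)) q (N / (1 - (q - p) * S.card * N)) :=
  h.sprinkle (fun W x => by convert adj_row_le S hS W x) hp hpq hq hN hs

/-- Sprinkling keeps the two-point matrix bounded on `ℓ²`. -/
theorem sprinkle_op {p q N : ℝ} (hp : 0 ≤ p) (hpq : p ≤ q) (hq : q ≤ 1) (hN : 0 ≤ N)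
    (h : OpLe (mulCayley (S : Set Γ)) p N) (hs : (q - p) * S.card * N < 1) :
    OpLe (mulCayley (S : Set Γ)) q (N / (1 - (q - p) * S.card * N)) :=
  h.sprinkle (fun W x => by convert adj_row_le S hS W x) hp hpq hq hN hs

end Cayley

end Vale.Agent.P165.Prod
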