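import Mathlib

/-!
A finitely generated subgroup of a product of free groups with nonabelian coordinate images is a
full subdirect subgroup of such a product: replace each factor by the coordinate image and keep a
minimal set of coordinates on which the projection is injective.
-/

namespace Vale.Agent.P165.Prod

open scoped Classical

/-- A finitely generated free group has finitely many free generators. -/
theorem finite_of_fg_freeGroup {X : Type*} [hfg : Group.FG (FreeGroup X)] : Finite X := by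
  obtain ⟨S, hS⟩ := hfg.out
  by_contra hX
  rw [not_finite_iff_infinite] at hX
  obtain ⟨x, hx⟩ := Infinite.exists_notMem_finset
    (S.biUnion fun g => (g.toWord.map Prod.fst).toFinset)
  let f : FreeGroup X →* Multiplicative ℤ :=
    FreeGroup.lift fun y => Multiplicative.ofAdd (if y = x then 1 else 0)
  have key : ∀ L : List (X × Bool), (∀ a ∈ L, a.1 ≠ x) → f (FreeGroup.mk L) = 1 := by
    intro L hL
    rw [FreeGroup.lift_mk]
    refine List.prod_eq_one fun z hz => ?_
    obtain ⟨⟨y, b⟩, hyb, rfl⟩ := List.mem_map.1 hz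
    have : y ≠ x := hL (y, b) hyb
    cases b <;> simp [this]
  have hle : Subgroup.closure (S : Set (FreeGroup X)) ≤ f.ker := by
    refine (Subgroup.closure_le _).2 fun g hg => MonoidHom.mem_ker.2 ?_
    rw [← FreeGroup.mk_toWord (x := g)]
    refine key _ fun a ha e => hx (Finset.mem_biUnion.2 ⟨g, hg, ?_⟩)
    rw [List.mem_toFinset, ← e]
    exact List.mem_map_of_mem ha
  rw [hS] at hle
  have := hle (Subgroup.mem_top (FreeGroup.of x))
  simp [f, MonoidHom.mem_ker] at this

/-- A finitely generated nonabelian free group is a free group on at least two letters. -/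
theorem exists_free_fin {P : Type} [Group P] [IsFreeGroup P] [Group.FG P]
    (hna : ∃ a b : P, a * b ≠ b * a) :
    ∃ n, 2 ≤ n ∧ Nonempty (P ≃* FreeGroup (Fin n)) := by
  have : Group.FG (FreeGroup (IsFreeGroup.Generators P)) :=
    Group.fg_of_surjective (f := (IsFreeGroup.toFreeGroup P).toMonoidHom)
      (IsFreeGroup.toFreeGroup P).surjective
  have := finite_of_fg_freeGroup (X := IsFreeGroup.Generators P)
  obtain ⟨n, ⟨e⟩⟩ := Finite.exists_equiv_fin (IsFreeGroup.Generators P)
  let E : P ≃* FreeGroup (Fin n) :=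
    (IsFreeGroup.toFreeGroup P).trans (FreeGroup.freeGroupCongr e)
  refine ⟨n, ?_, ⟨E⟩⟩
  by_contra hn
  obtain ⟨a, b, hab⟩ := hna
  refine hab (E.injective ?_)
  rw [map_mul, map_mul]
  rcases (show n = 0 ∨ n = 1 by omega) with rfl | rfl
  · exact Subsingleton.elim _ _
  · exact (FreeGroup.mulEquivIntOfUnique (α := Fin 1)).injective (by
      rw [map_mul, map_mul, mul_comm])

/-- Reduction to full subdirect subgroups. -/
theorem exists_full_embedding (G : Type) [Group G] [Group.FG G] [Nontrivial G] {ι : Type}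
    [Fintype ι] (m : ι → ℕ) (φ : G →* ∀ i, FreeGroup (Fin (m i))) (hφ : Function.Injective φ)
    (hna : ∀ i, ∃ a b, φ a i * φ b i ≠ φ b i * φ a i) :
    ∃ (κ : Type) (_ : Fintype κ) (k : κ → ℕ) (ψ : G →* ∀ i, FreeGroup (Fin (k i))),
      Nonempty κ ∧ Function.Injective ψ ∧ (∀ i, 2 ≤ k i) ∧
        ∀ i, ∃ n : FreeGroup (Fin (k i)), n ≠ 1 ∧ ∀ c, Pi.mulSingle i (c * n * c⁻¹) ∈ ψ.range := by
  let P : Finset ι → Prop := fun S => ∀ g, (∀ i ∈ S, φ g i = 1) → g = 1
  have huniv : P Finset.univ := fun g hg =>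
    hφ (by rw [map_one]; exact funext fun i => hg i (Finset.mem_univ i))
  obtain ⟨S, hS, hmin⟩ := Finset.exists_min_image
    (Finset.univ.filter fun S : Finset ι => P S) Finset.card ⟨_, by simpa using huniv⟩
  simp only [Finset.mem_filter, Finset.mem_univ, true_and] at hS hmin
  let p : ∀ i : S, G →* FreeGroup (Fin (m i)) := fun i => (Pi.evalMonoidHom _ i.1).comp φ
  have hex : ∀ i : S, ∃ n, 2 ≤ n ∧ Nonempty ((p i).range ≃* FreeGroup (Fin n)) := by
    intro i
    obtain ⟨a, b, hab⟩ := hna i.1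
    exact exists_free_fin ⟨⟨p i a, a, rfl⟩, ⟨p i b, b, rfl⟩, fun h => hab (congrArg Subtype.val h)⟩
  choose k hk e using hex
  let ψ : G →* ∀ i : S, FreeGroup (Fin (k i)) :=
    MonoidHom.mk' (fun g i => (e i).some ((p i).rangeRestrict g))
      fun a b => funext fun i => by simp only [map_mul, Pi.mul_apply]
  have hψ1 : ∀ (g : G) (i : S), ψ g i = 1 ↔ φ g i.1 = 1 := fun g i => by
    rw [show ψ g i = (e i).some ((p i).rangeRestrict g) from rfl, EmbeddingLike.map_eq_one_iff,
      ← Subtype.val_inj]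
    rfl
  refine ⟨S, inferInstance, k, ψ, ?_, ?_, hk, fun i => ?_⟩
  · obtain ⟨g, hg⟩ := exists_ne (1 : G)
    by_contra hne
    exact hg (hS g fun i hi => absurd ⟨⟨i, hi⟩⟩ hne)
  · exact (injective_iff_map_eq_one ψ).2 fun g hg =>
      hS g fun i hi => (hψ1 g ⟨i, hi⟩).1 (congrFun hg _)
  · have hnot : ¬ P (S.erase i.1) := fun h =>
      absurd (hmin _ h) (not_le.2 (Finset.card_erase_lt_of_mem i.2))
    simp only [P, not_forall] at hnot
    obtain ⟨g, hg, hg1⟩ := hnot
    have hgi : ψ g i ≠ 1 := fun h => hg1 (hS g fun j hj => by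
      rcases eq_or_ne j i.1 with rfl | hji
      · exact (hψ1 g i).1 h
      · exact hg j (Finset.mem_erase.2 ⟨hji, hj⟩))
    refine ⟨ψ g i, hgi, fun c => ?_⟩
    obtain ⟨y, hy⟩ := (e i).some.surjective c
    obtain ⟨a, ha⟩ := y.2
    have hc : ψ a i = c := by
      rw [show ψ a i = (e i).some ((p i).rangeRestrict a) from rfl,
        show (p i).rangeRestrict a = y from Subtype.ext ha, hy]
    refine ⟨a * g * a⁻¹, funext fun j => ?_⟩
    by_cases hji : j = i
    · subst hji
      simp only [Pi.mulSingle, Function.update, dite_true]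
      rw [← hc]
      simp only [map_mul, map_inv, Pi.mul_apply, Pi.inv_apply]
    · have hgj : φ g j.1 = 1 := hg j.1 (Finset.mem_erase.2 ⟨fun h => hji (Subtype.ext h), j.2⟩)
      have hψj : ψ g j = 1 := (hψ1 g j).2 hgj
      simp only [map_mul, map_inv, Pi.mul_apply, Pi.inv_apply, hψj, mul_one, mul_inv_cancel]
      simp [Pi.mulSingle, Function.update, hji]

/-- The same for a finitely generated subgroup with trivial centre: coordinates with abelian
image can be dropped. -/
theorem exists_full_embedding_of_center (G : Type) [Group G] [Group.FG G] [Nontrivial G]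
    {ι : Type} [Fintype ι] (m : ι → ℕ) (φ : G →* ∀ i, FreeGroup (Fin (m i)))
    (hφ : Function.Injective φ) (hZ : ∀ z : G, (∀ a, z * a = a * z) → z = 1) :
    ∃ (κ : Type) (_ : Fintype κ) (k : κ → ℕ) (ψ : G →* ∀ i, FreeGroup (Fin (k i))),
      Nonempty κ ∧ Function.Injective ψ ∧ (∀ i, 2 ≤ k i) ∧
        ∀ i, ∃ n : FreeGroup (Fin (k i)), n ≠ 1 ∧ ∀ c, Pi.mulSingle i (c * n * c⁻¹) ∈ ψ.range := by
  let φ' : G →* ∀ i : {i // ∃ a b, φ a i * φ b i ≠ φ b i * φ a i}, FreeGroup (Fin (m i.1)) :=
    MonoidHom.mk' (fun g i => φ g i.1) fun a b => funext fun i => by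
      simp only [map_mul, Pi.mul_apply]
  refine exists_full_embedding G (fun i : {i // ∃ a b, φ a i * φ b i ≠ φ b i * φ a i} => m i.1)
    φ' ((injective_iff_map_eq_one φ').2 fun g hg => hZ g fun a => hφ (funext fun i => ?_))
    fun i => i.2
  simp only [map_mul, Pi.mul_apply]
  by_cases hi : ∃ a b, φ a i * φ b i ≠ φ b i * φ a i
  · have h1 : φ g i = 1 := congrFun hg ⟨i, hi⟩
    rw [h1, one_mul, mul_one]
  · simp only [not_exists, ne_eq, not_not] at hi
    exact hi g a

end Vale.Agent.P165.Prod
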