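import Mathlib

/-!
Metric toolkit for trees: the neighbour towards a vertex, betweenness, branch points and the
points of a geodesic.
-/

namespace Vale.Agent.P165.TreeMetric

open SimpleGraph
open scoped Classical

variable {V : Type*} {T : SimpleGraph V}

/-- The neighbour of `o` one step towards `x` (`o` itself if there is none). -/
noncomputable def nb (T : SimpleGraph V) (o x : V) : V :=
  if h : ∃ a, T.Adj o a ∧ T.dist a x + 1 = T.dist o x then h.choose else o

/-- `v` lies between `o` and `x`. -/
def Between (T : SimpleGraph V) (o v x : V) : Prop := T.dist o v + T.dist v x = T.dist o x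

/-- The point at distance `k` on the geodesic from `o` to `x`, frozen at `x`. -/
noncomputable def pt (T : SimpleGraph V) (o x : V) : ℕ → V
  | 0 => o
  | k + 1 => nb T (pt T o x k) x

theorem nb_spec (hT : T.IsTree) {o x : V} (h : o ≠ x) :
    T.Adj o (nb T o x) ∧ T.dist (nb T o x) x + 1 = T.dist o x := by
  have he : ∃ a, T.Adj o a ∧ T.dist a x + 1 = T.dist o x := by
    obtain ⟨p, hp⟩ := hT.connected.exists_walk_length_eq_dist o x
    cases p with
    | nil => exact absurd rfl h
    | @cons _ a _ ha q =>
      refine ⟨a, ha, ?_⟩
      have h1 : T.dist a x ≤ q.length := dist_le q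
      have h2 := hT.connected.dist_triangle (u := o) (v := a) (w := x)
      have h3 : T.dist o a = 1 := dist_eq_one_iff_adj.2 ha
      simp only [Walk.length_cons] at hp
      omega
  rw [nb, dif_pos he]
  exact he.choose_spec

theorem nb_self (o : V) : nb T o o = o := by
  rw [nb, dif_neg]
  rintro ⟨a, -, h⟩
  simp at h

theorem nb_eq (hT : T.IsTree) {o x a : V} (ha : T.Adj o a)
    (hd : T.dist a x + 1 = T.dist o x) : nb T o x = a := by
  have hne : o ≠ x := by
    rintro rfl
    simp at hd
  obtain ⟨hb, hbd⟩ := nb_spec hT hne
  obtain ⟨p, hp⟩ := hT.connected.exists_walk_length_eq_dist a x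
  obtain ⟨q, hq⟩ := hT.connected.exists_walk_length_eq_dist (nb T o x) x
  have h1 : (Walk.cons ha p).IsPath :=
    Walk.isPath_of_length_eq_dist _ (by rw [Walk.length_cons]; omega)
  have h2 : (Walk.cons hb q).IsPath :=
    Walk.isPath_of_length_eq_dist _ (by rw [Walk.length_cons]; omega)
  have h3 := (hT.existsUnique_path o x).unique h1 h2
  have h4 := congrArg (fun w => w.getVert 1) h3
  simpa using h4.symm

theorem adj_dist (hT : T.IsTree) {a b : V} (h : T.Adj a b) (x : V) :
    T.dist a x = T.dist b x + 1 ∨ T.dist b x = T.dist a x + 1 := by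
  rw [dist_comm (u := a), dist_comm (u := b)]
  exact hT.dist_eq_dist_add_one_of_adj x h

theorem btw_left (o x : V) : Between T o o x := by simp [Between]

theorem btw_right (o x : V) : Between T o x x := by simp [Between]

theorem Between.symm {o v x : V} (h : Between T o v x) : Between T x v o := by
  simp only [Between, dist_comm (u := x), dist_comm (u := v) (v := o)] at h ⊢
  omega

theorem Between.trans_left (hT : T.IsTree) {o u v x : V} (h : Between T o v x) (h' : Between T o u v) :
    Between T o u x ∧ Between T u v x := by
  have h1 := hT.connected.dist_triangle (u := u) (v := v) (w := x)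
  have h2 := hT.connected.dist_triangle (u := o) (v := u) (w := x)
  unfold Between at *
  omega

theorem nb_btw (hT : T.IsTree) {o v x : V} (h : Between T o v x) (hv : v ≠ o) :
    nb T o x = nb T o v := by
  obtain ⟨ha, hd⟩ := nb_spec hT (Ne.symm hv)
  refine nb_eq hT ha ?_
  have h1 := hT.connected.dist_triangle (u := nb T o v) (v := v) (w := x)
  have h2 := hT.connected.dist_triangle (u := o) (v := nb T o v) (w := x)
  have h3 : T.dist o (nb T o v) = 1 := dist_eq_one_iff_adj.2 ha
  unfold Between at h
  omega

theorem btw_nb (hT : T.IsTree) {o x : V} (h : o ≠ x) : Between T o (nb T o x) x := by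
  obtain ⟨ha, hd⟩ := nb_spec hT h
  have h3 : T.dist o (nb T o x) = 1 := dist_eq_one_iff_adj.2 ha
  unfold Between
  omega

/-- Different directions at `b`: `b` lies between. -/
theorem btw_of_nb_ne (hT : T.IsTree) {b x y : V} (h : nb T b x ≠ nb T b y) : Between T x b y := by
  suffices H : ∀ n, ∀ y, T.dist b y = n → nb T b x ≠ nb T b y →
      T.dist x y = T.dist x b + T.dist b y by
    unfold Between
    rw [H _ y rfl h]
  intro n
  induction n with
  | zero =>
    intro y hy _
    rw [(hT.connected.dist_eq_zero_iff).1 hy]
    simp
  | succ n ih =>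
    intro y hy hne
    have hby : y ≠ b := by
      rintro rfl
      simp at hy
    obtain ⟨ha, hd⟩ := nb_spec hT hby
    rw [dist_comm (u := y) (v := b), dist_comm (v := b)] at hd
    set z := nb T y b with hz
    have hzy : Between T b z y := by
      have h3 : T.dist z y = 1 := dist_eq_one_iff_adj.2 ha.symm
      unfold Between
      omega
    rcases eq_or_ne z b with hzb | hzb
    · rw [hzb] at ha
      have hyb : T.dist b y = 1 := dist_eq_one_iff_adj.2 ha.symm
      have hyy : nb T b y = y := nb_eq hT ha.symm (by simp [hyb])
      rcases adj_dist hT ha.symm x with h1 | h1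
      · exact absurd ((nb_eq hT ha.symm (x := x) h1.symm).trans hyy.symm) hne
      · rw [dist_comm (u := x), dist_comm (u := x), h1, hyb]
    · have hdir : nb T b y = nb T b z := nb_btw hT hzy hzb
      have hIH := ih z (by omega) (fun e => hne (e.trans hdir.symm))
      rcases adj_dist hT ha x with h1 | h1
      · rw [dist_comm (u := x), dist_comm (u := x) (v := b)] at *
        omega
      · exfalso
        obtain ⟨hw, hwd⟩ := nb_spec hT hzb
        have h3 := hT.connected.dist_triangle (u := x) (v := b) (w := nb T z b)
        have hwy : nb T z b ≠ y := by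
          intro e
          rw [e, dist_comm (u := y), dist_comm (u := z)] at hwd
          omega
        refine hwy ((nb_eq hT hw (x := x) ?_).symm.trans (nb_eq hT ha.symm h1.symm))
        rcases adj_dist hT hw x with h5 | h5
        · exact h5.symm
        · rw [dist_comm (u := nb T z b) (v := b), dist_comm (u := z) (v := b)] at hwd
          rw [dist_comm (u := x) (v := nb T z b), dist_comm (u := x) (v := z)] at *
          omega

theorem btw_unique (hT : T.IsTree) {o x v v' : V} (h : Between T o v x) (h' : Between T o v' x)
    (hd : T.dist o v = T.dist o v') : v = v' := by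
  suffices H : ∀ n, ∀ o, Between T o v x → Between T o v' x → T.dist o v = n → T.dist o v' = n → v = v' by
    exact H _ o h h' rfl hd.symm
  intro n
  induction n with
  | zero =>
    intro o _ _ h1 h2
    rw [← (hT.connected.dist_eq_zero_iff).1 h1, ← (hT.connected.dist_eq_zero_iff).1 h2]
  | succ n ih =>
    intro o hb hb' h1 h2
    have hv : v ≠ o := by rintro rfl; simp at h1
    have hv' : v' ≠ o := by rintro rfl; simp at h2
    have e : nb T o v = nb T o v' := (nb_btw hT hb hv).symm.trans (nb_btw hT hb' hv')
    obtain ⟨ha, hda⟩ := nb_spec hT (Ne.symm hv)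
    obtain ⟨-, hda'⟩ := nb_spec hT (Ne.symm hv')
    rw [← e] at hda'
    exact ih _ (hb.trans_left hT (btw_nb hT (Ne.symm hv))).2
      ((hb'.trans_left hT (e ▸ btw_nb hT (Ne.symm hv'))).2) (by omega) (by omega)

theorem pt_zero (o x : V) : pt T o x 0 = o := rfl

theorem pt_spec (hT : T.IsTree) (o x : V) {k : ℕ} (hk : k ≤ T.dist o x) :
    Between T o (pt T o x k) x ∧ T.dist o (pt T o x k) = k := by
  induction k with
  | zero => exact ⟨btw_left o x, by simp [pt_zero]⟩
  | succ k ih =>
    obtain ⟨hb, hd⟩ := ih (by omega)
    have hne : pt T o x k ≠ x := by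
      intro e
      rw [e] at hd
      omega
    obtain ⟨ha, hda⟩ := nb_spec hT hne
    have h3 : T.dist (pt T o x k) (nb T (pt T o x k) x) = 1 := dist_eq_one_iff_adj.2 ha
    have h4 := hT.connected.dist_triangle (u := o) (v := pt T o x k) (w := pt T o x (k + 1))
    have h5 := hT.connected.dist_triangle (u := o) (v := pt T o x (k + 1)) (w := x)
    unfold Between at *
    simp only [pt] at *
    omega

theorem eq_pt (hT : T.IsTree) {o x v : V} (h : Between T o v x) :
    v = pt T o x (T.dist o v) := by
  have hk : T.dist o v ≤ T.dist o x := by unfold Between at h; omega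
  obtain ⟨hb, hd⟩ := pt_spec hT o x hk
  exact btw_unique hT h hb hd.symm

theorem pt_mono (hT : T.IsTree) {o v x : V} (h : Between T o v x) {k : ℕ} (hk : k ≤ T.dist o v) :
    pt T o x k = pt T o v k := by
  obtain ⟨hb, hd⟩ := pt_spec hT o v hk
  have := eq_pt hT (h.trans_left hT hb).1
  rw [hd] at this
  exact this.symm

theorem pt_one (o x : V) : pt T o x 1 = nb T o x := rfl

theorem pt_symm (hT : T.IsTree) (o x : V) {k : ℕ} (hk : k ≤ T.dist o x) :
    pt T x o k = pt T o x (T.dist o x - k) := by
  have hk' : k ≤ T.dist x o := by rwa [dist_comm]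
  obtain ⟨hb, hd⟩ := pt_spec hT x o hk'
  have h := eq_pt hT hb.symm
  have hh : T.dist o (pt T x o k) = T.dist o x - k := by
    unfold Between at hb
    rw [dist_comm (u := pt T x o k) (v := o), hd, dist_comm (u := x) (v := o)] at hb
    omega
  rwa [hh] at h

/-- The branch point of three vertices. -/
theorem exists_branch (hT : T.IsTree) (o x y : V) :
    ∃ c, Between T o c x ∧ Between T o c y ∧ Between T x c y := by
  suffices H : ∀ n, ∀ o, T.dist o x = n → ∃ c, Between T o c x ∧ Between T o c y ∧ Between T x c y from
    H _ o rfl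
  intro n
  induction n with
  | zero =>
    intro o h
    obtain rfl := (hT.connected.dist_eq_zero_iff).1 h
    exact ⟨o, btw_left o o, btw_left o y, btw_left o y⟩
  | succ n ih =>
    intro o h
    have hox : o ≠ x := by rintro rfl; simp at h
    by_cases he : nb T o x = nb T o y
    · have hoy : o ≠ y := by
        intro e
        rw [← e, nb_self] at he
        exact (nb_spec hT hox).1.ne he.symm
      obtain ⟨hax, hdx⟩ := nb_spec hT hox
      obtain ⟨c, h1, h2, h3⟩ := ih (nb T o x) (by omega)
      obtain ⟨-, hdy⟩ := nb_spec hT hoy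
      rw [← he] at hdy
      have h4 := hT.connected.dist_triangle (u := o) (v := nb T o x) (w := c)
      have h5 := hT.connected.dist_triangle (u := o) (v := c) (w := x)
      have h6 := hT.connected.dist_triangle (u := o) (v := c) (w := y)
      have h7 : T.dist o (nb T o x) = 1 := dist_eq_one_iff_adj.2 hax
      refine ⟨c, ?_, ?_, h3⟩
      · unfold Between at *; omega
      · unfold Between at *; omega
    · exact ⟨o, btw_left o x, btw_left o y, btw_of_nb_ne hT he⟩

section Map

variable {W : Type*} {T' : SimpleGraph W}

theorem dist_map_le (f : T →g T') {a b : V} (h : T.Reachable a b) :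
    T'.dist (f a) (f b) ≤ T.dist a b := by
  obtain ⟨p, hp⟩ := h.exists_walk_length_eq_dist
  rw [← hp, ← Walk.length_map f p]
  exact dist_le _

end Map

end Vale.Agent.P165.TreeMetric
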