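import Vale.Agent.P165.Prod.Tree

/-!
Groups acting freely with finitely many orbits on products of regular trees: the notions used to
build half-spaces, labels and forbidden directions.
-/

namespace Vale.Agent.P165.TreeAct

open SimpleGraph Vale.Agent.P165.TreeMetric
open scoped Classical

set_option linter.unusedSectionVars false

variable {Γ : Type} [Group Γ] {ι : Type} [Fintype ι] {V : ι → Type} [∀ i, MulAction Γ (V i)]

/-- A free action with finitely many orbits on a product of regular trees of degree at least 3. -/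
structure TreeLattice (T : ∀ i, SimpleGraph (V i)) (k : ι → ℕ) : Prop where
  tree : ∀ i, (T i).IsTree
  three_le : ∀ i, 3 ≤ k i
  regular : ∀ i v, ((T i).neighborSet v).ncard = k i
  adj : ∀ (g : Γ) i u v, (T i).Adj u v → (T i).Adj (g • u) (g • v)
  free : ∀ (g : Γ) (x : ∀ i, V i), (∀ i, g • x i = x i) → g = 1
  cofinite : ∃ F : Finset (∀ i, V i), ∀ x : ∀ i, V i, ∃ g : Γ, (fun i => g • x i) ∈ F

variable (T : ∀ i, SimpleGraph (V i)) (o : ∀ i, V i)

theorem dist_smul (hadj : ∀ (g : Γ) i u v, (T i).Adj u v → (T i).Adj (g • u) (g • v))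
    (hconn : ∀ i, (T i).Connected) (g : Γ) (i : ι) (a b : V i) :
    (T i).dist (g • a) (g • b) = (T i).dist a b := by
  have key : ∀ (h : Γ) (a b : V i), (T i).dist (h • a) (h • b) ≤ (T i).dist a b := fun h a b =>
    dist_map_le (⟨fun v => h • v, fun {u v} e => hadj h i u v e⟩ : T i →g T i) (hconn i a b)
  refine le_antisymm (key g a b) ?_
  simpa using key g⁻¹ (g • a) (g • b)

theorem btw_smul (hadj : ∀ (g : Γ) i u v, (T i).Adj u v → (T i).Adj (g • u) (g • v))
    (hconn : ∀ i, (T i).Connected) (g : Γ) (i : ι) {a v b : V i} (h : Between (T i) a v b) :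
    Between (T i) (g • a) (g • v) (g • b) := by
  unfold Between at *
  simpa [dist_smul T hadj hconn] using h

/-- The branch point of `o`, `g • o` and `(g * w) • o`. -/
noncomputable def br (g w : Γ) (i : ι) : V i :=
  if h : ∃ c, Between (T i) (o i) c (g • o i) ∧ Between (T i) (o i) c ((g * w) • o i) ∧
      Between (T i) (g • o i) c ((g * w) • o i) then h.choose else o i

theorem br_spec (hT : ∀ i, (T i).IsTree) (g w : Γ) (i : ι) :
    Between (T i) (o i) (br T o g w i) (g • o i) ∧
      Between (T i) (o i) (br T o g w i) ((g * w) • o i) ∧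
      Between (T i) (g • o i) (br T o g w i) ((g * w) • o i) := by
  have h := exists_branch (hT i) (o i) (g • o i) ((g * w) • o i)
  rw [br, dif_pos h]
  exact h.choose_spec

/-- The pieces: in each tree either `g • o` is close (`some (true, g • o)`), or the branch point is
close (`some (false, branch point)`), or both are farther than `hi` (`none`). -/
def Piece (lo hi : ℕ) (l : ∀ i, Option (Bool × V i)) (g w : Γ) : Prop :=
  ∀ i, (l i = none ∧ hi < (T i).dist (o i) (g • o i) ∧ hi < (T i).dist (o i) (br T o g w i)) ∨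
    (l i = some (true, g • o i) ∧ (T i).dist (o i) (g • o i) ≤ lo) ∨
    (l i = some (false, br T o g w i) ∧ hi < (T i).dist (o i) (g • o i) ∧
      (T i).dist (o i) (br T o g w i) ≤ lo)

/-- The key of `g`: the point at distance `hi` towards `g • o` in the trees of type `none`. -/
noncomputable def key (hi : ℕ) (l : ∀ i, Option (Bool × V i)) (g : Γ) (i : ι) : V i :=
  if l i = none then pt (T i) (o i) (g • o i) hi else o i

/-- Backward directions at the root of short shifts fixing the root in all other kinds of trees. -/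
def backSet (lo hi : ℕ) (l : ∀ i, Option (Bool × V i)) (g w : Γ) (i : ι) : Set (V i) :=
  {b | ∃ g' : Γ, Piece T o lo hi l g' w ∧ key T o hi l g = key T o hi l g' ∧
    (∀ j, 8 * (T j).dist (o j) ((g * g'⁻¹) • o j) + 8 ≤ hi) ∧
    (∀ j, l j ≠ none → (g * g'⁻¹) • o j = o j) ∧
    (g * g'⁻¹) • o i ≠ o i ∧ b = nb (T i) (o i) ((g * g'⁻¹) • o i) ∧
    b ≠ nb (T i) (o i) (g • o i)}

/-- At most two forbidden directions at the root of each tree. -/
noncomputable def forb (lo hi : ℕ) (l : ∀ i, Option (Bool × V i)) (g w : Γ) (i : ι) :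
    Finset (V i) :=
  {nb (T i) (o i) (g • o i),
    if l i = none then
      (if h : (backSet T o lo hi l g w i).Nonempty then h.choose
        else nb (T i) (o i) (g • o i))
    else nb (T i) (o i) ((g * w) • o i)}

theorem forb_card (lo hi : ℕ) (l : ∀ i, Option (Bool × V i)) (g w : Γ) (i : ι) :
    (forb T o lo hi l g w i).card ≤ 2 :=
  Finset.card_le_two

end Vale.Agent.P165.TreeAct
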