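import Vale.Agent.P165.Prod.TreeAct

/-!
Spheres in regular trees, and finitely many elements moving every point of a product of trees into
prescribed directions at the root.
-/

namespace Vale.Agent.P165.TreeAct

open SimpleGraph Vale.Agent.P165.TreeMetric
open scoped Classical

set_option linter.unusedSectionVars false

section OneTree

variable {W : Type*} {T : SimpleGraph W} {k : ℕ}

theorem ball_finite (hT : T.IsTree) (hfin : ∀ v, (T.neighborSet v).Finite) (x : W) (r : ℕ) :
    {y : W | T.dist x y ≤ r}.Finite := by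
  induction r generalizing x with
  | zero =>
    refine (Set.finite_singleton x).subset fun y hy => ?_
    exact ((hT.connected.dist_eq_zero_iff).1 (Nat.le_zero.1 hy)).symm
  | succ r ih =>
    refine ((Set.finite_singleton x).union ((hfin x).biUnion fun a _ => ih a)).subset fun y hy => ?_
    by_cases hxy : x = y
    · exact Or.inl hxy.symm
    · obtain ⟨ha, hd⟩ := nb_spec hT hxy
      have hy' : T.dist x y ≤ r + 1 := hy
      refine Or.inr (Set.mem_iUnion₂.2 ⟨nb T x y, ha, ?_⟩)
      show T.dist (nb T x y) y ≤ r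
      omega

theorem parent_mem (hT : T.IsTree) {o y : W} {n : ℕ} (hy : T.dist o y = n + 1) :
    T.Adj y (nb T y o) ∧ T.dist o (nb T y o) = n := by
  have hne : y ≠ o := by rintro rfl; simp at hy
  obtain ⟨ha, hd⟩ := nb_spec hT hne
  refine ⟨ha, ?_⟩
  rw [dist_comm (u := nb T y o), dist_comm (u := y) (v := o)] at hd
  omega

theorem child_spec (hT : T.IsTree) {o z a : W} (ha : T.Adj z a) (hne : a ≠ nb T z o) :
    T.dist o a = T.dist o z + 1 ∧ nb T a o = z := by
  rcases adj_dist hT ha o with h | h
  · exact absurd (nb_eq hT ha h.symm).symm hne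
  · refine ⟨by rw [dist_comm (u := o), dist_comm (u := o) (v := z)]; omega, nb_eq hT ha.symm h.symm⟩

variable (hT : T.IsTree) (h3 : 3 ≤ k) (hreg : ∀ v, (T.neighborSet v).ncard = k)
include hT h3 hreg

theorem nbhd_finite (v : W) : (T.neighborSet v).Finite :=
  Set.finite_of_ncard_ne_zero (by rw [hreg v]; omega)

theorem sphere_le (o : W) (n : ℕ) : {y : W | T.dist o y = n}.ncard ≤ k * (k - 1) ^ n := by
  have hnf := nbhd_finite hT h3 hreg
  have hfin : ∀ m, {y : W | T.dist o y = m}.Finite := fun m =>
    (ball_finite hT hnf o m).subset fun y hy => by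
      have hy' : T.dist o y = m := hy
      show T.dist o y ≤ m
      omega
  induction n with
  | zero =>
    have hs : {y : W | T.dist o y = 0} ⊆ {o} := fun y hy =>
      ((hT.connected.dist_eq_zero_iff).1 hy).symm
    refine (Set.ncard_le_ncard hs (Set.finite_singleton o)).trans ?_
    rw [Set.ncard_singleton, pow_zero]
    omega
  | succ n ih =>
    rcases Nat.eq_zero_or_pos n with rfl | hn
    · refine (Set.ncard_le_ncard (t := T.neighborSet o) (fun y hy => ?_) (hnf o)).trans ?_
      · exact dist_eq_one_iff_adj.1 hy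
      · rw [hreg o]
        exact Nat.le_mul_of_pos_right k (Nat.pow_pos (by omega))
    · calc {y : W | T.dist o y = n + 1}.ncard
          = (hfin (n + 1)).toFinset.card := Set.ncard_eq_toFinset_card _ _
        _ ≤ (k - 1) * (hfin n).toFinset.card := by
          refine Finset.card_le_mul_card_image_of_maps_to (f := fun y => nb T y o) (fun y hy => ?_) _
            fun z hz => ?_
          · rw [Set.Finite.mem_toFinset] at hy ⊢
            exact (parent_mem hT hy).2
          · rw [Set.Finite.mem_toFinset] at hz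
            have hz' : T.dist o z = n := hz
            have hzo : z ≠ o := by rintro rfl; simp at hz'; omega
            obtain ⟨hp, -⟩ := nb_spec hT hzo
            rw [← Set.ncard_coe_finset]
            refine (Set.ncard_le_ncard (t := T.neighborSet z \ {nb T z o}) (fun y hy => ?_)
              (hnf z).sdiff).trans ?_
            · simp only [Finset.coe_filter, Set.Finite.mem_toFinset, Set.mem_ofPred_eq] at hy
              obtain ⟨ha, hd⟩ := parent_mem hT hy.1
              rw [hy.2] at ha
              refine ⟨ha.symm, fun e => ?_⟩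
              have e' : y = nb T z o := e
              have h1 := (nb_spec hT hzo).2
              rw [← e', dist_comm (u := y), dist_comm (u := z) (v := o)] at h1
              omega
            · rw [Set.ncard_sdiff_singleton_of_mem (show nb T z o ∈ T.neighborSet z from hp), hreg z]
        _ ≤ (k - 1) * (k * (k - 1) ^ n) := by
          rw [← Set.ncard_eq_toFinset_card _ (hfin n)]
          exact Nat.mul_le_mul_left _ ih
        _ = k * (k - 1) ^ (n + 1) := by ring

theorem ball_le (o : W) (n : ℕ) : {y : W | T.dist o y ≤ n}.ncard ≤ 2 * k * (k - 1) ^ n := by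
  induction n with
  | zero =>
    have h := sphere_le hT h3 hreg o 0
    have e : {y : W | T.dist o y ≤ 0} = {y : W | T.dist o y = 0} := by ext y; simp
    rw [e, pow_zero] at *
    omega
  | succ n ih =>
    have hs : {y : W | T.dist o y ≤ n + 1} =
        {y : W | T.dist o y ≤ n} ∪ {y : W | T.dist o y = n + 1} := by
      ext y
      simp only [Set.mem_union, Set.mem_ofPred_eq]
      omega
    have h := sphere_le hT h3 hreg o (n + 1)
    have h2 := Set.ncard_union_le {y : W | T.dist o y ≤ n} {y : W | T.dist o y = n + 1}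
    have h4 : 2 * (k * (k - 1) ^ n) ≤ k * (k - 1) ^ (n + 1) := by
      rw [pow_succ, ← mul_assoc k, mul_comm 2]
      exact Nat.mul_le_mul_left _ (by omega)
    rw [hs]
    have e1 : 2 * k * (k - 1) ^ n = 2 * (k * (k - 1) ^ n) := by ring
    have e2 : 2 * k * (k - 1) ^ (n + 1) = 2 * (k * (k - 1) ^ (n + 1)) := by ring
    omega

theorem shadow_ge {o d : W} (hd : T.Adj o d) (n : ℕ) :
    ∃ Z : Finset W, (k - 1) ^ n ≤ Z.card ∧
      ∀ z ∈ Z, T.dist o z = n + 1 ∧ nb T o z = d := by
  induction n with
  | zero =>
    refine ⟨{d}, by simp, fun z hz => ?_⟩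
    rw [Finset.mem_singleton.1 hz]
    exact ⟨dist_eq_one_iff_adj.2 hd, nb_eq hT hd (by simp [dist_eq_one_iff_adj.2 hd])⟩
  | succ n ih =>
    obtain ⟨Z, hZ, hmem⟩ := ih
    have hnf := nbhd_finite hT h3 hreg
    set C : W → Finset W := fun z => (hnf z).toFinset.erase (nb T z o)
    have hne : ∀ z ∈ Z, z ≠ o := fun z hz e => by simpa [e] using (hmem z hz).1
    have hC : ∀ z ∈ Z, ∀ a ∈ C z, T.Adj z a ∧ T.dist o a = T.dist o z + 1 ∧ nb T a o = z := by
      intro z _ a ha
      obtain ⟨h1, h2⟩ := Finset.mem_erase.1 ha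
      rw [Set.Finite.mem_toFinset] at h2
      exact ⟨h2, child_spec hT h2 h1⟩
    refine ⟨Z.biUnion C, ?_, fun a ha => ?_⟩
    · have hdis : (Z : Set W).PairwiseDisjoint C := by
        intro z hz z' hz' hzz'
        refine Finset.disjoint_left.2 fun a ha ha' => hzz' ?_
        rw [← (hC z hz a ha).2.2, (hC z' hz' a ha').2.2]
      rw [Finset.card_biUnion hdis, Finset.sum_congr rfl fun z hz => ?_, Finset.sum_const,
        smul_eq_mul, pow_succ]
      · exact Nat.mul_le_mul_right _ hZ
      · show (C z).card = k - 1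
        rw [Finset.card_erase_of_mem, ← Set.ncard_eq_toFinset_card _ (hnf z), hreg z]
        rw [Set.Finite.mem_toFinset]
        exact (nb_spec hT (hne z hz)).1
    · obtain ⟨z, hz, ha⟩ := Finset.mem_biUnion.1 ha
      obtain ⟨hza, hd1, -⟩ := hC z hz a ha
      obtain ⟨h1, h2⟩ := hmem z hz
      refine ⟨by omega, ?_⟩
      have hb : Between T o z a := by
        have h5 : T.dist z a = 1 := dist_eq_one_iff_adj.2 hza
        unfold Between
        omega
      rw [nb_btw hT hb (hne z hz), h2]

end OneTree

variable {Γ : Type} [Group Γ] {ι : Type} [Fintype ι] {V : ι → Type} [∀ i, MulAction Γ (V i)]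
  {T : ∀ i, SimpleGraph (V i)} {k : ι → ℕ}

theorem tree_ball_finite (hL : TreeLattice (Γ := Γ) T k) (i : ι) (x : V i) (r : ℕ) :
    {y : V i | (T i).dist x y ≤ r}.Finite :=
  ball_finite (hL.tree i) (nbhd_finite (hL.tree i) (hL.three_le i) (hL.regular i)) x r

theorem tree_lattice_infinite [Nonempty ι] (hL : TreeLattice (Γ := Γ) T k) : Infinite Γ := by
  by_contra hinf
  have : Finite Γ := not_infinite_iff_finite.1 hinf
  obtain ⟨F, hF⟩ := hL.cofinite
  have hfin : Finite (∀ i, V i) := by
    refine Finite.of_surjective (fun q : Γ × F => fun i => q.1 • q.2.1 i) fun x => ?_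
    obtain ⟨g, hg⟩ := hF x
    exact ⟨(g⁻¹, ⟨_, hg⟩), funext fun i => inv_smul_smul g (x i)⟩
  obtain ⟨i⟩ := ‹Nonempty ι›
  have : ∀ j, Nonempty (V j) := fun j => (hL.tree j).connected.nonempty
  have : Finite (V i) := Finite.of_surjective (fun x : ∀ j, V j => x i) fun v =>
    ⟨Function.update (fun j => Classical.arbitrary (V j)) i v, by simp⟩
  have : Fintype (V i) := Fintype.ofFinite _
  have h3 := hL.three_le i
  set o := Classical.arbitrary (V i)
  obtain ⟨d, hd⟩ : ((T i).neighborSet o).Nonempty :=
    Set.nonempty_of_ncard_ne_zero (by rw [hL.regular i o]; omega)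
  obtain ⟨Z, hZ, -⟩ := shadow_ge (hL.tree i) h3 (hL.regular i) hd (Fintype.card (V i))
  have h1 := Nat.lt_pow_self (n := Fintype.card (V i)) (show 1 < k i - 1 by omega)
  have h2 := Finset.card_le_univ Z
  omega

/-- Finitely many elements move every point of the product into the prescribed directions. -/
theorem tree_cover (hL : TreeLattice (Γ := Γ) T k) (o D : ∀ i, V i)
    (hD : ∀ i, (T i).Adj (o i) (D i)) :
    ∃ Tf : Finset Γ, ∀ x : ∀ i, V i, ∃ v ∈ Tf,
      ∀ i, v • x i ≠ o i ∧ nb (T i) (o i) (v • x i) = D i := by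
  obtain ⟨F, hF⟩ := hL.cofinite
  have hconn : ∀ i, (T i).Connected := fun i => (hL.tree i).connected
  set R := F.sup fun f => Finset.univ.sup fun i => (T i).dist (o i) (f i)
  have hR : ∀ f ∈ F, ∀ i, (T i).dist (o i) (f i) ≤ R := fun f hf i =>
    (Finset.le_sup (f := fun i => (T i).dist (o i) (f i)) (Finset.mem_univ i)).trans
      (Finset.le_sup (f := fun f => Finset.univ.sup fun i => (T i).dist (o i) (f i)) hf)
  -- the constants of the count
  set P := ∏ j, (2 * k j * (k j - 1) ^ (R + 1))
  set N := F.card * Fintype.card ι * (2 * R + 1) * P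
  set n := R + N
  choose Z hZc hZ using fun i => shadow_ge (hL.tree i) (hL.three_le i) (hL.regular i) (hD i) n
  choose g hg using hF
  refine ⟨(Fintype.piFinset Z).image fun z => (g z)⁻¹, fun x => ?_⟩
  set S := (Fintype.piFinset Z).image fun z => (g z)⁻¹
  have hS : ∀ v ∈ S, ∀ i, v • o i ≠ o i ∧ nb (T i) (o i) (v • o i) = D i ∧
      n + 1 ≤ (T i).dist (o i) (v • o i) + R ∧ (T i).dist (o i) (v • o i) ≤ n + 1 + R := by
    intro v hv i
    obtain ⟨z, hz, rfl⟩ := Finset.mem_image.1 hv
    obtain ⟨h1, h2⟩ := hZ i (z i) (Fintype.mem_piFinset.1 hz i)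
    have h4 : (T i).dist ((g z)⁻¹ • o i) (z i) ≤ R := by
      have := dist_smul T hL.adj hconn (g z)⁻¹ i (o i) (g z • z i)
      rw [inv_smul_smul] at this
      rw [this]
      exact hR _ (hg z) i
    have t1 := (hconn i).dist_triangle (u := o i) (v := (g z)⁻¹ • o i) (w := z i)
    have t2 := (hconn i).dist_triangle (u := o i) (v := z i) (w := (g z)⁻¹ • o i)
    have hcomm : (T i).dist (z i) ((g z)⁻¹ • o i) = (T i).dist ((g z)⁻¹ • o i) (z i) := dist_comm
    refine ⟨fun e => ?_, ?_, by omega, by omega⟩
    · rw [e] at h4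
      omega
    · by_contra hne
      rw [← h2] at hne
      have hb := btw_of_nb_ne (hL.tree i) hne
      unfold Between at hb
      omega
  -- a failure puts a translate of the root on a segment
  by_contra hbad
  push Not at hbad
  set A : ι → Finset (∀ j, V j) := fun i => Fintype.piFinset fun j =>
    if j = i then (Finset.range (2 * R + 1)).image
      fun t => pt (T j) (o j) (x j) (n + 1 - R + t)
    else (tree_ball_finite hL j (o j) (n + 1 + R)).toFinset
  have hmaps : ∀ v ∈ S, (fun j => v⁻¹ • o j) ∈ Finset.univ.biUnion A := by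
    intro v hv
    obtain ⟨i, hi⟩ := hbad v hv
    refine Finset.mem_biUnion.2 ⟨i, Finset.mem_univ i, Fintype.mem_piFinset.2 fun j => ?_⟩
    obtain ⟨-, -, h3, h4⟩ := hS v hv j
    have hd : (T j).dist (o j) (v⁻¹ • o j) = (T j).dist (o j) (v • o j) := by
      rw [← dist_smul T hL.adj hconn v j (o j) (v⁻¹ • o j), smul_inv_smul, dist_comm]
    by_cases hji : j = i
    · subst hji
      rw [if_pos rfl]
      obtain ⟨-, h6, -, -⟩ := hS v hv j
      have hb : Between (T j) (o j) (v⁻¹ • o j) (x j) := by
        have hb' : Between (T j) (v • o j) (o j) (v • x j) := by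
          by_cases e : v • x j = o j
          · rw [e]; exact btw_right _ _
          · exact btw_of_nb_ne (hL.tree j) (by rw [h6]; exact (hi e).symm)
        have := btw_smul T hL.adj hconn v⁻¹ j hb'
        rwa [inv_smul_smul, inv_smul_smul] at this
      refine Finset.mem_image.2 ⟨(T j).dist (o j) (v • o j) - (n + 1 - R),
        Finset.mem_range.2 (by omega), ?_⟩
      rw [eq_pt (hL.tree j) hb, hd]
      congr 1
      omega
    · rw [if_neg hji, Set.Finite.mem_toFinset]
      show (T j).dist (o j) (v⁻¹ • o j) ≤ n + 1 + R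
      omega
  have hinj : Set.InjOn (fun v : Γ => fun j => v⁻¹ • o j) S := by
    intro v _ w _ h
    have h1 := hL.free (v * w⁻¹) o fun j => by
      have h' : v⁻¹ • o j = w⁻¹ • o j := congrFun h j
      rw [mul_smul, ← h', smul_inv_smul]
    exact mul_inv_eq_one.1 h1
  have hup : S.card ≤ ∑ i, (A i).card :=
    (Finset.card_le_card_of_injOn _ hmaps hinj).trans Finset.card_biUnion_le
  have hlow : ∏ j, (k j - 1) ^ n ≤ F.card * S.card := by
    refine (Finset.prod_le_prod' fun j _ => hZc j).trans ?_
    rw [← Fintype.card_piFinset]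
    refine Finset.card_le_mul_card_image_of_maps_to (f := fun z => (g z)⁻¹)
      (fun z hz => Finset.mem_image.2 ⟨z, hz, rfl⟩) _ fun v _ => ?_
    refine Finset.card_le_card_of_injOn (fun z j => g z • z j) (fun z _ => hg z) ?_
    intro z hz z' hz' h
    simp only [Finset.coe_filter, Set.mem_ofPred_eq] at hz hz'
    funext j
    have e1 := congrFun h j
    simp only [inv_inj.1 (hz.2.trans hz'.2.symm)] at e1
    exact smul_left_cancel _ e1
  have hA : ∀ i, (k i - 1) ^ n * (A i).card ≤ (2 * R + 1) * P * ∏ j, (k j - 1) ^ n := by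
    intro i
    have hki := hL.three_le i
    have hball : ∀ j, (tree_ball_finite hL j (o j) (n + 1 + R)).toFinset.card ≤
        2 * k j * (k j - 1) ^ (R + 1) * (k j - 1) ^ n := fun j => by
      rw [← Set.ncard_eq_toFinset_card _ (tree_ball_finite hL j (o j) (n + 1 + R))]
      refine (ball_le (hL.tree j) (hL.three_le j) (hL.regular j) (o j) _).trans (le_of_eq ?_)
      rw [show n + 1 + R = R + 1 + n by omega, pow_add]
      ring
    simp only [A, Fintype.card_piFinset]
    rw [← Finset.mul_prod_erase _ _ (Finset.mem_univ i),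
      ← Finset.mul_prod_erase Finset.univ (fun j => (k j - 1) ^ n) (Finset.mem_univ i), if_pos rfl]
    have h1 : ∀ j ∈ Finset.univ.erase i, (if j = i then (Finset.range (2 * R + 1)).image
        fun t => pt (T j) (o j) (x j) (n + 1 - R + t)
        else (tree_ball_finite hL j (o j) (n + 1 + R)).toFinset).card ≤
          2 * k j * (k j - 1) ^ (R + 1) * (k j - 1) ^ n := fun j hj => by
      rw [if_neg (Finset.ne_of_mem_erase hj)]
      exact hball j
    have h2 : ∏ j ∈ Finset.univ.erase i, (2 * k j * (k j - 1) ^ (R + 1)) ≤ P :=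
      Finset.prod_le_prod_of_subset_of_one_le' (Finset.subset_univ _) fun j _ _ => by
        have := hL.three_le j
        exact Nat.one_le_iff_ne_zero.2 (Nat.mul_ne_zero (by omega) (pow_ne_zero _ (by omega)))
    calc (k i - 1) ^ n * (((Finset.range (2 * R + 1)).image
            fun t => pt (T i) (o i) (x i) (n + 1 - R + t)).card *
          ∏ j ∈ Finset.univ.erase i, (if j = i then (Finset.range (2 * R + 1)).image
            fun t => pt (T j) (o j) (x j) (n + 1 - R + t)
            else (tree_ball_finite hL j (o j) (n + 1 + R)).toFinset).card)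
        ≤ (k i - 1) ^ n * ((2 * R + 1) * (P * ∏ j ∈ Finset.univ.erase i, (k j - 1) ^ n)) := by
          refine Nat.mul_le_mul_left _ (Nat.mul_le_mul (Finset.card_image_le.trans (by simp)) ?_)
          refine (Finset.prod_le_prod' h1).trans ?_
          rw [Finset.prod_mul_distrib]
          exact Nat.mul_le_mul_right _ h2
      _ = (2 * R + 1) * P * ((k i - 1) ^ n * ∏ j ∈ Finset.univ.erase i, (k j - 1) ^ n) := by ring
  -- compare
  have hι : Nonempty ι := by
    by_contra he
    obtain ⟨v, hv⟩ : S.Nonempty := by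
      refine Finset.Nonempty.image ⟨fun i => (he ⟨i⟩).elim, Fintype.mem_piFinset.2 fun i => (he ⟨i⟩).elim⟩ _
    obtain ⟨i, -⟩ := hbad v hv
    exact he ⟨i⟩
  have hbig : ∀ i, N < (k i - 1) ^ n := fun i =>
    lt_of_lt_of_le (Nat.lt_pow_self (by have := hL.three_le i; omega))
      (Nat.pow_le_pow_right (by have := hL.three_le i; omega) (Nat.le_add_left N R))
  set X := ∏ j, (k j - 1) ^ n
  have hX : 0 < X := Finset.prod_pos fun j _ => Nat.pow_pos (by have := hL.three_le j; omega)
  have h5 : ∀ i, (N + 1) * (A i).card ≤ (2 * R + 1) * P * X := fun i =>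
    (Nat.mul_le_mul_right _ (hbig i)).trans (hA i)
  have h7 : ∑ i, (N + 1) * (A i).card ≤ Fintype.card ι * ((2 * R + 1) * P * X) := by
    rw [← Finset.card_univ]
    simpa using Finset.sum_le_sum fun i (_ : i ∈ Finset.univ) => h5 i
  have h6 : (N + 1) * X ≤ N * X :=
    calc (N + 1) * X ≤ (N + 1) * (F.card * S.card) := Nat.mul_le_mul_left _ hlow
      _ ≤ (N + 1) * (F.card * ∑ i, (A i).card) := by gcongr
      _ = F.card * ∑ i, (N + 1) * (A i).card := by rw [← Finset.mul_sum]; ring
      _ ≤ F.card * (Fintype.card ι * ((2 * R + 1) * P * X)) := Nat.mul_le_mul_left _ h7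
      _ = N * X := by simp only [N]; ring
  exact absurd (Nat.le_of_mul_le_mul_right h6 hX) (by omega)

end Vale.Agent.P165.TreeAct
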