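import Vale.Agent.P165.Prod.TreeAct

/-!
Two elements of one piece with the same key differ by an element whose direction at the root is
forbidden in some tree.
-/

namespace Vale.Agent.P165.TreeAct

open SimpleGraph Vale.Agent.P165.TreeMetric
open scoped Classical

section Metric

variable {W : Type*} {G : SimpleGraph W}

/-- An isometry sending `P'` to `P` shifts the common initial segment of the geodesics from `o` to
`P` and to `P'`. -/
theorem shift_pt (hG : G.IsTree) (f : W → W) (hf : ∀ a b, G.dist (f a) (f b) = G.dist a b)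
    {o P P' c : W} (hP : f P' = P) {hi : ℕ} (hn : hi ≤ G.dist o P) (hn' : hi ≤ G.dist o P')
    (hH : pt G o P hi = pt G o P' hi) (hc : Between G o c P) (hc' : Between G (f o) c P)
    {k : ℕ} (hk : G.dist (f o) c ≤ k) (hk' : k ≤ hi) :
    f (pt G o P k) = pt G o P (k + G.dist o c - G.dist (f o) c) := by
  obtain ⟨hb, hd⟩ := pt_spec hG o P hn
  obtain ⟨hb', hd'⟩ := pt_spec hG o P' hn'
  have e : pt G o P k = pt G o P' k := by
    rw [pt_mono hG hb (by omega), pt_mono hG hb' (by omega), hH]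
  obtain ⟨hx, hxd⟩ := pt_spec hG o P' (le_trans hk' hn')
  have hbx : Between G (f o) (f (pt G o P' k)) P := by
    unfold Between at *
    rw [← hP, hf, hf, hf]
    exact hx
  have hkx : G.dist (f o) (f (pt G o P' k)) = k := by rw [hf, hxd]
  have hm : G.dist P (f (pt G o P' k)) ≤ G.dist P c := by
    rw [G.dist_comm (u := P), G.dist_comm (u := P) (v := c)]
    unfold Between at hbx hc'
    omega
  have hmo : G.dist P (f (pt G o P' k)) ≤ G.dist o P := by
    rw [G.dist_comm (u := P) (v := c)] at hm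
    unfold Between at hc
    omega
  rw [e, eq_pt hG hbx.symm, pt_mono hG hc'.symm hm, ← pt_mono hG hc.symm hm, pt_symm hG o P hmo]
  congr 1
  rw [G.dist_comm (u := P)] at hmo ⊢
  unfold Between at hbx hc hc'
  omega

/-- An isometry sending `P'` to `P` with backward direction at `o`. -/
theorem back_pt (hG : G.IsTree) (f : W → W) (hf : ∀ a b, G.dist (f a) (f b) = G.dist a b)
    {o P P' : W} (hP : f P' = P) {hi : ℕ} (hn : hi ≤ G.dist o P) (hn' : hi ≤ G.dist o P')
    (hH : pt G o P hi = pt G o P' hi) (hd : 1 ≤ G.dist o (f o))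
    (hdh : G.dist o (f o) ≤ hi) (hne : nb G o (f o) ≠ nb G o P) :
    f (pt G o P (G.dist o (f o) - 1)) = nb G o (f o) ∧
      ∀ k, G.dist o (f o) ≤ k → k ≤ hi →
        f (pt G o P k) = pt G o P (k - G.dist o (f o)) := by
  have hbo : Between G (f o) o P := btw_of_nb_ne hG hne
  refine ⟨?_, fun k hk hk' => ?_⟩
  · obtain ⟨hb, hd0⟩ := pt_spec hG o P hn
    obtain ⟨hb', hd0'⟩ := pt_spec hG o P' hn'
    have e : pt G o P (G.dist o (f o) - 1) = pt G o P' (G.dist o (f o) - 1) := by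
      rw [pt_mono hG hb (by omega), pt_mono hG hb' (by omega), hH]
    obtain ⟨hx, hxd⟩ := pt_spec hG o P' (k := G.dist o (f o) - 1) (by omega)
    have hbx : Between G (f o) (f (pt G o P' (G.dist o (f o) - 1))) P := by
      unfold Between at *
      rw [← hP, hf, hf, hf]
      exact hx
    have hkx : G.dist (f o) (f (pt G o P' (G.dist o (f o) - 1))) = G.dist o (f o) - 1 := by
      rw [hf, hxd]
    have hlen : G.dist P (f (pt G o P' (G.dist o (f o) - 1))) = G.dist P o + 1 := by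
      rw [G.dist_comm (u := P), G.dist_comm (u := P) (v := o)]
      unfold Between at hbx hbo
      rw [G.dist_comm (u := f o) (v := o)] at hbo
      omega
    rw [e, eq_pt hG hbx.symm, hlen]
    show nb G (pt G P (f o) (G.dist P o)) (f o) = _
    rw [← eq_pt hG hbo.symm]
  · have h := shift_pt hG f hf hP hn hn' hH (btw_left o P) hbo (k := k)
      (by rwa [G.dist_comm]) hk'
    rw [h, dist_self, G.dist_comm (u := f o) (v := o), add_zero]

end Metric

variable {Γ : Type} [Group Γ] {ι : Type} [Fintype ι] {V : ι → Type} [∀ i, MulAction Γ (V i)]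
  {T : ∀ i, SimpleGraph (V i)} {k : ι → ℕ}

/-- In a tree of kind other than `none` the difference of two members of a piece points towards
one of the two forbidden directions. -/
theorem forb_of_some (hL : TreeLattice (Γ := Γ) T k) (o : ∀ i, V i) {lo hi : ℕ}
    {l : ∀ i, Option (Bool × V i)} {g g' w : Γ} (hg : Piece T o lo hi l g w)
    (hg' : Piece T o lo hi l g' w) {i : ι} (hl : l i ≠ none)
    (hq : (g * g'⁻¹) • o i ≠ o i) :
    nb (T i) (o i) ((g * g'⁻¹) • o i) ∈ forb T o lo hi l g w i := by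
  have hT := hL.tree i
  have hf : ∀ a b, (T i).dist ((g * g'⁻¹) • a) ((g * g'⁻¹) • b) = (T i).dist a b :=
    dist_smul T hL.adj (fun j => (hL.tree j).connected) (g * g'⁻¹) i
  have hpos : (T i).dist ((g * g'⁻¹) • o i) (o i) ≠ 0 := fun e =>
    hq (hT.connected.dist_eq_zero_iff.1 e)
  have e1 : (g * g'⁻¹) • (g' • o i) = g • o i := by rw [← mul_smul, inv_mul_cancel_right]
  have e2 : (g * g'⁻¹) • ((g' * w) • o i) = (g * w) • o i := by
    rw [← mul_smul]
    congr 1
    group
  simp only [forb, if_neg hl, Finset.mem_insert, Finset.mem_singleton]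
  by_contra hcon
  rw [not_or] at hcon
  have b1 := btw_of_nb_ne hT hcon.1
  have b2 := btw_of_nb_ne hT hcon.2
  rcases hg i with ⟨h, -, -⟩ | ⟨hlg, -⟩ | ⟨hlg, -, -⟩
  · exact hl h
  · rcases hg' i with ⟨h, -, -⟩ | ⟨hlg', -⟩ | ⟨hlg', -, -⟩
    · exact hl h
    · have e : g • o i = g' • o i := by
        rw [hlg] at hlg'
        simpa using hlg'
      have h1 := hf (o i) (g' • o i)
      rw [e1, ← e] at h1
      unfold Between at b1
      omega
    · rw [hlg] at hlg'
      simp at hlg'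
  · rcases hg' i with ⟨h, -, -⟩ | ⟨hlg', -⟩ | ⟨hlg', -, -⟩
    · exact hl h
    · rw [hlg] at hlg'
      simp at hlg'
    · have e : br T o g w i = br T o g' w i := by
        rw [hlg] at hlg'
        simpa using hlg'
      obtain ⟨s1, s2, s3⟩ := br_spec T o hL.tree g w i
      obtain ⟨t1, t2, t3⟩ := br_spec T o hL.tree g' w i
      rw [← e] at t1 t2 t3
      have h1 := hf (o i) (g' • o i)
      have h2 := hf (o i) ((g' * w) • o i)
      have h3 := hf (g' • o i) ((g' * w) • o i)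
      rw [e1] at h1 h3
      rw [e2] at h2 h3
      have d1 := (T i).dist_comm (u := g • o i) (v := br T o g w i)
      have d2 := (T i).dist_comm (u := g' • o i) (v := br T o g w i)
      unfold Between at b1 b2 s1 s2 s3 t1 t2 t3
      omega

/-- Two backward directions of short shifts coincide. -/
theorem backSet_subsingleton (hL : TreeLattice (Γ := Γ) T k) (o : ∀ i, V i) {lo hi : ℕ}
    {l : ∀ i, Option (Bool × V i)} {g w : Γ} (hg : Piece T o lo hi l g w) {i : ι}
    (hli : l i = none) : (backSet T o lo hi l g w i).Subsingleton := by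
  rintro b ⟨g₁, hp₁, hk₁, hs₁, hf₁, hq₁, hb₁, hn₁⟩ b' ⟨g₂, hp₂, hk₂, hs₂, hf₂, hq₂, hb₂, hn₂⟩
  subst hb₁ hb₂
  have hiso := dist_smul T hL.adj (fun j => (hL.tree j).connected)
  have hfar : ∀ {h : Γ}, Piece T o lo hi l h w → ∀ {j : ι}, l j = none →
      hi ≤ (T j).dist (o j) (h • o j) := by
    intro h hh j hj
    rcases hh j with ⟨-, h1, -⟩ | ⟨h1, -⟩ | ⟨h1, -, -⟩
    · exact h1.le
    · simp [hj] at h1
    · simp [hj] at h1
  have hmap : ∀ (h : Γ) (j : ι), (g * h⁻¹) • (h • o j) = g • o j := fun h j => by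
    rw [← mul_smul, inv_mul_cancel_right]
  have hkey : ∀ {h : Γ}, key T o hi l g = key T o hi l h → ∀ {j : ι}, l j = none →
      pt (T j) (o j) (g • o j) hi = pt (T j) (o j) (h • o j) hi := by
    intro h hh j hj
    simpa [key, hj] using congrFun hh j
  have hsh : ∀ {h : Γ}, Piece T o lo hi l h w → key T o hi l g = key T o hi l h → ∀ {j : ι},
      l j = none → ∃ a a', a + a' = (T j).dist (o j) ((g * h⁻¹) • o j) ∧
        ∀ m, a' ≤ m → m ≤ hi → (g * h⁻¹) • pt (T j) (o j) (g • o j) m =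
          pt (T j) (o j) (g • o j) (m + a - a') := by
    intro h hh hhk j hj
    obtain ⟨c, h1, h2, h3⟩ :=
      exists_branch (hL.tree j) (o j) ((g * h⁻¹) • o j) (g • o j)
    refine ⟨(T j).dist (o j) c, (T j).dist ((g * h⁻¹) • o j) c, ?_, fun m hm hm' =>
      shift_pt (hL.tree j) ((g * h⁻¹) • ·) (hiso (g * h⁻¹) j) (hmap h j) (hfar hg hj)
        (hfar hh hj) (hkey hhk hj) h2 h3 hm hm'⟩
    rw [(T j).dist_comm (u := (g * h⁻¹) • o j) (v := c)]
    exact h1
  let x : ∀ j, V j := fun j =>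
    if l j = none then pt (T j) (o j) (g • o j) (hi / 2) else o j
  have hx : ∀ j, ((g * g₁⁻¹) * (g * g₂⁻¹)) • x j = ((g * g₂⁻¹) * (g * g₁⁻¹)) • x j := by
    intro j
    by_cases hj : l j = none
    · obtain ⟨a, a', ha, hA⟩ := hsh hp₁ hk₁ hj
      obtain ⟨c, c', hc, hC⟩ := hsh hp₂ hk₂ hj
      have := hs₁ j
      have := hs₂ j
      simp only [x, if_pos hj, mul_smul (g * g₁⁻¹), mul_smul (g * g₂⁻¹)]
      rw [hC _ (by omega) (by omega), hA _ (by omega) (by omega),
        hA _ (by omega) (by omega), hC _ (by omega) (by omega)]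
      congr 1
      omega
    · simp only [x, if_neg hj, mul_smul (g * g₁⁻¹), mul_smul (g * g₂⁻¹), hf₁ j hj, hf₂ j hj]
  have hcomm : (g * g₁⁻¹) * (g * g₂⁻¹) = (g * g₂⁻¹) * (g * g₁⁻¹) := by
    have h1 := hL.free (((g * g₂⁻¹) * (g * g₁⁻¹))⁻¹ * ((g * g₁⁻¹) * (g * g₂⁻¹))) x fun j => by
      rw [mul_smul, hx j, inv_smul_smul]
    exact (inv_mul_eq_one.1 h1).symm
  have hT := hL.tree i
  have p₁ : 1 ≤ (T i).dist (o i) ((g * g₁⁻¹) • o i) :=
    hT.connected.pos_dist_of_ne (Ne.symm hq₁)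
  have p₂ : 1 ≤ (T i).dist (o i) ((g * g₂⁻¹) • o i) :=
    hT.connected.pos_dist_of_ne (Ne.symm hq₂)
  have := hs₁ i
  have := hs₂ i
  obtain ⟨u₁, v₁⟩ := back_pt hT ((g * g₁⁻¹) • ·) (hiso (g * g₁⁻¹) i) (hmap g₁ i) (hfar hg hli)
    (hfar hp₁ hli) (hkey hk₁ hli) p₁ (by omega) hn₁
  obtain ⟨u₂, v₂⟩ := back_pt hT ((g * g₂⁻¹) • ·) (hiso (g * g₂⁻¹) i) (hmap g₂ i) (hfar hg hli)
    (hfar hp₂ hli) (hkey hk₂ hli) p₂ (by omega) hn₂
  have h1 := congrArg (fun e : Γ => e • pt (T i) (o i) (g • o i)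
    ((T i).dist (o i) ((g * g₁⁻¹) • o i) + (T i).dist (o i) ((g * g₂⁻¹) • o i) - 1)) hcomm
  simp only [mul_smul (g * g₁⁻¹), mul_smul (g * g₂⁻¹)] at h1
  have c₁ := v₁ ((T i).dist (o i) ((g * g₁⁻¹) • o i) + (T i).dist (o i) ((g * g₂⁻¹) • o i) - 1)
    (by omega) (by omega)
  have c₂ := v₂ ((T i).dist (o i) ((g * g₁⁻¹) • o i) + (T i).dist (o i) ((g * g₂⁻¹) • o i) - 1)
    (by omega) (by omega)
  rw [c₁, c₂] at h1
  rw [← u₁, ← u₂]
  convert h1 using 3 <;> omega

/-- In the trees of kind `none` the direction of a short shift fixing the other roots is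
forbidden. -/
theorem forb_of_none (hL : TreeLattice (Γ := Γ) T k) (o : ∀ i, V i) {lo hi : ℕ}
    {l : ∀ i, Option (Bool × V i)} {g g' w : Γ} (hg : Piece T o lo hi l g w)
    (hg' : Piece T o lo hi l g' w) (hk : key T o hi l g = key T o hi l g')
    (hsmall : ∀ j, 8 * (T j).dist (o j) ((g * g'⁻¹) • o j) + 8 ≤ hi)
    (hfix : ∀ j, l j ≠ none → (g * g'⁻¹) • o j = o j) {i : ι} (hli : l i = none)
    (hq : (g * g'⁻¹) • o i ≠ o i) :
    nb (T i) (o i) ((g * g'⁻¹) • o i) ∈ forb T o lo hi l g w i := by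
  simp only [forb, if_pos hli, Finset.mem_insert, Finset.mem_singleton]
  by_cases e : nb (T i) (o i) ((g * g'⁻¹) • o i) = nb (T i) (o i) (g • o i)
  · exact Or.inl e
  · have hb : nb (T i) (o i) ((g * g'⁻¹) • o i) ∈ backSet T o lo hi l g w i :=
      ⟨g', hg', hk, hsmall, hfix, hq, rfl, e⟩
    have hne : (backSet T o lo hi l g w i).Nonempty := ⟨_, hb⟩
    rw [dif_pos hne]
    exact Or.inr (backSet_subsingleton hL o hg hli hb hne.choose_spec)

/-- Two distinct members of a piece with the same key differ by an element which, in some tree,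
moves the root in a forbidden direction, as does its inverse. -/
theorem forbidden_dir (hL : TreeLattice (Γ := Γ) T k) (o : ∀ i, V i) (lo hi : ℕ) (hlh : lo < hi)
    (l : ∀ i, Option (Bool × V i)) (g g' w : Γ) (hg : Piece T o lo hi l g w)
    (hg' : Piece T o lo hi l g' w) (hk : key T o hi l g = key T o hi l g') (hne : g ≠ g')
    (hsmall : ∀ j, 8 * (T j).dist (o j) ((g * g'⁻¹) • o j) + 8 ≤ hi) :
    ∃ i, (g * g'⁻¹) • o i ≠ o i ∧
      nb (T i) (o i) ((g * g'⁻¹) • o i) ∈ forb T o lo hi l g w i ∧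
      nb (T i) (o i) ((g' * g⁻¹) • o i) ∈ forb T o lo hi l g' w i := by
  have hinv : g' * g⁻¹ = (g * g'⁻¹)⁻¹ := by group
  have hmove : ∀ {j : ι}, (g * g'⁻¹) • o j ≠ o j → (g' * g⁻¹) • o j ≠ o j := by
    intro j h e
    refine h ?_
    conv_lhs => rw [← e, hinv, smul_inv_smul]
  by_cases h : ∃ j, l j ≠ none ∧ (g * g'⁻¹) • o j ≠ o j
  · obtain ⟨j, hl, hq⟩ := h
    exact ⟨j, hq, forb_of_some hL o hg hg' hl hq, forb_of_some hL o hg' hg hl (hmove hq)⟩
  · push Not at h
    obtain ⟨i, hq⟩ : ∃ i, (g * g'⁻¹) • o i ≠ o i := by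
      by_contra hc
      push Not at hc
      exact hne (mul_inv_eq_one.1 (hL.free _ o hc))
    have hli : l i = none := by
      by_contra hl
      exact hq (h i hl)
    have hsmall' : ∀ j, 8 * (T j).dist (o j) ((g' * g⁻¹) • o j) + 8 ≤ hi := by
      intro j
      have e := dist_smul T hL.adj (fun m => (hL.tree m).connected) (g * g'⁻¹) j (o j)
        ((g' * g⁻¹) • o j)
      rw [← mul_smul, hinv, mul_inv_cancel, one_smul, (T j).dist_comm] at e
      rw [hinv, ← e]
      exact hsmall j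
    have hfix' : ∀ j, l j ≠ none → (g' * g⁻¹) • o j = o j := by
      intro j hl
      conv_lhs => rw [hinv, ← h j hl, inv_smul_smul]
    exact ⟨i, hq, forb_of_none hL o hg hg' hk hsmall h hli hq,
      forb_of_none hL o hg' hg hk.symm hsmall' hfix' hli (hmove hq)⟩

end Vale.Agent.P165.TreeAct
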