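import Vale.Agent.P165.Prod.Defs
import Vale.Agent.P165.Prod.Labels
import Vale.Agent.P165.Prod.TreeAct
import Vale.Agent.P165.Prod.TreeCover
import Vale.Agent.P165.Prod.TreeForbid

/-!
Groups acting freely with finitely many orbits on products of regular trees carry the
combinatorial data of the nonuniqueness theorem.
-/

namespace Vale.Agent.P165.TreeAct

open SimpleGraph Vale.Agent.P165.TreeMetric Vale.Agent.P165.Prod
open scoped Classical

variable {Γ : Type} [Group Γ] {ι : Type} [Fintype ι] {V : ι → Type} [∀ i, MulAction Γ (V i)]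
  {T : ∀ i, SimpleGraph (V i)} {k : ι → ℕ}


/-- The combinatorial data of a tree lattice. -/
theorem tree_geo (hL : TreeLattice (Γ := Γ) T k) (o : ∀ i, V i) : Nonempty (Geo Γ) := by
  have hconn : ∀ i, (T i).Connected := fun i => (hL.tree i).connected
  have hfin : ∀ i v, ((T i).neighborSet v).Finite := fun i v =>
    Set.finite_of_ncard_pos (by rw [hL.regular i v]; linarith [hL.three_le i])
  have hthree : ∀ i, ∃ s : Fin 3 → V i, Function.Injective s ∧ ∀ j, (T i).Adj (o i) (s j) := by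
    intro i
    have hc : 3 ≤ (hfin i (o i)).toFinset.card := by
      rw [← Set.ncard_eq_toFinset_card _ (hfin i (o i)), hL.regular i (o i)]
      exact hL.three_le i
    obtain ⟨A, hA, hcard⟩ := Finset.exists_subset_card_eq hc
    refine ⟨fun j => ((A.equivFinOfCardEq hcard).symm j : A).1,
      fun a b h => (A.equivFinOfCardEq hcard).symm.injective (Subtype.ext h), fun j => ?_⟩
    exact ((hfin i (o i)).mem_toFinset).1 (hA ((A.equivFinOfCardEq hcard).symm j).2)
  choose s hs hsadj using hthree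
  have hpat : {D : ∀ i, V i | ∀ i, (T i).Adj (o i) (D i)}.Finite :=
    (Set.Finite.pi fun i => hfin i (o i)).subset fun D hD i _ => hD i
  have hcov : ∀ D : ∀ i, V i, ∃ Tf : Finset Γ, (∀ i, (T i).Adj (o i) (D i)) →
      ∀ x : ∀ i, V i, ∃ v ∈ Tf, ∀ i, v • x i ≠ o i ∧ nb (T i) (o i) (v • x i) = D i := by
    intro D
    by_cases hD : ∀ i, (T i).Adj (o i) (D i)
    · obtain ⟨Tf, hTf⟩ := tree_cover hL o D hD
      exact ⟨Tf, fun _ => hTf⟩
    · exact ⟨∅, fun h => absurd h hD⟩
  choose Tf hTf using hcov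
  set T0 : Finset Γ := hpat.toFinset.biUnion Tf with hT0
  have hmemT : ∀ D : ∀ i, V i, (∀ i, (T i).Adj (o i) (D i)) → ∀ v ∈ Tf D, v ∈ T0 :=
    fun D hD v hv => Finset.mem_biUnion.2 ⟨D, hpat.mem_toFinset.2 hD, hv⟩
  have hball : ∀ lo : ℕ, {l : ∀ i, Option (Bool × V i) | ∀ i, l i = none ∨
      ∃ b v, (T i).dist (o i) v ≤ lo ∧ l i = some (b, v)}.Finite := by
    intro lo
    have hone : ∀ i, ({none} ∪ (fun x : Bool × V i => some x) ''
        ((Set.univ : Set Bool) ×ˢ {y : V i | (T i).dist (o i) y ≤ lo})).Finite := fun i =>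
      (Set.finite_singleton _).union
        ((Set.finite_univ.prod (tree_ball_finite hL i (o i) lo)).image _)
    refine (Set.Finite.pi hone).subset fun l hl i _ => ?_
    rcases hl i with h | ⟨b, v, hv, h⟩
    · exact Or.inl h
    · exact Or.inr ⟨(b, v), ⟨Set.mem_univ _, hv⟩, h.symm⟩
  refine ⟨{
    T := T0 ∪ T0.image (fun v => v⁻¹)
    H := fun j => {g | ∀ i, g • o i ≠ o i ∧ nb (T i) (o i) (g • o i) = s i j}
    K := 1
    cover_left := ?_
    median := ?_
    L := ∀ i, Option (Bool × V i)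
    Key := ∀ i, V i
    n := 2 * Fintype.card ι + 1
    labs := fun lo => (hball lo).toFinset
    piece := fun lo hi l g w => Piece T o lo hi l g w
    kf := fun _ hi l g => key T o hi l g
    ky := fun _ hi l y => key T o hi l y
    key_eq := ?_
    cover := ?_
    good := fun lo hi l g w =>
      {u | ∀ i, u⁻¹ • o i ≠ o i ∧ nb (T i) (o i) (u⁻¹ • o i) ∉ forb T o lo hi l g w i}
    cover_right := ?_
    inj := ?_ }⟩
  · intro j g
    obtain ⟨v, hv, hvx⟩ := hTf (fun i => s i j) (fun i => hsadj i j) (fun i => g • o i)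
    refine ⟨v, Finset.mem_union_left _ (hmemT _ (fun i => hsadj i j) v hv), fun i => ?_⟩
    rw [mul_smul]
    exact hvx i
  · intro x A hA
    refine Finset.card_le_one.2 fun a ha b hb => inv_mul_eq_one.1 (hL.free _ o fun i => ?_)
    by_contra hne
    set t := a⁻¹ * b with ht
    have hne' : t⁻¹ • o i ≠ o i := fun e => hne (inv_smul_eq_iff.1 e).symm
    have key1 : ∀ j, s i j ≠ nb (T i) (o i) (t • o i) →
        s i j = nb (T i) (o i) (t⁻¹ • o i) := by
      intro j hj
      obtain ⟨-, hjA⟩ := hA a ha j i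
      obtain ⟨hB0, hjB⟩ := hA b hb j i
      have h1 : Between (T i) (t • o i) (o i) ((a⁻¹ * x j) • o i) :=
        btw_of_nb_ne (hL.tree i) (by rw [hjA]; exact fun e => hj e.symm)
      have h2 := btw_smul T hL.adj hconn t⁻¹ i h1
      have e1 : t⁻¹ * (a⁻¹ * x j) = b⁻¹ * x j := by rw [ht]; group
      rw [inv_smul_smul, ← mul_smul, e1] at h2
      rw [← hjB, nb_btw (hL.tree i) h2 hne']
    obtain ⟨j₁, j₂, hjj, h1, h2⟩ : ∃ j₁ j₂ : Fin 3, j₁ ≠ j₂ ∧
        s i j₁ ≠ nb (T i) (o i) (t • o i) ∧ s i j₂ ≠ nb (T i) (o i) (t • o i) := by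
      by_cases h0 : s i 0 = nb (T i) (o i) (t • o i)
      · exact ⟨1, 2, by decide, fun e => absurd (hs i (h0.trans e.symm)) (by decide),
          fun e => absurd (hs i (h0.trans e.symm)) (by decide)⟩
      · by_cases h1 : s i 1 = nb (T i) (o i) (t • o i)
        · exact ⟨0, 2, by decide, h0, fun e => absurd (hs i (h1.trans e.symm)) (by decide)⟩
        · exact ⟨0, 1, by decide, h0, h1⟩
    exact hjj (hs i ((key1 j₁ h1).trans (key1 j₂ h2).symm))
  · intro lo hi l g w hp
    funext i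
    simp only [key]
    split_ifs with hn
    · rcases hp i with ⟨-, -, hb⟩ | ⟨h, -⟩ | ⟨h, -⟩
      · obtain ⟨h1, h2, -⟩ := br_spec T o hL.tree g w i
        rw [pt_mono (hL.tree i) h2 hb.le, pt_mono (hL.tree i) h1 hb.le]
      · rw [hn] at h; simp at h
      · rw [hn] at h; simp at h
    · rfl
  · intro R hR g w
    obtain ⟨j, hj, hgap⟩ := ProdLabels.exists_gap R hR.monotone
      (fun i => (T i).dist (o i) (g • o i)) (fun i => (T i).dist (o i) (br T o g w i))
    refine ⟨j, Nat.lt_succ_of_le hj, fun i => if (T i).dist (o i) (g • o i) ≤ R j then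
      some (true, g • o i) else if (T i).dist (o i) (br T o g w i) ≤ R j then
      some (false, br T o g w i) else none, (hball _).mem_toFinset.2 fun i => ?_, fun i => ?_⟩
    · split_ifs with h1 h2
      · exact Or.inr ⟨_, _, h1, rfl⟩
      · exact Or.inr ⟨_, _, h2, rfl⟩
      · exact Or.inl rfl
    · dsimp only
      obtain ⟨ha, hb⟩ := hgap i
      split_ifs with h1 h2
      · exact Or.inr (Or.inl ⟨rfl, h1⟩)
      · exact Or.inr (Or.inr ⟨rfl, ha.resolve_left h1, h2⟩)
      · exact Or.inl ⟨rfl, ha.resolve_left h1, hb.resolve_left h2⟩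
  · intro lo hi l g w u
    have havoid : ∀ i, ∃ d, (T i).Adj (o i) d ∧ d ∉ forb T o lo hi l g w i := by
      intro i
      by_contra hcon
      push Not at hcon
      have hsub : (Finset.univ.image (s i)) ⊆ forb T o lo hi l g w i := fun d hd => by
        obtain ⟨j, -, rfl⟩ := Finset.mem_image.1 hd
        exact hcon _ (hsadj i j)
      have h3 := (Finset.card_le_card hsub).trans (forb_card T o lo hi l g w i)
      rw [Finset.card_image_of_injective _ (hs i)] at h3
      simp at h3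
    choose D hDadj hDnot using havoid
    obtain ⟨v, hv, hvx⟩ := hTf D hDadj (fun i => u⁻¹ • o i)
    refine ⟨v⁻¹, Finset.mem_union_right _ (Finset.mem_image_of_mem _ (hmemT D hDadj v hv)),
      fun i => ?_⟩
    rw [mul_inv_rev, inv_inv, mul_smul]
    exact ⟨(hvx i).1, by rw [(hvx i).2]; exact hDnot i⟩
  · intro U
    refine ⟨8 * (U ×ˢ U).sup (fun p => ∑ j, (T j).dist (o j) ((p.1⁻¹ * p.2) • o j)) + 8, ?_⟩
    intro lo hi hhi hlh l w g g' u u' hu hu' hp hp' hk hgu hgu' heq
    by_contra hne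
    have hq : g * g'⁻¹ = u⁻¹ * u' := by
      rw [mul_inv_eq_iff_eq_mul, mul_assoc, eq_inv_mul_iff_mul_eq]
      exact heq
    have hsmall : ∀ j, 8 * (T j).dist (o j) ((g * g'⁻¹) • o j) + 8 ≤ hi := by
      intro j
      set f : Γ × Γ → ℕ := fun p => ∑ j, (T j).dist (o j) ((p.1⁻¹ * p.2) • o j) with hf
      have h2 : f (u, u') ≤ (U ×ˢ U).sup f := Finset.le_sup (Finset.mem_product.2 ⟨hu, hu'⟩)
      have h1 : (T j).dist (o j) ((u⁻¹ * u') • o j) ≤ f (u, u') :=
        Finset.single_le_sum (f := fun j => (T j).dist (o j) ((u⁻¹ * u') • o j))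
          (fun j _ => Nat.zero_le _) (Finset.mem_univ j)
      rw [hq]
      omega
    obtain ⟨i, hqo, hdg, hdg'⟩ := forbidden_dir hL o lo hi hlh l g g' w hp hp' hk hne hsmall
    set q := g * g'⁻¹ with hqdef
    obtain ⟨-, hx⟩ := hgu i
    obtain ⟨hx0, hx'⟩ := hgu' i
    have hne2 : q⁻¹ • o i ≠ o i := fun e => hqo (inv_smul_eq_iff.1 e).symm
    have h1 : Between (T i) (q • o i) (o i) (u⁻¹ • o i) :=
      btw_of_nb_ne (hL.tree i) fun e => hx (by rw [← e]; exact hdg)
    have h2 := btw_smul T hL.adj hconn q⁻¹ i h1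
    have e1 : q⁻¹ * u⁻¹ = u'⁻¹ := by rw [hq]; group
    rw [inv_smul_smul, ← mul_smul, e1] at h2
    apply hx'
    rw [nb_btw (hL.tree i) h2 hne2, hqdef, mul_inv_rev, inv_inv]
    exact hdg'

end Vale.Agent.P165.TreeAct
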