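import Vale.Agent.P165.Prod.FreeGeo
import Vale.Agent.P165.Prod.FreeAmen
import Vale.Agent.P165.Prod.GeoExtend
import Vale.Agent.P165.Prod.SubgroupGeo

/-!
Groups which are virtually centre-free finitely generated subgroups of products of free groups
carry the combinatorial data, are infinite and have nonamenable Cayley graphs.
-/

namespace Vale.Agent.P165.Prod

open Finset SimpleGraph
open scoped Classical

variable {Δ : Type} [Group Δ]

/-- The translate of a finite set by any element leaves it at most in a multiple of the boundary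
in a Cayley graph. -/
theorem translate_le_boundary {S : Finset Δ} (hgen : Subgroup.closure (S : Set Δ) = ⊤) (g : Δ) :
    ∃ N : ℕ, ∀ A : Finset Δ, (A.image (· * g) \ A).card ≤
      N * {v | v ∉ A ∧ ∃ a ∈ A, (mulCayley (S : Set Δ)).Adj a v}.ncard := by
  have hfin : ∀ A : Finset Δ, {v | v ∉ A ∧ ∃ a ∈ A, (mulCayley (S : Set Δ)).Adj a v}.Finite := by
    intro A
    refine ((A ×ˢ S).image (fun x => x.1 * x.2) ∪
      (A ×ˢ S).image (fun x => x.1 * x.2⁻¹)).finite_toSet.subset ?_
    rintro v ⟨-, a, ha, h⟩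
    rw [mulCayley_adj'] at h
    obtain ⟨-, s, hs, h' | h'⟩ := h
    · exact mem_union_left _ (mem_image.2 ⟨(a, s), mem_product.2 ⟨ha, hs⟩, h'⟩)
    · exact mem_union_right _
        (mem_image.2 ⟨(a, s), mem_product.2 ⟨ha, hs⟩, by rw [h', mul_inv_cancel_right]⟩)
  have hg : g ∈ Subgroup.closure (S : Set Δ) := hgen ▸ Subgroup.mem_top g
  induction hg using Subgroup.closure_induction with
  | mem s hs =>
    refine ⟨1, fun A => ?_⟩
    rw [one_mul, ← Set.ncard_coe_finset]
    refine Set.ncard_le_ncard ?_ (hfin A)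
    intro v hv
    obtain ⟨hv1, hv2⟩ := mem_sdiff.1 (mem_coe.1 hv)
    obtain ⟨a, ha, rfl⟩ := mem_image.1 hv1
    refine ⟨hv2, a, ha, ?_⟩
    rw [mulCayley_adj']
    exact ⟨fun e => hv2 (e ▸ ha), s, hs, Or.inl rfl⟩
  | one => exact ⟨0, fun A => by simp⟩
  | mul x y _ _ hx hy =>
    obtain ⟨M, hM⟩ := hx
    obtain ⟨N, hN⟩ := hy
    refine ⟨M + N, fun A => ?_⟩
    rw [add_mul]
    refine le_trans ?_ (Nat.add_le_add (hM A) (hN A))
    have hsub : A.image (· * (x * y)) \ A ⊆
        (A.image (· * x) \ A).image (· * y) ∪ (A.image (· * y) \ A) := by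
      intro v hv
      obtain ⟨hv1, hv2⟩ := mem_sdiff.1 hv
      obtain ⟨a, ha, rfl⟩ := mem_image.1 hv1
      rw [← mul_assoc] at hv2 ⊢
      by_cases h : a * x ∈ A
      · exact mem_union_right _ (mem_sdiff.2 ⟨mem_image_of_mem _ h, hv2⟩)
      · exact mem_union_left _
          (mem_image_of_mem _ (mem_sdiff.2 ⟨mem_image_of_mem _ ha, h⟩))
    exact ((card_le_card hsub).trans (card_union_le _ _)).trans
      (Nat.add_le_add_right card_image_le _)
  | inv x _ hx =>
    obtain ⟨N, hN⟩ := hx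
    refine ⟨N, fun A => le_trans ?_ (hN A)⟩
    have h1 : (A.image (· * x⁻¹) \ A).image (· * x) ⊆ A \ A.image (· * x) := by
      intro v hv
      obtain ⟨w, hw, rfl⟩ := mem_image.1 hv
      obtain ⟨hw1, hw2⟩ := mem_sdiff.1 hw
      obtain ⟨a, ha, rfl⟩ := mem_image.1 hw1
      refine mem_sdiff.2 ⟨by simpa using ha, fun h => hw2 ?_⟩
      obtain ⟨b, hb, e⟩ := mem_image.1 h
      exact mul_left_injective x e ▸ hb
    have h2 := card_le_card h1
    rw [card_image_of_injective _ (mul_left_injective x)] at h2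
    refine h2.trans (le_of_eq ?_)
    exact card_sdiff_comm (card_image_of_injective A (mul_left_injective x)).symm

/-- A group with a finitely generated subgroup whose Cayley graphs are nonamenable has only
nonamenable Cayley graphs: cut a finite set by left cosets of the subgroup. -/
theorem nonamenable_of_subgroup (G : Subgroup Δ) (SG : Finset G)
    (hG : Nonamenable (mulCayley (SG : Set G))) (S : Finset Δ)
    (hgen : Subgroup.closure (S : Set Δ) = ⊤) : Nonamenable (mulCayley (S : Set Δ)) := by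
  obtain ⟨κ, hκ, hexp⟩ := hG
  let L : Finset Δ := SG.image (fun s : G => (s : Δ)) ∪ SG.image (fun s : G => (s : Δ)⁻¹)
  choose N hN using translate_le_boundary (S := S) hgen
  refine ⟨κ / ((∑ t ∈ L, N t : ℕ) + 1), by positivity, fun A _ => ?_⟩
  let bd : ℕ := {v : Δ | v ∉ A ∧ ∃ a ∈ A, (mulCayley (S : Set Δ)).Adj a v}.ncard
  let B : Finset Δ := L.biUnion fun t => A.image (· * t) \ A
  have hB : B.card ≤ (∑ t ∈ L, N t) * bd := by
    rw [sum_mul]
    exact card_biUnion_le.trans (sum_le_sum fun t _ => hN t A)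
  let cls : Finset (Δ ⧸ G) := A.image fun a : Δ => (a : Δ ⧸ G)
  have hfib : ∀ q ∈ cls, κ * ((A.filter fun a : Δ => (a : Δ ⧸ G) = q).card : ℝ) ≤
      ((B.filter fun v : Δ => (v : Δ ⧸ G) = q).card : ℝ) := by
    intro q hq
    obtain ⟨r, hrA, rfl⟩ := mem_image.1 hq
    let P : Finset G := A.preimage (fun γ : G => r * γ)
      fun x _ y _ h => Subtype.ext (mul_left_cancel h)
    have hmem : ∀ γ : G, γ ∈ P ↔ r * (γ : Δ) ∈ A := fun γ => mem_preimage
    have hP : (A.filter fun a : Δ => (a : Δ ⧸ G) = r).card = P.card := by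
      symm
      refine card_bij (fun γ _ => r * (γ : Δ)) (fun γ hγ => ?_)
        (fun x _ y _ h => Subtype.ext (mul_left_cancel h)) fun a ha => ?_
      · exact mem_filter.2 ⟨(hmem γ).1 hγ, QuotientGroup.eq.2 (by simp)⟩
      · obtain ⟨haA, hae⟩ := mem_filter.1 ha
        exact ⟨⟨r⁻¹ * a, QuotientGroup.eq.1 hae.symm⟩, (hmem _).2 (by simpa using haA),
          by simp⟩
    have hne : P.Nonempty := ⟨1, (hmem _).2 (by simpa using hrA)⟩
    rw [hP]
    refine (hexp P hne).trans ?_
    have hsub : (fun γ : G => r * (γ : Δ)) ''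
        {v | v ∉ P ∧ ∃ a ∈ P, (mulCayley (SG : Set G)).Adj a v} ⊆
        (B.filter fun v : Δ => (v : Δ ⧸ G) = r : Finset Δ) := by
      rintro _ ⟨v, ⟨hv, a, ha, hav⟩, rfl⟩
      refine mem_coe.2 (mem_filter.2 ⟨?_, QuotientGroup.eq.2 (by simp)⟩)
      rw [mulCayley_adj'] at hav
      obtain ⟨-, s, hs, h | h⟩ := hav
      · refine mem_biUnion.2 ⟨s, mem_union_left _ (mem_image_of_mem _ (mem_coe.1 hs)), mem_sdiff.2
          ⟨mem_image.2 ⟨r * a, (hmem a).1 ha, ?_⟩, fun hm => hv ((hmem v).2 hm)⟩⟩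
        rw [← h]; simp [mul_assoc]
      · refine mem_biUnion.2 ⟨(s : Δ)⁻¹, mem_union_right _ (mem_image_of_mem _ (mem_coe.1 hs)), mem_sdiff.2
          ⟨mem_image.2 ⟨r * a, (hmem a).1 ha, ?_⟩, fun hm => hv ((hmem v).2 hm)⟩⟩
        rw [h]; simp [mul_assoc]
    have h2 := Set.ncard_le_ncard hsub (Finset.finite_toSet _)
    rw [Set.ncard_coe_finset, Set.ncard_image_of_injective _
      (fun x y h => Subtype.ext (mul_left_cancel h))] at h2
    exact_mod_cast h2
  have hA : (A.card : ℝ) = ∑ q ∈ cls, ((A.filter fun a : Δ => (a : Δ ⧸ G) = q).card : ℝ) := by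
    exact_mod_cast card_eq_sum_card_fiberwise (f := fun a : Δ => (a : Δ ⧸ G)) (t := cls)
      fun a ha => mem_image_of_mem _ ha
  have hB2 : ∑ q ∈ cls, (B.filter fun v : Δ => (v : Δ ⧸ G) = q).card ≤ B.card := by
    rw [sum_card_fiberwise_eq_card_filter]
    exact card_filter_le _ _
  have h : κ * (A.card : ℝ) ≤ ((∑ t ∈ L, N t : ℕ) : ℝ) * (bd : ℝ) := by
    rw [hA, mul_sum]
    refine (sum_le_sum hfib).trans ?_
    exact_mod_cast hB2.trans hB
  rw [div_mul_eq_mul_div, div_le_iff₀ (by positivity)]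
  nlinarith [Nat.cast_nonneg (α := ℝ) bd]

/-- Virtually a centre-free finitely generated subgroup of a product of free groups. -/
theorem virtual_geo (G : Subgroup Δ) [G.FiniteIndex] [Group.FG G] [Nontrivial G]
    (hZ : ∀ z : G, (∀ a, z * a = a * z) → z = 1) {ι : Type} [Fintype ι] (m : ι → ℕ)
    (φ : G →* ∀ i, FreeGroup (Fin (m i))) (hφ : Function.Injective φ) :
    Nonempty (Geo Δ) ∧ Infinite Δ ∧
      ∀ S : Finset Δ, Subgroup.closure (S : Set Δ) = ⊤ → Nonamenable (mulCayley (S : Set Δ)) := by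
  obtain ⟨κ, hκ, k, ψ, hne, hψ, hk, hn⟩ := exists_full_embedding_of_center G m φ hφ hZ
  obtain ⟨Geom⟩ := geo_of_hom κ k hk ψ hψ (fun i => by convert hn i)
  have : (G.subtype.range).FiniteIndex := by rw [G.range_subtype]; infer_instance
  obtain ⟨T, hT⟩ := (Group.FG.out : (⊤ : Subgroup G).FG)
  obtain ⟨i⟩ := hne
  have hna : ∀ S : Finset Δ, Subgroup.closure (S : Set Δ) = ⊤ →
      Nonamenable (mulCayley (S : Set Δ)) := fun S hS => nonamenable_of_subgroup G T
    (nonamenable_of_hom ψ (hk i) (by convert hn i) T hT) S hS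
  refine ⟨Geom.extend G.subtype G.subtype_injective, ?_, hna⟩
  by_contra hfin
  rw [not_infinite_iff_finite] at hfin
  have := Fintype.ofFinite Δ
  obtain ⟨c, hc, hexp⟩ := hna Finset.univ (by simp)
  have h1 := hexp Finset.univ Finset.univ_nonempty
  simp only [Finset.mem_univ, not_true_eq_false, false_and, Set.ofPred_false, Set.ncard_empty,
    Nat.cast_zero] at h1
  have : (0 : ℝ) < (Finset.univ : Finset Δ).card := by
    exact_mod_cast Finset.univ_nonempty.card_pos
  nlinarith

end Vale.Agent.P165.Prod
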